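import Crest.Agent.R103.Core
import Crest.Prelude.Def_Billiard

/-! Row 103: dictionary with the definitions of the statement. -/

set_option autoImplicit false

namespace Crest.Agent.R103

open MeasureTheory Set Filter Topology
open scoped ENNReal ComplexConjugate InnerProductSpace ContDiff

open Crest.AnalysisR

/-- the identification of `ℂ` with the Euclidean plane -/
noncomputable def toP : ℂ ≃ₗᵢ[ℝ] Billiard.Plane := Complex.orthonormalBasisOneI.repr

/-- the identification of the phase spaces -/
noncomputable def emb (y : Phase) : Billiard.Phase := (toP y.1, ⟨toP (e y.2), by simp⟩)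

/-- `T` is the triangle with vertices `A` -/
def Tri.Models (T : Tri) (A : Fin 3 → Billiard.Plane) : Prop := ∀ j, A j = toP (T.v j)

end Crest.Agent.R103
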