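import Crest.Agent.R103.Defs

/-! Row 103: elementary geometry of lines, of the triangle and of the folding. -/

set_option autoImplicit false

namespace Crest.Agent.R103

open MeasureTheory Set Filter Topology
open scoped ENNReal ComplexConjugate InnerProductSpace ContDiff

/-! ### Lines -/

@[simp] theorem line_zero (y : Phase) : line y 0 = y.1 := by simp [line]
theorem continuous_line : Continuous fun p : ℝ × Phase => line p.2 p.1 := by
  have := continuous_e
  unfold line; fun_prop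
theorem continuous_line' (y : Phase) : Continuous (line y) := by
  unfold line; fun_prop
theorem line_sub_line (y : Phase) (s t : ℝ) : line y s - line y t = (s - t) • e y.2 := by
  simp only [line, sub_smul]; ring
theorem norm_line_sub_line (y : Phase) (s t : ℝ) : ‖line y s - line y t‖ = |s - t| := by
  rw [line_sub_line, norm_smul, norm_e, mul_one, Real.norm_eq_abs]
@[simp] theorem sh_fst (τ : ℝ) (y : Phase) : (sh τ y).1 = line y τ := rfl
@[simp] theorem sh_snd (τ : ℝ) (y : Phase) : (sh τ y).2 = y.2 := rfl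
@[simp] theorem sh_zero (y : Phase) : sh 0 y = y := by simp [sh]
theorem line_sh (s τ : ℝ) (y : Phase) : line (sh s y) τ = line y (s + τ) := by
  simp only [line, sh, add_smul]; ring
theorem sh_sh (s τ : ℝ) (y : Phase) : sh τ (sh s y) = sh (s + τ) y := by
  simp only [sh, Prod.mk.injEq, and_true]; exact line_sh s τ y
theorem line_smul (A : Iso) (y : Phase) (τ : ℝ) : line (A • y) τ = A • line y τ := by
  simp only [line, Prod.smul_fst, Prod.smul_snd, Iso.smul_add', Iso.lin_smul, Iso.e_smul]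
theorem sh_smul (A : Iso) (y : Phase) (τ : ℝ) : sh τ (A • y) = A • sh τ y :=
  Prod.ext (line_smul A y τ) rfl
theorem line_tr (w : ℂ) (y : Phase) (τ : ℝ) : line (tr w y) τ = line y τ + w := by
  simp only [line, tr]; ring
theorem smul_tr (A : Iso) (w : ℂ) (y : Phase) : A • tr w y = tr (A.lin w) (A • y) :=
  Prod.ext (A.smul_add' _ _) rfl
@[simp] theorem rev_fst (y : Phase) : (rev y).1 = y.1 := rfl
theorem e_rev (y : Phase) : e (rev y).2 = -e y.2 := by simp [rev, e_add, e_pi]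
theorem line_rev (y : Phase) (τ : ℝ) : line (rev y) τ = line y (-τ) := by
  simp only [line, e_rev, rev_fst, smul_neg, neg_smul]
theorem pi_add_pi : ((Real.pi : ℝ) : Ang) + ((Real.pi : ℝ) : Ang) = 0 := by
  apply e_injective; rw [e_add, e_pi, e_zero]; ring
@[simp] theorem rev_rev (y : Phase) : rev (rev y) = y := by
  simp only [rev, add_assoc, pi_add_pi, add_zero]
theorem smul_rev (A : Iso) (y : Phase) : A • rev y = rev (A • y) := by
  refine Prod.ext rfl (e_injective ?_)
  rw [Prod.smul_snd, Iso.e_smul, e_rev, e_rev, Iso.lin_neg, Prod.smul_snd, Iso.e_smul]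
theorem sh_rev (y : Phase) (τ : ℝ) : sh τ (rev y) = rev (sh (-τ) y) :=
  Prod.ext (line_rev y τ) rfl
theorem continuous_rev : Continuous rev := by unfold rev; fun_prop
theorem continuous_crd (p : ℂ) : Continuous (crd p) := by
  have := continuous_e
  unfold crd; fun_prop
theorem crd_mul (p : ℂ) (y : Phase) : crd p y * e y.2 = y.1 - p := by
  rw [crd, mul_assoc, conj_mul_e, mul_one]
theorem line_sub (p : ℂ) (y : Phase) (τ : ℝ) : line y τ - p = (crd p y + τ) * e y.2 := by
  rw [add_mul, crd_mul, line, Complex.real_smul]; ring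
theorem norm_line_sub (p : ℂ) (y : Phase) (τ : ℝ) : ‖line y τ - p‖ = ‖crd p y + τ‖ := by
  rw [line_sub, norm_mul, norm_e, mul_one]
theorem norm_crd (p : ℂ) (y : Phase) : ‖crd p y‖ = ‖y.1 - p‖ := by
  simpa using (norm_line_sub p y 0).symm
theorem crd_sh (p : ℂ) (y : Phase) (τ : ℝ) : crd p (sh τ y) = crd p y + τ := by
  rw [crd, sh_fst, sh_snd, line_sub, mul_assoc, e_mul_conj, mul_one]
theorem crd_rev (p : ℂ) (y : Phase) : crd p (rev y) = -crd p y := by
  simp [crd, e_rev]
theorem crd_smul (A : Iso) (p : ℂ) (y : Phase) :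
    crd (A • p) (A • y) = if A.flip then conj (crd p y) else crd p y := by
  have h := e_mul_conj A.β
  simp only [crd, Prod.smul_fst, Prod.smul_snd, Iso.smul_sub_smul, Iso.e_smul, Iso.lin]
  split_ifs
  · simp only [map_mul, Complex.conj_conj]
    linear_combination (conj (y.1 - p) * e y.2) * h
  · simp only [map_mul]
    linear_combination ((y.1 - p) * conj (e y.2)) * h
theorem crd_smul_re (A : Iso) (p : ℂ) (y : Phase) : (crd (A • p) (A • y)).re = (crd p y).re := by
  rw [crd_smul]; split_ifs <;> simp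
theorem crd_smul_im (A : Iso) (p : ℂ) (y : Phase) :
    |(crd (A • p) (A • y)).im| = |(crd p y).im| := by
  rw [crd_smul]; split_ifs <;> simp

namespace Tri

variable (T : Tri)

/-! ### The triangle -/

@[simp] theorem norm_ν (j : Fin 3) : ‖T.ν j‖ = 1 := norm_e _
theorem ell_v (i j : Fin 3) : T.ell i (T.v j) = if i = j then T.h i else 0 := T.ell_v' i j
theorem sum_one (z : ℂ) : ∑ j, T.ell j z / T.h j = 1 := T.sum_one' z
theorem bary (z : ℂ) : ∑ j, (T.ell j z / T.h j) • T.v j = z := T.bary' z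
theorem ell_add (j : Fin 3) (z u : ℂ) : T.ell j (z + u) = T.ell j z + ⟪T.ν j, u⟫_ℝ := by
  simp only [ell, ← inner_add_right]; congr 1; ring
theorem ell_sub (j : Fin 3) (z w : ℂ) : T.ell j z - T.ell j w = ⟪T.ν j, z - w⟫_ℝ := by
  simp only [ell, ← inner_sub_right]; congr 1; ring
theorem abs_ell_sub_le (j : Fin 3) (z w : ℂ) : |T.ell j z - T.ell j w| ≤ ‖z - w‖ := by
  rw [ell_sub]
  simpa using abs_real_inner_le_norm (T.ν j) (z - w)
theorem continuous_ell (j : Fin 3) : Continuous (T.ell j) := by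
  unfold ell; fun_prop
theorem e_σβ' (j : Fin 3) : e (T.σ j).β = -(T.ν j * T.ν j) := by
  simp only [σ, e_add, e_pi, ν]; ring
theorem ν_mul_conj (j : Fin 3) : T.ν j * conj (T.ν j) = 1 := e_mul_conj _
theorem inner_ν (j : Fin 3) (u : ℂ) :
    ((2 * ⟪T.ν j, u⟫_ℝ : ℝ) : ℂ) = u * conj (T.ν j) + conj u * T.ν j := by
  rw [Complex.inner]
  have := Complex.add_conj (u * conj (T.ν j))
  rw [← this]; simp
theorem σ_lin' (j : Fin 3) (u : ℂ) : (T.σ j).lin u = u - (2 * ⟪T.ν j, u⟫_ℝ) • T.ν j := by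
  have h1 : (T.σ j).lin u = e (T.σ j).β * conj u := rfl
  rw [h1, e_σβ', Complex.real_smul, inner_ν]
  linear_combination u * T.ν_mul_conj j
theorem σ_smul (j : Fin 3) (z : ℂ) : T.σ j • z = z - (2 * T.ell j z) • T.ν j := by
  have h1 : (T.σ j).b = (2 * ⟪T.ν j, T.v (j + 1)⟫_ℝ) • T.ν j := rfl
  rw [Iso.smul_def, σ_lin', h1, ell, inner_sub_right, mul_sub, sub_smul]; ring
theorem σ_lin (j : Fin 3) (u : ℂ) : (T.σ j).lin u = u - (2 * ⟪T.ν j, u⟫_ℝ) • T.ν j := by
  exact T.σ_lin' j u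
theorem σ_ang (j : Fin 3) (θ : Ang) : T.σ j • θ = (T.σ j).β - θ := rfl
theorem e_σβ (j : Fin 3) : e (T.σ j).β = -(T.ν j * T.ν j) := by
  exact T.e_σβ' j
theorem ell_σ (j : Fin 3) (z : ℂ) : T.ell j (T.σ j • z) = -T.ell j z := by
  rw [σ_smul, sub_eq_add_neg, ell_add, inner_neg_right, inner_smul_right, real_inner_self_eq_norm_sq,
    norm_ν]
  ring
theorem σ_mul_self (j : Fin 3) : T.σ j * T.σ j = 1 := by
  have h : T.σ j • T.σ j • (0 : ℂ) = 0 := by
    rw [T.σ_smul j (T.σ j • (0 : ℂ)), ell_σ, σ_smul, mul_neg, neg_smul]; ring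
  ext1
  · rfl
  · change (T.σ j).β - (T.σ j).β = 0
    exact sub_self _
  · rw [← mul_smul, Iso.smul_def, Iso.lin_zero, zero_add] at h
    exact h
theorem σ_inv (j : Fin 3) : (T.σ j)⁻¹ = T.σ j := inv_eq_of_mul_eq_one_right (T.σ_mul_self j)
theorem σ_fix {j : Fin 3} {z : ℂ} (h : T.ell j z = 0) : T.σ j • z = z := by
  rw [σ_smul, h]; simp
theorem σ_v {i j : Fin 3} (h : i ≠ j) : T.σ i • T.v j = T.v j := by
  apply σ_fix; rw [ell_v, if_neg h]
theorem σ_mem (j : Fin 3) : T.σ j ∈ T.Γ := Subgroup.subset_closure ⟨j, rfl⟩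
theorem countable_Γ : (T.Γ : Set Iso).Countable := by
  have h : (T.Γ : Set Iso) ⊆ range fun l : List (Fin 3) => (l.map T.σ).prod := by
    intro A hA
    induction hA using Subgroup.closure_induction_left with
    | one => exact ⟨[], rfl⟩
    | mul_left x hx y _ ih =>
      obtain ⟨j, rfl⟩ := hx
      obtain ⟨l, rfl⟩ := ih
      exact ⟨j :: l, by simp⟩
    | inv_mul_cancel x hx y _ ih =>
      obtain ⟨j, rfl⟩ := hx
      obtain ⟨l, rfl⟩ := ih
      exact ⟨j :: l, by simp [σ_inv]⟩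
  exact (countable_range _).mono h
theorem countable_V : T.V.Countable := by
  have h : T.V ⊆ ⋃ A ∈ (T.Γ : Set Iso), range fun j => A⁻¹ • T.v j := by
    rintro p ⟨A, hA, j, h⟩
    simp only [mem_iUnion]
    exact ⟨A, hA, j, by simp [← h]⟩
  exact (T.countable_Γ.biUnion fun _ _ => countable_range _).mono h
theorem v_mem_V (j : Fin 3) : T.v j ∈ T.V := ⟨1, one_mem _, j, one_smul _ _⟩
theorem isOpen_Int : IsOpen T.Int := by
  have : T.Int = ⋂ j, {z | 0 < T.ell j z} := by ext; simp [Int]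
  rw [this]
  exact isOpen_iInter_of_finite fun j => isOpen_lt continuous_const (T.continuous_ell j)
theorem isClosed_Δ : IsClosed T.Δ := by
  have : T.Δ = ⋂ j, {z | 0 ≤ T.ell j z} := by ext; simp [Δ]
  rw [this]
  exact isClosed_iInter fun j => isClosed_le continuous_const (T.continuous_ell j)
theorem ell_combo (j : Fin 3) (x z : ℂ) {a b : ℝ} (hab : a + b = 1) :
    T.ell j (a • x + b • z) = a * T.ell j x + b * T.ell j z := by
  have : a • x + b • z - T.v (j + 1) = a • (x - T.v (j + 1)) + b • (z - T.v (j + 1)) := by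
    have hb : b = 1 - a := by linarith
    subst hb
    simp only [Complex.real_smul]; push_cast; ring
  simp only [ell, this, inner_add_right, inner_smul_right]
theorem convex_Int : Convex ℝ T.Int := by
  intro x hx z hz a b ha hb hab j
  rw [T.ell_combo j x z hab]
  have h1 := hx j
  have h2 := hz j
  rcases ha.eq_or_lt with rfl | ha'
  · have : b = 1 := by linarith
    subst this; linarith
  · have := mul_pos ha' h1
    have := mul_nonneg hb h2.le
    linarith
theorem convex_Δ : Convex ℝ T.Δ := by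
  intro x hx z hz a b ha hb hab j
  rw [T.ell_combo j x z hab]
  exact add_nonneg (mul_nonneg ha (hx j)) (mul_nonneg hb (hz j))
theorem Int_subset_Δ : T.Int ⊆ T.Δ := fun _ h j => (h j).le
theorem Int_nonempty : T.Int.Nonempty := by
  refine ⟨(2 / 3 : ℝ) • ((1 / 2 : ℝ) • T.v 0 + (1 / 2 : ℝ) • T.v 1) + (1 / 3 : ℝ) • T.v 2, fun j => ?_⟩
  rw [T.ell_combo j _ _ (by norm_num), T.ell_combo j _ _ (by norm_num), ell_v, ell_v, ell_v]
  have := T.h_pos j
  fin_cases j <;> simp <;> simpa using this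
theorem norm_v_sub_le' (i j : Fin 3) : ‖T.v i - T.v j‖ ≤ T.per := by
  have h0 := norm_nonneg (T.v 0 - T.v 1)
  have h1 := norm_nonneg (T.v 1 - T.v 2)
  have h2 := norm_nonneg (T.v 2 - T.v 0)
  have h3 := norm_sub_rev (T.v 0) (T.v 1)
  have h4 := norm_sub_rev (T.v 1) (T.v 2)
  have h5 := norm_sub_rev (T.v 2) (T.v 0)
  unfold per
  fin_cases i <;> fin_cases j <;> simp <;> linarith
theorem sub_v_eq (z : ℂ) (k : Fin 3) :
    z - T.v k = ∑ j, (T.ell j z / T.h j) • (T.v j - T.v k) := by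
  simp only [smul_sub, Finset.sum_sub_distrib, ← Finset.sum_smul, sum_one, bary, one_smul]
theorem norm_sub_v_le' {z : ℂ} (hz : z ∈ T.Δ) (k : Fin 3) :
    ‖z - T.v k‖ ≤ (∑ j ∈ Finset.univ.erase k, T.ell j z / T.h j) * T.per := by
  rw [sub_v_eq, ← Finset.sum_erase (a := k) _ (by simp), Finset.sum_mul]
  refine (norm_sum_le _ _).trans (Finset.sum_le_sum fun j _ => ?_)
  have := div_nonneg (hz j) (T.h_pos j).le
  rw [norm_smul, Real.norm_eq_abs, abs_of_nonneg this]
  exact mul_le_mul_of_nonneg_left (T.norm_v_sub_le' _ _) this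
theorem norm_sub_v_le {z : ℂ} (hz : z ∈ T.Δ) (j : Fin 3) : ‖z - T.v j‖ ≤ T.per := by
  refine (T.norm_sub_v_le' hz j).trans ?_
  have h1 : ∑ i ∈ Finset.univ.erase j, T.ell i z / T.h i ≤ 1 := by
    rw [← T.sum_one z]
    exact Finset.sum_le_sum_of_subset_of_nonneg (Finset.erase_subset _ _)
      fun i _ _ => div_nonneg (hz i) (T.h_pos i).le
  have h2 : 0 ≤ T.per := (norm_nonneg _).trans (T.norm_v_sub_le' 0 0)
  nlinarith
theorem isBounded_Δ : Bornology.IsBounded T.Δ := by
  refine (Metric.isBounded_closedBall (x := T.v 0) (r := T.per)).subset fun z hz => ?_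
  rw [mem_closedBall_iff_norm]
  exact T.norm_sub_v_le hz 0
theorem d_le (z : ℂ) (j : Fin 3) : T.d z ≤ ‖z - T.v j‖ := by
  rw [← dist_eq_norm]; exact Metric.infDist_le_dist_of_mem ⟨j, rfl⟩
theorem exists_d (z : ℂ) : ∃ j, T.d z = ‖z - T.v j‖ := by
  obtain ⟨_, ⟨j, rfl⟩, h⟩ := (finite_range T.v).isCompact.exists_infDist_eq_dist
    (range_nonempty _) z
  exact ⟨j, by rw [← dist_eq_norm]; exact h⟩
theorem d_nonneg (z : ℂ) : 0 ≤ T.d z := Metric.infDist_nonneg
theorem abs_d_sub_le (z w : ℂ) : |T.d z - T.d w| ≤ ‖z - w‖ := by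
  have h1 := Metric.infDist_le_infDist_add_dist (s := range T.v) (x := z) (y := w)
  have h2 := Metric.infDist_le_infDist_add_dist (s := range T.v) (x := w) (y := z)
  rw [dist_comm] at h2
  rw [dist_eq_norm] at h1 h2
  unfold d
  rw [abs_le]; constructor <;> linarith
theorem continuous_d : Continuous T.d := Metric.continuous_infDist_pt _
theorem r0_pos : 0 < T.r0 := by
  have h0 := T.h_pos 0
  have h1 := T.h_pos 1
  have h2 := T.h_pos 2
  unfold r0; positivity
theorem r0_le (j : Fin 3) : 10 * T.r0 ≤ T.h j := by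
  have h0 := min_le_left (T.h 0) (min (T.h 1) (T.h 2))
  have h1 := min_le_right (T.h 0) (min (T.h 1) (T.h 2))
  have h2 := min_le_left (T.h 1) (T.h 2)
  have h3 := min_le_right (T.h 1) (T.h 2)
  unfold r0
  fin_cases j <;> simp only [Fin.zero_eta, Fin.mk_one, Fin.reduceFinMk] <;> linarith
theorem v_sep {i j : Fin 3} (h : i ≠ j) : 10 * T.r0 ≤ ‖T.v i - T.v j‖ := by
  have h1 := T.abs_ell_sub_le i (T.v i) (T.v j)
  rw [ell_v, ell_v, if_pos rfl, if_neg h, sub_zero] at h1
  exact (T.r0_le i).trans ((le_abs_self _).trans h1)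
theorem norm_v_sub_le (i j : Fin 3) : ‖T.v i - T.v j‖ ≤ T.per := by
  exact T.norm_v_sub_le' i j
theorem per_pos : 0 < T.per := by
  have h1 := T.v_sep (i := 0) (j := 1) (by decide)
  have h2 := T.norm_v_sub_le 0 1
  have := T.r0_pos
  linarith
theorem c0_pos : 0 < T.c0 := by
  exact div_pos T.r0_pos T.per_pos
theorem c0_le : T.c0 ≤ 1 / 10 := by
  have h1 := T.v_sep (i := 0) (j := 1) (by decide)
  have h2 := T.norm_v_sub_le 0 1
  rw [c0, div_le_iff₀ T.per_pos]; linarith
theorem d_eq {z : ℂ} {j : Fin 3} (h : ‖z - T.v j‖ < 5 * T.r0) : T.d z = ‖z - T.v j‖ := by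
  obtain ⟨i, hi⟩ := T.exists_d z
  by_cases hij : i = j
  · rw [hi, hij]
  · have h1 := T.v_sep hij
    have h2 := T.d_le z j
    have h3 : ‖T.v i - T.v j‖ ≤ ‖z - T.v i‖ + ‖z - T.v j‖ := by
      have : T.v i - T.v j = -(z - T.v i) + (z - T.v j) := by ring
      rw [this]; exact (norm_add_le _ _).trans (by rw [norm_neg])
    linarith
theorem ell_pos_of_near {z : ℂ} {j : Fin 3} (h : ‖z - T.v j‖ < 10 * T.r0) : 0 < T.ell j z := by
  have h1 := T.abs_ell_sub_le j z (T.v j)
  rw [ell_v, if_pos rfl] at h1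
  have := T.r0_le j
  have := (abs_le.1 h1).1
  linarith
theorem Int_subset_D0 : T.Int ⊆ T.D0 := by
  intro z hz
  refine ⟨T.Int_subset_Δ hz, ?_⟩
  obtain ⟨j, hj⟩ := T.exists_d z
  have h1 := T.abs_ell_sub_le (j + 1) z (T.v j)
  have hne : j + 1 ≠ j := by fin_cases j <;> decide
  rw [ell_v, if_neg hne, sub_zero] at h1
  have := hz (j + 1)
  have := le_abs_self (T.ell (j + 1) z)
  linarith
theorem d_le_of_two {x : ℂ} (hx : x ∈ T.Δ) {i j : Fin 3} (hij : i ≠ j) :
    T.d x ≤ (T.ell i x / T.h i + T.ell j x / T.h j) * T.per := by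
  obtain ⟨k, hk⟩ : ∃ k : Fin 3, Finset.univ.erase k = {i, j} := by
    revert i j; decide
  have := T.norm_sub_v_le' hx k
  rw [hk, Finset.sum_pair hij] at this
  exact (T.d_le x k).trans this
/-- a point of the triangle which is not a vertex lies on at most one side -/
theorem side_unique {a : ℂ} (ha : a ∈ T.D0) {i j : Fin 3} (hi : T.ell i a = 0)
    (hj : T.ell j a = 0) : i = j := by
  by_contra hij
  have := T.d_le_of_two ha.1 hij
  rw [hi, hj] at this
  have := ha.2
  simp only [zero_div, add_zero, zero_mul] at *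
  linarith

/-! ### Charts -/

/-- near a point of `D0` at most one side is relevant -/
theorem chart_side {x : ℂ} (hx : x ∈ T.D0) :
    ∃ j, ∀ i, i ≠ j → ∀ z, ‖z - x‖ < 3 * T.c0 * T.d x → 0 < T.ell i z := by
  by_cases h : ∃ j, T.ell j x < 3 * T.c0 * T.d x
  · obtain ⟨j, hj⟩ := h
    refine ⟨j, fun i hij z hz => ?_⟩
    by_contra hneg
    have h1 := (abs_le.1 (T.abs_ell_sub_le i z x)).1
    have hi : T.ell i x < 3 * T.c0 * T.d x := by linarith
    have h2 := T.d_le_of_two hx.1 hij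
    have hr := T.r0_pos
    have hp := T.per_pos
    have key : ∀ k, T.ell k x < 3 * T.c0 * T.d x → T.ell k x / T.h k * T.per ≤ 3 / 10 * T.d x := by
      intro k hk
      have hk2 := T.r0_le k
      have hk3 := T.h_pos k
      have hd := hx.2
      rw [div_mul_eq_mul_div, div_le_iff₀ hk3]
      have : T.ell k x * T.per ≤ 3 * T.c0 * T.d x * T.per := by gcongr
      have h4 : 3 * T.c0 * T.d x * T.per = 3 * T.r0 * T.d x := by
        rw [c0]; field_simp
      nlinarith
    have h3 := key i hi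
    have h4 := key j hj
    have := hx.2
    nlinarith
  · push Not at h
    refine ⟨0, fun i _ z hz => ?_⟩
    have h1 := (abs_le.1 (T.abs_ell_sub_le i z x)).1
    have := h i
    linarith
theorem foldG_of_mem {z : ℂ} (hz : z ∈ T.Δ) : T.foldG z = 1 := by
  simp only [foldG, if_neg (not_lt.2 (hz 0)), if_neg (not_lt.2 (hz 1)), if_neg (not_lt.2 (hz 2))]
theorem foldG_cases (z : ℂ) :
    (z ∈ T.Δ ∧ T.foldG z = 1) ∨ ∃ j, T.ell j z < 0 ∧ T.foldG z = T.σ j := by
  unfold foldG
  split_ifs with h0 h1 h2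
  · exact Or.inr ⟨0, h0, rfl⟩
  · exact Or.inr ⟨1, h1, rfl⟩
  · exact Or.inr ⟨2, h2, rfl⟩
  · refine Or.inl ⟨fun j => ?_, rfl⟩
    fin_cases j
    exacts [not_lt.1 h0, not_lt.1 h1, not_lt.1 h2]
theorem foldG_mem (z : ℂ) : T.foldG z ∈ T.Γ := by
  rcases T.foldG_cases z with ⟨_, h⟩ | ⟨j, _, h⟩ <;> rw [h]
  exacts [one_mem _, T.σ_mem j]
theorem foldG_eq_σ {z : ℂ} {j : Fin 3} (hj : T.ell j z < 0) (h : ∀ i, i ≠ j → 0 ≤ T.ell i z) :
    T.foldG z = T.σ j := by
  rcases T.foldG_cases z with ⟨h1, _⟩ | ⟨i, hi, h1⟩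
  · exact absurd hj (not_lt.2 (h1 j))
  · by_cases hij : i = j
    · rw [h1, hij]
    · exact absurd hi (not_lt.2 (h i hij))
theorem fold_of_mem {y : Phase} (hy : y.1 ∈ T.Δ) : T.fold y = y := by
  rw [fold, T.foldG_of_mem hy, one_smul]
theorem fold_fst (y : Phase) : (T.fold y).1 = T.foldG y.1 • y.1 := rfl
theorem norm_σ_sub_le {x z : ℂ} {j : Fin 3} (hx : 0 ≤ T.ell j x) (hz : T.ell j z ≤ 0) :
    ‖T.σ j • z - x‖ ≤ ‖z - x‖ := by
  have h1 : T.σ j • z - x = (z - x) - (2 * T.ell j z) • T.ν j := by rw [σ_smul]; ring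
  have h2 := norm_sub_sq_real (z - x) ((2 * T.ell j z) • T.ν j)
  rw [inner_smul_right, real_inner_comm, ← ell_sub, norm_smul, norm_ν, mul_one, Real.norm_eq_abs,
    sq_abs] at h2
  rw [h1]
  apply abs_le_of_sq_le_sq' _ (norm_nonneg _) |>.2
  nlinarith
/-- folding does not increase the distance from points of the triangle -/
theorem norm_foldG_sub_le {x : ℂ} (hx : x ∈ T.Δ) (z : ℂ) : ‖T.foldG z • z - x‖ ≤ ‖z - x‖ := by
  rcases T.foldG_cases z with ⟨_, h⟩ | ⟨j, hj, h⟩ <;> rw [h]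
  · rw [one_smul]
  · exact T.norm_σ_sub_le (hx j) hj.le
theorem foldG_ell {x z : ℂ} (hx : x ∈ T.D0) (hz : ‖z - x‖ < T.c0 * T.d x) (i : Fin 3) :
    0 < T.ell i (T.foldG z • z) ∨ T.ell i (T.foldG z • z) = |T.ell i z| := by
  obtain ⟨j, hj⟩ := T.chart_side hx
  have hpos := mul_pos T.c0_pos hx.2
  by_cases hij : i = j
  · subst hij
    rcases T.foldG_cases z with ⟨h1, h⟩ | ⟨k, hk, h⟩ <;> rw [h]
    · rw [one_smul, abs_of_nonneg (h1 i)]; exact Or.inr rfl
    · by_cases hki : k = i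
      · subst hki
        rw [ell_σ, abs_of_neg hk]; exact Or.inr rfl
      · exact absurd (hj k hki z (by linarith)) (not_lt.2 hk.le)
  · exact Or.inl (hj i hij _ (by linarith [T.norm_foldG_sub_le hx.1 z]))
theorem foldG_mem_D0 {x z : ℂ} (hx : x ∈ T.D0) (hz : ‖z - x‖ < T.c0 * T.d x) :
    T.foldG z • z ∈ T.D0 := by
  refine ⟨fun i => ?_, ?_⟩
  · rcases T.foldG_ell hx hz i with h | h
    · exact h.le
    · rw [h]; exact abs_nonneg _
  · have h1 := (abs_le.1 (T.abs_d_sub_le (T.foldG z • z) x)).1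
    have h2 := T.norm_foldG_sub_le hx.1 z
    have h3 := T.c0_le
    have h4 := hx.2
    nlinarith
theorem foldG_mem_Int {x z : ℂ} (hx : x ∈ T.D0) (hz : ‖z - x‖ < T.c0 * T.d x)
    (h0 : ∀ j, T.ell j z ≠ 0) : T.foldG z • z ∈ T.Int := by
  intro i
  rcases T.foldG_ell hx hz i with h | h
  · exact h
  · rw [h]; exact abs_pos.2 (h0 i)
/-- folding near a vertex fixes it -/
theorem foldG_v {z : ℂ} {j : Fin 3} (h : ‖z - T.v j‖ < 10 * T.r0) :
    T.foldG z • T.v j = T.v j := by
  rcases T.foldG_cases z with ⟨_, h1⟩ | ⟨i, hi, h1⟩ <;> rw [h1]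
  · rw [one_smul]
  · apply σ_v
    rintro rfl
    exact absurd (T.ell_pos_of_near h) (not_lt.2 hi.le)
theorem ext_pos {E : Type} [Zero E] (F : Phase → E) {y : Phase} (hy : (T.fold y).1 ∈ T.Int) :
    T.ext F y = F (T.fold y) := by
  unfold ext; rw [if_pos hy]
theorem ext_neg {E : Type} [Zero E] (F : Phase → E) {y : Phase} (hy : (T.fold y).1 ∉ T.Int) :
    T.ext F y = 0 := by
  unfold ext; rw [if_neg hy]
theorem ext_congr {E : Type} [Zero E] (F : Phase → E) {y y' : Phase} (h : T.fold y = T.fold y') :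
    T.ext F y = T.ext F y' := by
  unfold ext; rw [h]
theorem ext_of_mem {E : Type} [Zero E] (F : Phase → E) {y : Phase} (hy : y.1 ∈ T.Int) :
    T.ext F y = F y := by
  have h := T.fold_of_mem (T.Int_subset_Δ hy)
  rw [T.ext_pos F (by rw [h]; exact hy), h]
/-- the extension is symmetric under the reflection near a point of an open side -/
theorem ext_σ {E : Type} [Zero E] (F : Phase → E) {x z : ℂ} {j : Fin 3} (hx : x ∈ T.D0)
    (hj : T.ell j x = 0) (hz : ‖z - x‖ < T.c0 * T.d x) (θ : Ang) :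
    T.ext F (T.σ j • ((z, θ) : Phase)) = T.ext F (z, θ) := by
  obtain ⟨k, hk⟩ := T.chart_side hx
  have hpos := mul_pos T.c0_pos hx.2
  have hjk : j = k := by
    by_contra h
    exact (hk j h x (by simpa using by linarith)).ne' hj
  subst hjk
  have hz' : ‖T.σ j • z - x‖ < T.c0 * T.d x := by
    conv_lhs => rw [← T.σ_fix hj]
    rwa [Iso.norm_smul_sub]
  have hσσ : ∀ y : Phase, T.σ j • T.σ j • y = y := fun y => by
    rw [← mul_smul, σ_mul_self, one_smul]
  have key : ∀ (w : ℂ) (φ : Ang), ‖w - x‖ < T.c0 * T.d x → ‖T.σ j • w - x‖ < T.c0 * T.d x →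
      T.ell j w < 0 → T.fold (T.σ j • ((w, φ) : Phase)) = T.fold (w, φ) := by
    intro w φ hw hw' hneg
    have h1 : T.σ j • w ∈ T.Δ := fun i => by
      by_cases hij : i = j
      · subst hij; rw [ell_σ]; linarith
      · exact (hk i hij _ (by linarith)).le
    rw [T.fold_of_mem (y := T.σ j • ((w, φ) : Phase)) h1, fold,
      T.foldG_eq_σ hneg fun i hij => (hk i hij _ (by linarith)).le]
  rcases lt_trichotomy (T.ell j z) 0 with h | h | h
  · exact T.ext_congr F (key z θ hz hz' h)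
  · have hΔ : z ∈ T.Δ := fun i => by
      by_cases hij : i = j
      · subst hij; exact h.ge
      · exact (hk i hij _ (by linarith)).le
    have hn : z ∉ T.Int := fun hi => (hi j).ne' h
    have h1 : (T.σ j • ((z, θ) : Phase)).1 = z := T.σ_fix h
    have h2 : T.fold (T.σ j • ((z, θ) : Phase)) = T.σ j • ((z, θ) : Phase) :=
      T.fold_of_mem (by rw [h1]; exact hΔ)
    have h3 : T.fold (z, θ) = (z, θ) := T.fold_of_mem hΔ
    rw [T.ext_neg F (by rw [h2, h1]; exact hn), T.ext_neg F (by rw [h3]; exact hn)]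
  · have := key (T.σ j • z) (T.σ j • θ) hz'
      (by rw [← mul_smul, σ_mul_self, one_smul]; exact hz) (by rw [ell_σ]; linarith)
    have h2 : ((T.σ j • z, T.σ j • θ) : Phase) = T.σ j • ((z, θ) : Phase) := rfl
    rw [h2, hσσ] at this
    exact T.ext_congr F this.symm
/-- the extension vanishes far away -/
theorem ext_eq_zero {E : Type} [Zero E] (F : Phase → E) {y : Phase}
    (hy : 3 * T.per < ‖y.1 - T.v 0‖) : T.ext F y = 0 := by
  unfold ext
  rw [if_neg]
  intro hi
  have hΔ := T.Int_subset_Δ hi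
  have h0 := T.norm_sub_v_le hΔ 0
  have hp := T.per_pos
  rw [fold_fst] at hi hΔ h0
  rcases T.foldG_cases y.1 with ⟨_, h⟩ | ⟨j, hj, h⟩ <;> rw [h] at hi hΔ h0
  · rw [one_smul] at h0; linarith
  · have h1 := T.norm_sub_v_le hΔ (j + 1)
    have h2 := T.abs_ell_sub_le j (T.σ j • y.1) (T.v (j + 1))
    have hne : j ≠ j + 1 := by fin_cases j <;> decide
    rw [ell_v, if_neg hne, sub_zero, ell_σ, abs_neg] at h2
    have h3 : y.1 - T.v 0 = (T.σ j • y.1 - T.v 0) + (2 * T.ell j y.1) • T.ν j := by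
      rw [σ_smul]; ring
    have h4 := norm_add_le (T.σ j • y.1 - T.v 0) ((2 * T.ell j y.1) • T.ν j)
    rw [← h3, norm_smul, norm_ν, mul_one, Real.norm_eq_abs, abs_mul, abs_two] at h4
    linarith

end Tri

end Crest.Agent.R103
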