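import Crest.Agent.R103.BDefs

/-! Row 103: existence of flight chains. -/

set_option autoImplicit false

namespace Crest.Agent.R103

open MeasureTheory Set Filter Topology
open scoped ENNReal ComplexConjugate InnerProductSpace ContDiff

open Crest.AnalysisR

namespace ChainEx

theorem exists_int_chain {α : Type} (R : α → α → Prop) (h1 : ∀ x, ∃ y, R x y)
    (h2 : ∀ y, ∃ x, R x y) (x0 : α) : ∃ f : ℤ → α, f 0 = x0 ∧ ∀ k, R (f k) (f (k + 1)) := by
  choose nx hnx using h1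
  choose pv hpv using h2
  refine ⟨fun k => match k with
    | Int.ofNat n => nx^[n] x0
    | Int.negSucc n => pv^[n + 1] x0, rfl, ?_⟩
  rintro (n | _ | n)
  · show R (nx^[n] x0) (nx^[n + 1] x0)
    rw [Function.iterate_succ_apply']
    exact hnx _
  · exact hpv x0
  · show R (pv^[n + 1 + 1] x0) (pv^[n + 1] x0)
    rw [Function.iterate_succ_apply' pv (n + 1)]
    exact hpv _

variable {T : Tri} {y : Phase}

theorem smul_line_sub (B : Iso) (y : Phase) (s t : ℝ) :
    B • line y s - B • line y t = (s - t) • B.lin (e y.2) := by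
  rw [Iso.smul_sub_smul, line_sub_line, Iso.lin_smul]

theorem ell_line (T : Tri) (B : Iso) (y : Phase) (j : Fin 3) (s t : ℝ) :
    T.ell j (B • line y s) = T.ell j (B • line y t) + (s - t) * ⟪T.ν j, B.lin (e y.2)⟫_ℝ := by
  rw [← sub_eq_iff_eq_add', T.ell_sub, smul_line_sub, inner_smul_right]

theorem continuous_smul_line (B : Iso) (y : Phase) : Continuous fun s => B • line y s :=
  B.continuous_smul_pt.comp (continuous_line' y)

theorem fwd (hg : T.Good y) (hd : ∀ B ∈ T.Γ, ∀ j, ⟪T.ν j, B.lin (e y.2)⟫_ℝ ≠ 0) {B : Iso} {a s0 : ℝ}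
    (hB : T.Dv a y B) (h0 : a < s0) (h1 : B • line y s0 ∈ T.Int) :
    ∃ b j, a < b ∧ T.Dv b y B ∧ (∀ s ∈ Ioo a b, B • line y s ∈ T.Int) ∧
      T.ell j (B • line y b) = 0 := by
  have hc := continuous_smul_line B y
  let S : Set ℝ := {s | B • line y s ∈ T.Δ}
  have hS : IsClosed S := T.isClosed_Δ.preimage hc
  have hs0 : s0 ∈ S := T.Int_subset_Δ h1
  have hb : BddAbove S := ⟨s0 + 2 * T.per, fun s hs => by
    have e1 := T.norm_sub_v_le hs 0
    have e2 := T.norm_sub_v_le hs0 0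
    have e3 := norm_sub_le (B • line y s - T.v 0) (B • line y s0 - T.v 0)
    rw [sub_sub_sub_cancel_right, Iso.norm_smul_sub, norm_line_sub_line] at e3
    linarith [le_abs_self (s - s0)]⟩
  have hm : sSup S ∈ S := hS.csSup_mem ⟨s0, hs0⟩ hb
  have hab : a < sSup S := h0.trans_le (le_csSup hb hs0)
  have hint : ∀ s ∈ Ioo a (sSup S), B • line y s ∈ T.Int := by
    intro s hs j
    have e1 := ell_line T B y j s a
    have e2 := ell_line T B y j s (sSup S)
    have e3 := hB.mem_D0.1 j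
    have e4 := hm j
    rcases lt_or_gt_of_ne (hd B hB.mem_Γ j) with h | h
    · nlinarith [mul_pos_of_neg_of_neg (sub_neg.2 hs.2) h]
    · nlinarith [mul_pos (sub_pos.2 hs.1) h]
  have hD : ∀ s ∈ Ico a (sSup S), B • line y s ∈ T.D0 := fun s hs => by
    rcases hs.1.eq_or_lt with rfl | h
    · exact hB.mem_D0
    · exact T.Int_subset_D0 (hint s ⟨h, hs.2⟩)
  have hend : T.dst y (sSup S) = T.d (B • line y (sSup S)) := by
    have e1 : IsClosed {s | T.dst y s = T.d (B • line y s)} :=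
      isClosed_eq (T.lipschitz_dst y).continuous (T.continuous_d.comp hc)
    refine e1.closure_subset_iff.2 (fun s (hs : s ∈ Ioo a (sSup S)) => ?_)
      (by rw [closure_Ioo hab.ne]; exact right_mem_Icc.2 hab.le)
    refine (hB.straight fun t ht => hD t ?_).dst_eq
    rw [uIcc_of_le hs.1.le] at ht
    exact ⟨ht.1, ht.2.trans_lt hs.2⟩
  obtain ⟨j, hj⟩ : ∃ j, T.ell j (B • line y (sSup S)) = 0 := by
    by_contra hcon
    push Not at hcon
    have e1 : ∀ᶠ s in 𝓝[>] (sSup S), B • line y s ∈ T.Int := nhdsWithin_le_nhds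
      ((T.isOpen_Int.preimage hc).mem_nhds fun j => (hm j).lt_of_ne' (hcon j))
    obtain ⟨s, e2, e3⟩ := (e1.and self_mem_nhdsWithin).exists
    exact absurd (le_csSup hb (T.Int_subset_Δ e2)) (not_le.2 e3)
  refine ⟨sSup S, j, hab, hB.straight fun t ht => ?_, hint, hj⟩
  rw [uIcc_of_le hab.le] at ht
  rcases ht.2.eq_or_lt with rfl | h
  · exact ⟨hm, hend ▸ hg _⟩
  · exact hD t ⟨ht.1, h⟩

theorem step (hg : T.Good y) (hd : ∀ B ∈ T.Γ, ∀ j, ⟪T.ν j, B.lin (e y.2)⟫_ℝ ≠ 0) {B : Iso}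
    {a b : ℝ} {j : Fin 3} (hab : a < b) (hB : T.Dv b y B)
    (hint : ∀ s ∈ Ioo a b, B • line y s ∈ T.Int) (hj : T.ell j (B • line y b) = 0) :
    ∃ b' j', b < b' ∧ T.Dv b' y (T.σ j * B) ∧ (∀ s ∈ Ioo b b', (T.σ j * B) • line y s ∈ T.Int) ∧
      T.ell j' ((T.σ j * B) • line y b') = 0 := by
  have hc := continuous_smul_line (T.σ j * B) y
  have e1 : ∀ᶠ s in 𝓝[>] b, ∀ k, k ≠ j → 0 < T.ell k ((T.σ j * B) • line y s) := by
    refine nhdsWithin_le_nhds (eventually_all.2 fun k => ?_)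
    by_cases hk : k = j
    · exact Eventually.of_forall fun _ h => absurd hk h
    refine (((T.continuous_ell k).comp hc).continuousAt.eventually
      (lt_mem_nhds (a := 0) ?_)).mono fun _ h _ => h
    show 0 < T.ell k ((T.σ j * B) • line y b)
    rw [mul_smul, T.σ_fix hj]
    exact (hB.mem_D0.1 k).lt_of_ne' fun h => hk (T.side_unique hB.mem_D0 h hj)
  obtain ⟨s, e2, e3⟩ := (e1.and self_mem_nhdsWithin).exists
  refine fwd hg hd (hB.reflect hj) e3 fun k => ?_
  by_cases hk : k = j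
  · subst hk
    have e4 := hint ((a + b) / 2) ⟨by linarith, by linarith⟩ k
    rw [ell_line T B y k _ b, hj] at e4
    rw [mul_smul, T.ell_σ, ell_line T B y k _ b, hj]
    have e5 : b < s := e3
    have e6 : ⟪T.ν k, B.lin (e y.2)⟫_ℝ < 0 := by
      by_contra h
      nlinarith [not_lt.1 h]
    nlinarith [mul_neg_of_pos_of_neg (sub_pos.2 e5) e6]
  · exact e2 k hk

theorem hd_rev (hd : ∀ B ∈ T.Γ, ∀ j, ⟪T.ν j, B.lin (e y.2)⟫_ℝ ≠ 0) :
    ∀ B ∈ T.Γ, ∀ j, ⟪T.ν j, B.lin (e (rev y).2)⟫_ℝ ≠ 0 := fun B hB j => by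
  rw [e_rev, Iso.lin_neg, inner_neg_right]
  exact neg_ne_zero.2 (hd B hB j)

theorem bwd (hg : T.Good y) (hd : ∀ B ∈ T.Γ, ∀ j, ⟪T.ν j, B.lin (e y.2)⟫_ℝ ≠ 0) {B : Iso} {b s0 : ℝ}
    (hB : T.Dv b y B) (h0 : s0 < b) (h1 : B • line y s0 ∈ T.Int) :
    ∃ a j, a < b ∧ T.Dv a y B ∧ (∀ s ∈ Ioo a b, B • line y s ∈ T.Int) ∧
      T.ell j (B • line y a) = 0 := by
  obtain ⟨a, j, e1, e2, e3, e4⟩ := fwd (Tri.good_rev.2 hg) (hd_rev hd) (B := B) (a := -b)
    (s0 := -s0) (Tri.dv_rev.2 (by rwa [neg_neg])) (by linarith) (by rwa [line_rev, neg_neg])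
  refine ⟨-a, j, by linarith, Tri.dv_rev.1 e2, fun s hs => ?_, by rwa [line_rev] at e4⟩
  have := e3 (-s) ⟨by linarith [hs.2], by linarith [hs.1]⟩
  rwa [line_rev, neg_neg] at this

theorem step' (hg : T.Good y) (hd : ∀ B ∈ T.Γ, ∀ j, ⟪T.ν j, B.lin (e y.2)⟫_ℝ ≠ 0) {B : Iso}
    {a b : ℝ} {j : Fin 3} (hab : a < b) (hB : T.Dv a y B)
    (hint : ∀ s ∈ Ioo a b, B • line y s ∈ T.Int) (hj : T.ell j (B • line y a) = 0) :
    ∃ a' j', a' < a ∧ T.Dv a' y (T.σ j * B) ∧ (∀ s ∈ Ioo a' a, (T.σ j * B) • line y s ∈ T.Int) ∧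
      T.ell j' ((T.σ j * B) • line y a') = 0 := by
  obtain ⟨a', j', e1, e2, e3, e4⟩ := step (Tri.good_rev.2 hg) (hd_rev hd) (B := B) (a := -b)
    (b := -a) (j := j) (by linarith) (Tri.dv_rev.2 (by rwa [neg_neg]))
    (fun s hs => by
      rw [line_rev]
      exact hint _ ⟨by linarith [hs.2], by linarith [hs.1]⟩) (by rwa [line_rev, neg_neg])
  refine ⟨-a', j', by linarith, Tri.dv_rev.1 e2, fun s hs => ?_, by rwa [line_rev] at e4⟩
  have := e3 (-s) ⟨by linarith [hs.2], by linarith [hs.1]⟩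
  rwa [line_rev, neg_neg] at this

/-- one flight -/
structure Fl (T : Tri) (y : Phase) where
  B : Iso
  a : ℝ
  b : ℝ
  i : Fin 3
  j : Fin 3
  hab : a < b
  dva : T.Dv a y B
  dvb : T.Dv b y B
  int : ∀ s ∈ Ioo a b, B • line y s ∈ T.Int
  hi : T.ell i (B • line y a) = 0
  hj : T.ell j (B • line y b) = 0

theorem Fl.ne (F : Fl T y) : F.j ≠ F.i := by
  intro h
  have e1 := F.int ((F.a + F.b) / 2) ⟨by linarith [F.hab], by linarith [F.hab]⟩ F.j
  have e2 := ell_line T F.B y F.j ((F.a + F.b) / 2) F.a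
  have e3 := ell_line T F.B y F.j ((F.a + F.b) / 2) F.b
  have e4 := F.hi
  rw [← h] at e4
  have e5 := F.hj
  linarith

theorem Fl.dst_le (F : Fl T y) : T.dst y F.a ≤ (F.b - F.a) / T.r0 * T.per := by
  have e1 := T.d_le_of_two F.dva.mem_D0.1 F.ne
  have e2 := T.abs_ell_sub_le F.j (F.B • line y F.a) (F.B • line y F.b)
  rw [F.hj, sub_zero, Iso.norm_smul_sub, norm_line_sub_line, abs_sub_comm F.a,
    abs_of_pos (sub_pos.2 F.hab)] at e2
  rw [F.hi, zero_div, add_zero] at e1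
  rw [F.dva.dst_eq]
  refine e1.trans (mul_le_mul_of_nonneg_right ?_ T.per_pos.le)
  have e3 := T.r0_le F.j
  have e4 := T.r0_pos
  exact div_le_div₀ (sub_pos.2 F.hab).le ((le_abs_self _).trans e2) e4 (by linarith)

theorem exists_flights (hg : T.Good y) (hd : ∀ B ∈ T.Γ, ∀ j, ⟪T.ν j, B.lin (e y.2)⟫_ℝ ≠ 0) :
    ∃ f : ℤ → Fl T y, (f 0).B = 1 ∧ (f 0).a < 0 ∧ 0 < (f 0).b ∧ ∀ k, (f (k + 1)).a = (f k).b ∧
      (f (k + 1)).i = (f k).j ∧ (f (k + 1)).B = T.σ (f k).j * (f k).B := by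
  obtain ⟨B0, hB0⟩ := Tri.dst_pos_iff.1 (hg 0)
  have hy := hB0.int
  have e0 : (1 : Iso) • line y 0 ∈ T.Int := by simpa using hy
  have e1 : ∀ᶠ s in 𝓝 (0 : ℝ), (1 : Iso) • line y s ∈ T.Int :=
    (T.isOpen_Int.preimage (continuous_smul_line 1 y)).mem_nhds e0
  obtain ⟨s1, e2, e3⟩ := ((e1.filter_mono (nhdsWithin_le_nhds (s := Ioi 0))).and
    self_mem_nhdsWithin).exists
  obtain ⟨s2, e4, e5⟩ := ((e1.filter_mono (nhdsWithin_le_nhds (s := Iio 0))).and
    self_mem_nhdsWithin).exists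
  obtain ⟨b, j, b1, b2, b3, b4⟩ := fwd hg hd (Tri.dv_zero hy) e3 e2
  obtain ⟨a, i, a1, a2, a3, a4⟩ := bwd hg hd (Tri.dv_zero hy) e5 e4
  obtain ⟨f, hf0, hf⟩ := exists_int_chain
    (fun F F' : Fl T y => F'.a = F.b ∧ F'.i = F.j ∧ F'.B = T.σ F.j * F.B)
    (fun F => by
      obtain ⟨b', j', c1, c2, c3, c4⟩ := step hg hd F.hab F.dvb F.int F.hj
      exact ⟨⟨_, F.b, b', F.j, j', c1, F.dvb.reflect F.hj, c2, c3,
        by rw [mul_smul, T.ell_σ, F.hj, neg_zero], c4⟩, rfl, rfl, rfl⟩)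
    (fun F => by
      obtain ⟨a', i', c1, c2, c3, c4⟩ := step' hg hd F.hab F.dva F.int F.hi
      exact ⟨⟨_, a', F.a, i', F.i, c1, c2, F.dva.reflect F.hi, c3, c4,
        by rw [mul_smul, T.ell_σ, F.hi, neg_zero]⟩, rfl, rfl,
        by rw [← mul_assoc, T.σ_mul_self, one_mul]⟩)
    ⟨1, a, b, i, j, a1.trans b1, a2, b2, fun s hs => by
      rcases lt_trichotomy s 0 with h | rfl | h
      exacts [a3 s ⟨hs.1, h⟩, e0, b3 s ⟨h, hs.2⟩], a4, b4⟩
  exact ⟨f, by rw [hf0], by rw [hf0]; exact a1, by rw [hf0]; exact b1, hf⟩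

theorem no_limit (hg : T.Good y) (f : ℤ → Fl T y) (hf : ∀ k, (f (k + 1)).a = (f k).b)
    {l : Filter ℤ} [l.NeBot] (hl : Tendsto (fun k => k + 1) l l) {τ : ℝ}
    (h : Tendsto (fun k => (f k).a) l (𝓝 τ)) : False := by
  have h1 : Tendsto (fun k => ((f k).b - (f k).a) / T.r0 * T.per) l
      (𝓝 ((τ - τ) / T.r0 * T.per)) := by
    simp only [← hf]
    exact (((h.comp hl).sub h).div_const _).mul_const _
  have h2 := le_of_tendsto_of_tendsto' (((T.lipschitz_dst y).continuous.tendsto τ).comp h) h1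
    fun k => (f k).dst_le
  have := hg τ
  simp only [sub_self, zero_div, zero_mul] at h2
  linarith

theorem mem_openSide {A : Fin 3 → Billiard.Plane} (hA : T.Models A) {x : ℂ} (hx : x ∈ T.D0)
    {j : Fin 3} (hj : T.ell j x = 0) : toP x ∈ Billiard.openSide A j := by
  have h1 := T.sum_one x
  have h2 := T.bary x
  rw [← Equiv.sum_comp (Equiv.addLeft j), Fin.sum_univ_three] at h1 h2
  simp only [Equiv.coe_addLeft, add_zero, hj, zero_div, zero_smul, zero_add] at h1 h2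
  have h3 : ∀ k, k ≠ j → 0 < T.ell k x / T.h k := fun k hk =>
    div_pos ((hx.1 k).lt_of_ne' fun h => hk (T.side_unique hx h hj)) (T.h_pos k)
  have h4 := h3 (j + 1) (by fin_cases j <;> decide)
  have h5 := h3 (j + 2) (by fin_cases j <;> decide)
  refine ⟨T.ell (j + 2) x / T.h (j + 2), ⟨h5, by linarith⟩, ?_⟩
  rw [show T.ell (j + 1) x / T.h (j + 1) = 1 - T.ell (j + 2) x / T.h (j + 2) by linarith] at h2
  simp only [AffineMap.lineMap_apply_module, hA _, ← map_smul, ← map_add, h2]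

theorem mirror_eq {A : Fin 3 → Billiard.Plane} (hA : T.Models A) (j : Fin 3) (u : ℂ) :
    Billiard.mirror (Billiard.sideVec A j) (toP u) = toP ((T.σ j).lin u) := by
  have hne : j + 2 ≠ j + 1 := by fin_cases j <;> decide
  have h1 : ⟪T.ν j, T.v (j + 2) - T.v (j + 1)⟫_ℝ = 0 :=
    (T.ell_v j (j + 2)).trans (if_neg (by fin_cases j <;> decide))
  have h2 : T.v (j + 2) - T.v (j + 1) ≠ 0 := by
    have := T.v_sep hne
    have := T.r0_pos
    rw [← norm_pos_iff]
    linarith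
  have h3 := T.ν_mul_conj j
  rw [Billiard.mirror, Billiard.sideVec, hA, hA, ← map_sub, toP.inner_map_map, toP.inner_map_map,
    ← map_smul, ← map_sub, T.σ_lin]
  congr 1
  generalize T.v (j + 2) - T.v (j + 1) = w at h1 h2
  generalize T.ν j = n at h1 h3
  have h4 : n.re ^ 2 + n.im ^ 2 = 1 := by
    have := congrArg Complex.re h3
    simp at this
    linarith
  have h5 : w.re * n.re + w.im * n.im = 0 := by simpa [Complex.inner] using h1
  obtain ⟨r, hr1, hr2⟩ : ∃ r : ℝ, w.re = -n.im * r ∧ w.im = n.re * r :=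
    ⟨n.re * w.im - n.im * w.re, by linear_combination n.re * h5 - w.re * h4,
      by linear_combination n.im * h5 - w.im * h4⟩
  have hr : r ≠ 0 := by
    rintro rfl
    exact h2 (Complex.ext (by simpa using hr1) (by simpa using hr2))
  have h6 : ⟪w, w⟫_ℝ = r ^ 2 := by
    simp only [Complex.inner, Complex.mul_re, Complex.conj_re, Complex.conj_im, hr1, hr2]
    linear_combination r ^ 2 * h4
  rw [h6]
  apply Complex.ext
  · simp only [Complex.inner, Complex.mul_re, Complex.conj_re, Complex.conj_im, Complex.sub_re,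
      Complex.smul_re, smul_eq_mul, hr1, hr2]
    field_simp
    linear_combination 2 * u.re * h4
  · simp only [Complex.inner, Complex.mul_re, Complex.conj_re, Complex.conj_im, Complex.sub_im,
      Complex.smul_im, smul_eq_mul, hr1, hr2]
    field_simp
    linear_combination 2 * u.im * h4

end ChainEx

open ChainEx in
theorem Tri.chain_exists (T : Tri) {A : Fin 3 → Billiard.Plane} (hA : T.Models A) {y : Phase}
    (hg : T.Good y) (hd : ∀ B ∈ T.Γ, ∀ j, ⟪T.ν j, B.lin (e y.2)⟫_ℝ ≠ 0) :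
    ∃ c : Billiard.Chain A, c.Through (emb y) := by
  obtain ⟨f, f1, f2, f3, hf⟩ := exists_flights hg hd
  have hq : ∀ k, (f (k + 1)).B • line y (f (k + 1)).a = (f k).B • line y (f k).b := fun k => by
    rw [(hf k).2.2, (hf k).1, mul_smul, T.σ_fix (f k).hj]
  have hlt : ∀ k, 0 < (f (k + 1)).a - (f k).a := fun k => by
    rw [(hf k).1]; exact sub_pos.2 (f k).hab
  have hsub : ∀ k, toP ((f (k + 1)).B • line y (f (k + 1)).a) - toP ((f k).B • line y (f k).a) =
      ((f (k + 1)).a - (f k).a) • toP ((f k).B.lin (e y.2)) := fun k => by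
    rw [← map_sub, hq, smul_line_sub, map_smul, (hf k).1]
  have hvel : ∀ k, ((f (k + 1)).a - (f k).a)⁻¹ •
      (toP ((f (k + 1)).B • line y (f (k + 1)).a) - toP ((f k).B • line y (f k).a)) =
      toP ((f k).B.lin (e y.2)) := fun k => by
    rw [hsub, inv_smul_smul₀ (hlt k).ne']
  have hmono : StrictMono fun k => (f k).a := strictMono_int_of_lt_succ fun k => sub_pos.1 (hlt k)
  refine ⟨⟨fun k => (f k).a, fun k => toP ((f k).B • line y (f k).a), fun k => (f k).i, hmono,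
    f2.le, ?_, ?_, ?_, fun k => mem_openSide hA (f k).dva.mem_D0 (f k).hi, fun k => ?_,
    fun k => ?_, fun k => ?_⟩, 0, f2.le, ?_, ?_, ?_⟩
  · exact f3.trans_eq (hf 0).1.symm
  · by_cases h : BddAbove (range fun k => (f k).a)
    · exact (no_limit hg f (fun k => (hf k).1) (tendsto_atTop_add_const_right _ _ tendsto_id)
        (tendsto_atTop_ciSup hmono.monotone h)).elim
    · exact tendsto_atTop_atTop_of_monotone' hmono.monotone h
  · by_cases h : BddBelow (range fun k => (f k).a)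
    · exact (no_limit hg f (fun k => (hf k).1) (tendsto_atBot_add_const_right _ _ tendsto_id)
        (tendsto_atBot_ciInf hmono.monotone h)).elim
    · exact tendsto_atBot_atBot_of_monotone' hmono.monotone h
  · rw [(hf k).2.1]
    exact (f k).ne
  · rw [dist_comm, dist_eq_norm, hsub, norm_smul, toP.norm_map, Iso.norm_lin, norm_e, mul_one,
      Real.norm_eq_abs, abs_of_pos (hlt k)]
  · rw [show k + 2 = k + 1 + 1 by ring, hvel, hvel, mirror_eq hA, (hf k).2.2, (hf k).2.1,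
      Iso.lin_mul]
  · exact f3.trans_eq (hf 0).1.symm
  · show toP y.1 = toP ((f 0).B • line y (f 0).a) + (0 - (f 0).a) • _
    rw [Billiard.Chain.vel]
    dsimp only
    rw [hvel, ← map_smul, ← map_add, ← smul_line_sub, f1]
    simp
  · show toP (e y.2) = _
    rw [Billiard.Chain.vel]
    dsimp only
    rw [hvel, f1, Iso.lin_one]

end Crest.Agent.R103
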