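import Crest.Agent.R103.BDefs

/-! Row 103: the states of a flight chain are given by the development. -/

set_option autoImplicit false

namespace Crest.Agent.R103

open MeasureTheory Set Filter Topology
open scoped ENNReal ComplexConjugate InnerProductSpace ContDiff

open Crest.AnalysisR

namespace ChainSt

theorem mirror_eq {ν u : ℂ} (hν : ‖ν‖ = 1) (hu : u ≠ 0) (h : ⟪ν, u⟫_ℝ = 0) (w : ℂ) :
    (2 * ⟪w, u⟫_ℝ / ⟪u, u⟫_ℝ) • u - w = w - (2 * ⟪ν, w⟫_ℝ) • ν := by
  have h1 : ν.re ^ 2 + ν.im ^ 2 = 1 := by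
    have := Complex.sq_norm ν
    rw [hν, Complex.normSq_apply] at this
    linarith
  have h2 : u.re * u.re + u.im * u.im ≠ 0 := by
    have := Complex.normSq_pos.2 hu
    rw [Complex.normSq_apply] at this
    exact this.ne'
  have h3 : ⟪u, u⟫_ℝ = u.re * u.re + u.im * u.im := by
    rw [real_inner_self_eq_norm_sq, Complex.sq_norm, Complex.normSq_apply]
  have hκ : 2 * ⟪w, u⟫_ℝ / ⟪u, u⟫_ℝ * (u.re * u.re + u.im * u.im) = 2 * ⟪w, u⟫_ℝ := by
    rw [h3, div_mul_cancel₀ _ h2]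
  generalize 2 * ⟪w, u⟫_ℝ / ⟪u, u⟫_ℝ = κ at hκ ⊢
  simp only [Complex.inner, Complex.mul_re, Complex.conj_re, Complex.conj_im] at h hκ ⊢
  apply Complex.ext
  · simp only [Complex.sub_re, Complex.smul_re, smul_eq_mul]
    apply mul_right_cancel₀ h2
    linear_combination u.re * hκ + 2 * (w.re * u.im ^ 2 - w.im * u.re * u.im) * h1 +
      2 * (w.re * (ν.re * u.re - ν.im * u.im) + w.im * (ν.re * u.im + ν.im * u.re)) * h
  · simp only [Complex.sub_im, Complex.smul_im, smul_eq_mul]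
    apply mul_right_cancel₀ h2
    linear_combination u.im * hκ + 2 * (w.im * u.re ^ 2 - w.re * u.re * u.im) * h1 +
      2 * (w.im * (ν.im * u.im - ν.re * u.re) + w.re * (ν.re * u.im + ν.im * u.re)) * h

theorem fin_a : ∀ j : Fin 3, j ≠ j + 1 ∧ j ≠ j + 2 ∧ j + 1 ≠ j + 2 := by decide
theorem fin_b : ∀ i j : Fin 3, i ≠ j → i = j + 1 ∨ i = j + 2 := by decide
theorem fin_c : ∀ j m : Fin 3, ∃ i, i ≠ j ∧ i ≠ m := by decide

variable (T : Tri) {A : Fin 3 → Billiard.Plane}

theorem side_ell (hA : T.Models A) {j : Fin 3} {z : ℂ} (hz : toP z ∈ Billiard.openSide A j) :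
    T.ell j z = 0 ∧ ∀ i, i ≠ j → 0 < T.ell i z := by
  obtain ⟨s, ⟨hs0, hs1⟩, hs⟩ := hz
  have hz : z = (1 - s) • T.v (j + 1) + s • T.v (j + 2) := by
    apply toP.injective
    rw [← hs, hA, hA, map_add, map_smul, map_smul]
    exact AffineMap.lineMap_apply_module _ _ _
  have key : ∀ i, T.ell i z = (1 - s) * (if i = j + 1 then T.h i else 0) +
      s * (if i = j + 2 then T.h i else 0) := by
    intro i
    rw [hz, T.ell_combo i _ _ (by ring), T.ell_v, T.ell_v]
  constructor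
  · rw [key, if_neg (fin_a j).1, if_neg (fin_a j).2.1]
    ring
  · intro i hi
    have hh := T.h_pos i
    have h12 : j + 1 ≠ j + 2 := (fin_a j).2.2
    have : i = j + 1 ∨ i = j + 2 := fin_b i j hi
    rw [key]
    rcases this with h | h
    · rw [if_pos h, if_neg (h ▸ h12)]
      have : 0 < 1 - s := by linarith
      positivity
    · rw [if_neg (h ▸ h12.symm), if_pos h]
      have := mul_pos hs0 hh
      linarith

theorem mem_D0 {z : ℂ} {j : Fin 3} (h0 : T.ell j z = 0) (h : ∀ i, i ≠ j → 0 < T.ell i z) :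
    z ∈ T.D0 := by
  refine ⟨fun i => ?_, ?_⟩
  · by_cases hi : i = j
    · rw [hi, h0]
    · exact (h i hi).le
  · obtain ⟨m, hm⟩ := T.exists_d z
    rw [hm, norm_pos_iff, sub_ne_zero]
    rintro rfl
    obtain ⟨i, hi1, hi2⟩ := fin_c j m
    have := h i hi1
    rw [T.ell_v, if_neg hi2] at this
    exact lt_irrefl _ this

variable (c : Billiard.Chain A)

/-- collision points in `ℂ` -/
noncomputable def q (k : ℤ) : ℂ := toP.symm (c.q k)
/-- velocities in `ℂ` -/
noncomputable def w (k : ℤ) : ℂ := toP.symm (c.vel k)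

theorem t_lt (k : ℤ) : c.t k < c.t (k + 1) := c.strictMono_t (by omega)

theorem q_succ (k : ℤ) : q c k + (c.t (k + 1) - c.t k) • w c k = q c (k + 1) := by
  have h : c.t (k + 1) - c.t k ≠ 0 := (sub_pos.2 (t_lt c k)).ne'
  rw [q, q, w, ← map_smul, ← map_add, Billiard.Chain.vel, smul_smul, mul_inv_cancel₀ h, one_smul,
    add_sub_cancel]

theorem q_side (hA : T.Models A) (k : ℤ) :
    T.ell (c.side k) (q c k) = 0 ∧ ∀ i, i ≠ c.side k → 0 < T.ell i (q c k) :=
  side_ell T hA (by rw [q, LinearIsometryEquiv.apply_symm_apply]; exact c.mem_side k)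

theorem q_D0 (hA : T.Models A) (k : ℤ) : q c k ∈ T.D0 :=
  mem_D0 T (q_side T c hA k).1 (q_side T c hA k).2

theorem flight_int (hA : T.Models A) (k : ℤ) {t : ℝ} (ht : t ∈ Ioo (c.t k) (c.t (k + 1))) :
    q c k + (t - c.t k) • w c k ∈ T.Int := by
  have h : 0 < c.t (k + 1) - c.t k := sub_pos.2 (t_lt c k)
  set l := (t - c.t k) / (c.t (k + 1) - c.t k) with hl
  have hl0 : 0 < l := div_pos (sub_pos.2 ht.1) h
  have hl1 : 0 < 1 - l := by
    rw [sub_pos, hl, div_lt_one h]; linarith [ht.2]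
  have e : q c k + (t - c.t k) • w c k = (1 - l) • q c k + l • q c (k + 1) := by
    rw [← q_succ, smul_add, smul_smul, hl, div_mul_cancel₀ _ h.ne', ← add_assoc, ← add_smul,
      sub_add_cancel, one_smul]
  intro i
  rw [e, T.ell_combo i _ _ (by ring)]
  have a1 := (q_D0 T c hA k).1 i
  have a2 := (q_D0 T c hA (k + 1)).1 i
  by_cases hi : i = c.side k
  · have := (q_side T c hA (k + 1)).2 i (by rw [hi]; exact (c.side_ne k).symm)
    positivity
  · have := (q_side T c hA k).2 i hi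
    positivity

theorem flight_D0 (hA : T.Models A) (k : ℤ) {t : ℝ} (ht : t ∈ Icc (c.t k) (c.t (k + 1))) :
    q c k + (t - c.t k) • w c k ∈ T.D0 := by
  rcases ht.1.eq_or_lt with h1 | h1
  · rw [← h1, sub_self, zero_smul, add_zero]; exact q_D0 T c hA k
  rcases ht.2.eq_or_lt with h2 | h2
  · rw [h2, q_succ]; exact q_D0 T c hA _
  exact T.Int_subset_D0 (flight_int T c hA k ⟨h1, h2⟩)

theorem w_succ (hA : T.Models A) (k : ℤ) : w c (k + 1) = (T.σ (c.side (k + 1))).lin (w c k) := by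
  have h := c.reflect k
  have e1 : k + 2 = k + 1 + 1 := by ring
  rw [e1] at h
  change c.vel (k + 1) = Billiard.mirror _ (c.vel k) at h
  set j := c.side (k + 1)
  have hu : T.v (j + 2) - T.v (j + 1) ≠ 0 := by
    have := T.v_sep (i := j + 2) (j := j + 1) (fin_a j).2.2.symm
    have := T.r0_pos
    rw [← norm_pos_iff]; linarith
  have hν : ⟪T.ν j, T.v (j + 2) - T.v (j + 1)⟫_ℝ = 0 := by
    have := T.ell_v j (j + 2)
    rwa [if_neg (fin_a j).2.1] at this
  rw [T.σ_lin, ← mirror_eq (T.norm_ν j) hu hν]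
  have e2 : Billiard.sideVec A j = toP (T.v (j + 2) - T.v (j + 1)) := by
    rw [Billiard.sideVec, hA, hA, map_sub]
  have e3 : c.vel k = toP (w c k) := by rw [w, LinearIsometryEquiv.apply_symm_apply]
  apply toP.injective
  rw [w, LinearIsometryEquiv.apply_symm_apply, h, Billiard.mirror, e2, e3,
    LinearIsometryEquiv.inner_map_map, LinearIsometryEquiv.inner_map_map, map_sub toP (_ • _),
    map_smul]

/-- the development on flight number `k` -/
def P (y : Phase) (k : ℤ) : Prop :=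
  ∃ B : Iso, B.lin (e y.2) = w c k ∧ (∀ t, B • line y t = q c k + (t - c.t k) • w c k) ∧
    ∀ t ∈ Icc (c.t k) (c.t (k + 1)), T.Dv t y B

theorem P_of (hA : T.Models A) {y : Phase} {k : ℤ} {B : Iso} {t₀ : ℝ}
    (ht₀ : t₀ ∈ Icc (c.t k) (c.t (k + 1))) (h1 : B.lin (e y.2) = w c k)
    (h2 : B • line y t₀ = q c k + (t₀ - c.t k) • w c k) (h3 : T.Dv t₀ y B) : P T c y k := by
  have h4 : ∀ t, B • line y t = q c k + (t - c.t k) • w c k := by
    intro t
    have : line y t = line y t₀ + (t - t₀) • e y.2 := by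
      rw [← line_sub_line]; ring
    rw [this, Iso.smul_add', Iso.lin_smul, h1, h2, add_assoc, ← add_smul]
    congr 2; ring
  refine ⟨B, h1, h4, fun t ht => h3.straight fun t' ht' => ?_⟩
  rw [h4]
  exact flight_D0 T c hA k (uIcc_subset_Icc ht₀ ht ht')

theorem P_all (hA : T.Models A) {y : Phase} (hy : y.1 ∈ T.Int) (hc : c.Through (emb y))
    (k : ℤ) : P T c y k := by
  have up : ∀ k, P T c y k → P T c y (k + 1) := by
    rintro k ⟨B, h1, h2, h3⟩
    have hq : B • line y (c.t (k + 1)) = q c (k + 1) := by rw [h2, q_succ]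
    have h0 := (q_side T c hA (k + 1)).1
    refine P_of T c hA (B := T.σ (c.side (k + 1)) * B) (t₀ := c.t (k + 1))
      ⟨le_rfl, (t_lt c _).le⟩ ?_ ?_ ?_
    · rw [Iso.lin_mul, h1, w_succ T c hA]
    · rw [mul_smul, hq, T.σ_fix h0, sub_self, zero_smul, add_zero]
    · exact (h3 _ ⟨(t_lt c _).le, le_rfl⟩).reflect (by rw [hq]; exact h0)
  have down : ∀ k, P T c y (k + 1) → P T c y k := by
    rintro k ⟨B, h1, h2, h3⟩
    have hq : B • line y (c.t (k + 1)) = q c (k + 1) := by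
      rw [h2, sub_self, zero_smul, add_zero]
    have h0 := (q_side T c hA (k + 1)).1
    refine P_of T c hA (B := T.σ (c.side (k + 1)) * B) (t₀ := c.t (k + 1))
      ⟨(t_lt c _).le, le_rfl⟩ ?_ ?_ ?_
    · rw [Iso.lin_mul, h1, w_succ T c hA, ← Iso.lin_mul, T.σ_mul_self, Iso.lin_one]
    · rw [mul_smul, hq, T.σ_fix h0, q_succ]
    · exact (h3 _ ⟨le_rfl, (t_lt c _).le⟩).reflect (by rw [hq]; exact h0)
  induction k using Int.induction_on with
  | zero =>
    obtain ⟨k, hk1, hk2, hk3, hk4⟩ := hc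
    obtain rfl : k = 0 := by
      rcases lt_trichotomy k 0 with h | h | h
      · have := c.strictMono_t.monotone (show k + 1 ≤ 0 by omega)
        linarith [c.t_zero_le]
      · exact h
      · have := c.strictMono_t.monotone (show 1 ≤ k by omega)
        linarith [c.t_one_pos]
    refine P_of T c hA (B := 1) (t₀ := 0) ⟨hk1, hk2.le⟩ ?_ ?_ (Tri.dv_zero hy)
    · rw [Iso.lin_one, w, ← hk4]
      exact (toP.symm_apply_apply _).symm
    · rw [one_smul, line_zero, q, w, ← map_smul, ← map_add, ← hk3]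
      exact (toP.symm_apply_apply _).symm
  | succ k ih => exact up _ ih
  | pred k ih => exact down _ (by rwa [sub_add_cancel])

end ChainSt

open ChainSt in
theorem Tri.chain_state (T : Tri) {A : Fin 3 → Billiard.Plane} (hA : T.Models A) {y : Phase}
    (hy : y.1 ∈ T.Int) (c : Billiard.Chain A) (hc : c.Through (emb y)) {τ : ℝ}
    {p : Billiard.Phase} (hp : c.IsStateAt τ p) :
    ∃ (B : Iso) (δ : ℝ), 0 < δ ∧ p = emb (B • sh τ y) ∧ ∀ τ' ∈ Ioo τ (τ + δ), T.Rch τ' y B := by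
  obtain ⟨k, hk1, hk2, hk3, hk4⟩ := hp
  obtain ⟨B, h1, h2, h3⟩ := P_all T c hA hy hc k
  refine ⟨B, c.t (k + 1) - τ, sub_pos.2 hk2, ?_, fun τ' hτ' => ?_⟩
  · refine Prod.ext ?_ (Subtype.ext ?_)
    · change p.1 = toP (B • line y τ)
      rw [h2, hk3, map_add, map_smul, q, w, LinearIsometryEquiv.apply_symm_apply,
        LinearIsometryEquiv.apply_symm_apply]
    · change (p.2 : Billiard.Plane) = toP (e (B • y.2))
      rw [Iso.e_smul, h1, hk4, w, LinearIsometryEquiv.apply_symm_apply]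
  · have hτ : τ' ∈ Ioo (c.t k) (c.t (k + 1)) := ⟨hk1.trans_lt hτ'.1, by linarith [hτ'.2]⟩
    exact ⟨h3 _ (Ioo_subset_Icc_self hτ), by rw [h2]; exact flight_int T c hA k hτ⟩

end Crest.Agent.R103
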