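import Crest.Agent.R103.Core

/-! Row 103: the billiard flow is a measurable measure preserving flow. -/

set_option autoImplicit false

namespace Crest.Agent.R103

open MeasureTheory Set Filter Topology
open scoped ENNReal ComplexConjugate InnerProductSpace ContDiff

theorem measurePreserving_lin (A : Iso) : MeasurePreserving A.lin volume volume := by
  have h1 := (rotation (AddCircle.toCircle A.β)).measurePreserving
  have h2 := Complex.conjLIE.measurePreserving
  unfold Iso.lin
  split_ifs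
  · exact h1.comp h2
  · exact h1

theorem measurePreserving_smul_pt (A : Iso) :
    MeasurePreserving (fun z : ℂ => A • z) volume volume :=
  (measurePreserving_add_right volume A.b).comp (measurePreserving_lin A)

theorem measurePreserving_smul_ang (A : Iso) :
    MeasurePreserving (fun θ : Ang => A • θ) volume volume := by
  change MeasurePreserving A.act volume volume
  unfold Iso.act
  split_ifs
  · exact Measure.measurePreserving_sub_left volume A.β
  · exact measurePreserving_add_left volume A.β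

theorem measurePreserving_smul (A : Iso) :
    MeasurePreserving (fun y : Phase => A • y) volume volume :=
  (measurePreserving_smul_pt A).prod (measurePreserving_smul_ang A)

theorem measurePreserving_sh (τ : ℝ) : MeasurePreserving (sh τ) volume volume := by
  have hc : Continuous (Function.uncurry fun (θ : Ang) (x : ℂ) => x + τ • e θ) := by
    have := continuous_e
    unfold Function.uncurry
    fun_prop
  have h1 : MeasurePreserving (fun p : Ang × ℂ => (id p.1, p.2 + τ • e p.1))
      ((volume : Measure Ang).prod (volume : Measure ℂ)) (volume.prod volume) :=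
    (MeasurePreserving.id volume).skew_product (g := fun (θ : Ang) (x : ℂ) => x + τ • e θ)
      hc.measurable (Eventually.of_forall fun θ => map_add_right_eq_self volume _)
  exact (Measure.measurePreserving_swap.comp h1).comp Measure.measurePreserving_swap

theorem measurePreserving_tr (w : ℂ) : MeasurePreserving (tr w) volume volume :=
  (measurePreserving_add_right volume w).prod (MeasurePreserving.id volume)

theorem measurePreserving_smul_sh (A : Iso) (τ : ℝ) :
    MeasurePreserving (fun y : Phase => A • sh τ y) volume volume :=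
  (measurePreserving_smul A).comp (measurePreserving_sh τ)

theorem volume_line_null {w : ℂ} (hw : w ≠ 0) (q : ℂ) :
    volume {z : ℂ | ⟪w, z - q⟫_ℝ = 0} = 0 := by
  have h1 : volume (((ℝ ∙ w)ᗮ : Submodule ℝ ℂ) : Set ℂ) = 0 := by
    refine Measure.addHaar_submodule volume _ fun h => hw ?_
    have h2 : w ∈ ((ℝ ∙ w)ᗮ : Submodule ℝ ℂ) := by rw [h]; trivial
    rw [Submodule.mem_orthogonal_singleton_iff_inner_right] at h2
    exact inner_self_eq_zero.1 h2
  have h2 : {z : ℂ | ⟪w, z - q⟫_ℝ = 0} = (fun z => z + -q) ⁻¹' ((ℝ ∙ w)ᗮ : Submodule ℝ ℂ) := by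
    ext z
    simp only [mem_ofPred_eq, mem_preimage, SetLike.mem_coe,
      Submodule.mem_orthogonal_singleton_iff_inner_right, sub_eq_add_neg]
  rw [h2, measure_preimage_add_right, h1]

theorem volume_through_null (p : ℂ) : volume {y : Phase | ∃ τ, line y τ = p} = 0 := by
  have hc : Continuous fun y : Phase => ⟪Complex.I * e y.2, y.1 - p⟫_ℝ := by
    have := continuous_e
    fun_prop
  have hm : MeasurableSet {y : Phase | ⟪Complex.I * e y.2, y.1 - p⟫_ℝ = 0} :=
    (isClosed_eq hc continuous_const).measurableSet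
  refine measure_mono_null (t := {y : Phase | ⟪Complex.I * e y.2, y.1 - p⟫_ℝ = 0}) ?_ ?_
  · rintro y ⟨τ, rfl⟩
    simp only [mem_ofPred_eq, line, sub_add_cancel_left, Complex.inner]
    simp
    ring_nf
  · rw [Measure.volume_eq_prod, Measure.prod_apply_symm hm]
    refine (lintegral_congr fun θ => ?_).trans lintegral_zero
    refine volume_line_null (w := Complex.I * e θ) ?_ p
    rw [← norm_ne_zero_iff]
    simp

namespace Tri

variable (T : Tri)

theorem μ_eq : T.μ = volume.restrict (T.Int ×ˢ univ) := by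
  rw [μ, Measure.restrict_prod_eq_prod_univ, Measure.volume_eq_prod]

instance isFiniteMeasure_μ : IsFiniteMeasure T.μ := by
  have : IsFiniteMeasure (volume.restrict T.Int) :=
    isFiniteMeasure_restrict.2 (T.isBounded_Δ.subset T.Int_subset_Δ).measure_lt_top.ne
  unfold μ
  infer_instance

theorem μ_ne_zero : T.μ ≠ 0 := by
  rw [μ_eq, Ne, Measure.restrict_eq_zero]
  exact ((T.isOpen_Int.prod isOpen_univ).measure_pos volume
    (T.Int_nonempty.prod univ_nonempty)).ne'

theorem measurePreserving_rev : MeasurePreserving rev T.μ T.μ :=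
  (MeasurePreserving.id _).prod (measurePreserving_add_right volume _)

theorem ae_int : ∀ᵐ y ∂T.μ, y.1 ∈ T.Int := by
  rw [μ_eq]
  filter_upwards [ae_restrict_mem (T.isOpen_Int.prod isOpen_univ).measurableSet] with y hy
  exact hy.1

theorem ae_μ_of_ae {P : Phase → Prop} (h : ∀ᵐ y, P y) : ∀ᵐ y ∂T.μ, P y := by
  rw [μ_eq]
  exact ae_restrict_of_ae h

theorem ae_good : ∀ᵐ y ∂T.μ, T.Good y := by
  have h1 : ∀ᵐ y : Phase, ∀ p ∈ T.V, ¬ ∃ τ, line y τ = p :=
    (ae_ball_iff T.countable_V).2 fun p _ => measure_eq_zero_iff_ae_notMem.1 (volume_through_null p)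
  filter_upwards [T.ae_int, T.ae_μ_of_ae h1] with y hy h
  exact good_of_avoid hy fun τ hτ => h _ hτ ⟨τ, rfl⟩

theorem volume_ell_null (j : Fin 3) : volume {y : Phase | T.ell j y.1 = 0} = 0 := by
  have h1 : {y : Phase | T.ell j y.1 = 0} = {z : ℂ | ⟪T.ν j, z - T.v (j + 1)⟫_ℝ = 0} ×ˢ univ := by
    ext y
    simp only [ell, mem_ofPred_eq, mem_prod, mem_univ, and_true]
  rw [h1, Measure.volume_eq_prod, Measure.prod_prod, volume_line_null, zero_mul]
  rw [← norm_ne_zero_iff]
  simp

theorem ae_rch (τ : ℝ) : ∀ᵐ y ∂T.μ, ∃ A, T.Rch τ y A := by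
  have h1 : ∀ᵐ y : Phase, ∀ A ∈ (T.Γ : Set Iso), ∀ j, ¬ T.ell j (A • sh τ y).1 = 0 :=
    (ae_ball_iff T.countable_Γ).2 fun A _ => ae_all_iff.2 fun j =>
      (measurePreserving_smul_sh A τ).quasiMeasurePreserving.ae
        (p := fun y : Phase => ¬ T.ell j y.1 = 0)
        (measure_eq_zero_iff_ae_notMem.1 (T.volume_ell_null j))
  filter_upwards [T.ae_good, T.ae_μ_of_ae h1] with y hy h
  obtain ⟨A, hA⟩ := dst_pos_iff.1 (hy τ)
  exact ⟨A, hA, fun j => lt_of_le_of_ne (hA.mem_D0.1 j) (Ne.symm (h A hA.mem_Γ j))⟩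

theorem measurable_dst : Measurable fun q : ℝ × Phase => T.dst q.2 q.1 := by
  refine measurable_of_Ioi fun c => ?_
  rcases le_or_gt 0 c with hc | hc
  · exact (T.isOpen_lt_dst hc).measurableSet
  · have : (fun q : ℝ × Phase => T.dst q.2 q.1) ⁻¹' Ioi c = univ :=
      eq_univ_of_forall fun q => lt_of_lt_of_le hc (T.dst_nonneg _ _)
    rw [this]
    exact MeasurableSet.univ

theorem measurable_flow : Measurable fun q : ℝ × Phase => T.flow q.1 q.2 := by
  intro S hS
  have hc : ∀ A : Iso, Continuous fun q : ℝ × Phase => A • sh q.1 q.2 := fun A =>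
    A.continuous_smul_phase.comp (continuous_line.prodMk (continuous_snd.comp continuous_snd))
  have h1 : (fun q : ℝ × Phase => T.flow q.1 q.2) ⁻¹' S =
      (⋃ A ∈ (T.Γ : Set Iso), {q : ℝ × Phase | T.Rch q.1 q.2 A} ∩
        (fun q : ℝ × Phase => A • sh q.1 q.2) ⁻¹' S) ∪
      ((⋃ A ∈ (T.Γ : Set Iso), {q : ℝ × Phase | T.Rch q.1 q.2 A})ᶜ ∩ Prod.snd ⁻¹' S) := by
    ext q
    simp only [mem_preimage, mem_union, mem_iUnion, mem_inter_iff, mem_ofPred_eq, mem_compl_iff,
      exists_prop, SetLike.mem_coe]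
    by_cases h : ∃ A, T.Rch q.1 q.2 A
    · obtain ⟨A, hA⟩ := h
      constructor
      · intro hq
        exact Or.inl ⟨A, hA.1.mem_Γ, hA, hA.flow_eq ▸ hq⟩
      · rintro (⟨B, -, hB, hq⟩ | ⟨hn, -⟩)
        · exact hB.flow_eq ▸ hq
        · exact (hn ⟨A, hA.1.mem_Γ, hA⟩).elim
    · rw [flow_of_not h]
      constructor
      · intro hq
        exact Or.inr ⟨fun ⟨A, _, hA⟩ => h ⟨A, hA⟩, hq⟩
      · rintro (⟨B, -, hB, -⟩ | ⟨-, hq⟩)
        · exact (h ⟨B, hB⟩).elim
        · exact hq
  rw [h1]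
  exact (MeasurableSet.biUnion T.countable_Γ fun A _ =>
    (T.isOpen_rch A).measurableSet.inter ((hc A).measurable hS)).union
    ((MeasurableSet.biUnion T.countable_Γ fun A _ => (T.isOpen_rch A).measurableSet).compl.inter
      (measurable_snd hS))

theorem isOpen_rch' (τ : ℝ) (A : Iso) : IsOpen {y : Phase | T.Rch τ y A} :=
  (T.isOpen_rch A).preimage (f := fun y : Phase => (τ, y)) (by fun_prop)

theorem μ_eq_tsum (τ : ℝ) {S : Set Phase} (hS : MeasurableSet S) :
    T.μ S = ∑' A : T.Γ, volume ({y : Phase | T.Rch τ y A} ∩ S) := by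
  have : Countable T.Γ := T.countable_Γ.to_subtype
  have hm : ∀ A : T.Γ, MeasurableSet ({y : Phase | T.Rch τ y A} ∩ S) := fun A =>
    (T.isOpen_rch' τ A).measurableSet.inter hS
  have h1 : S =ᵐ[T.μ] (⋃ A : T.Γ, {y : Phase | T.Rch τ y A} ∩ S : Set Phase) := by
    rw [eventuallyEq_set]
    filter_upwards [T.ae_rch τ] with y ⟨A, hA⟩
    simp only [mem_iUnion, mem_inter_iff, mem_ofPred_eq]
    exact ⟨fun hy => ⟨⟨A, hA.1.mem_Γ⟩, hA, hy⟩, fun ⟨_, _, hy⟩ => hy⟩
  rw [measure_congr h1, μ_eq, Measure.restrict_apply (MeasurableSet.iUnion hm),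
    inter_eq_left.2, measure_iUnion _ hm]
  · intro A B hAB
    refine Set.disjoint_left.2 fun y hA hB => hAB (Subtype.ext ?_)
    exact Rch.unique hB.1 hA.1.1
  · intro y hy
    obtain ⟨A, hA⟩ := mem_iUnion.1 hy
    exact ⟨hA.1.1.int, mem_univ _⟩

theorem rch_neg_iff {τ : ℝ} {y : Phase} {A : Iso} :
    T.Rch (-τ) (A • sh τ y) A⁻¹ ↔ T.Rch τ y A := by
  refine ⟨fun h => ?_, Rch.neg⟩
  have h1 := h.neg
  rwa [neg_neg, inv_inv, sh_smul, inv_smul_smul, sh_sh, add_neg_cancel, sh_zero] at h1

theorem measurePreserving_flow (τ : ℝ) : MeasurePreserving (T.flow τ) T.μ T.μ := by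
  have hm : Measurable (T.flow τ) :=
    T.measurable_flow.comp (f := fun y : Phase => (τ, y)) (by fun_prop)
  refine ⟨hm, Measure.ext fun S hS => ?_⟩
  rw [Measure.map_apply hm hS, T.μ_eq_tsum τ (hm hS), T.μ_eq_tsum (-τ) hS,
    ← (Equiv.inv T.Γ).tsum_eq (fun A : T.Γ => volume ({y : Phase | T.Rch (-τ) y A} ∩ S))]
  refine tsum_congr fun A => ?_
  rw [← (measurePreserving_smul_sh A τ).measure_preimage
    ((T.isOpen_rch' (-τ) _).measurableSet.inter hS).nullMeasurableSet]
  congr 1
  ext y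
  simp only [mem_inter_iff, mem_ofPred_eq, mem_preimage, Equiv.inv_apply, InvMemClass.coe_inv,
    rch_neg_iff]
  exact and_congr_right fun h => by rw [h.flow_eq]

theorem flow_add (s t : ℝ) : ∀ᵐ y ∂T.μ, T.flow s (T.flow t y) = T.flow (s + t) y := by
  filter_upwards [T.ae_rch t, T.ae_rch (t + s)] with y ⟨A, hA⟩ ⟨C, hC⟩
  have h1 : T.Rch s (A • sh t y) (C * A⁻¹) := hA.rch_iff.2 (by rwa [inv_mul_cancel_right])
  rw [hA.flow_eq, h1.flow_eq, add_comm s t, hC.flow_eq, sh_smul, sh_sh, smul_smul,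
    inv_mul_cancel_right]

end Tri

end Crest.Agent.R103
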