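import Crest.Agent.R103.Basic

/-! Row 103: the sequence lemma and Fourier modes of Hilbert-valued functions. -/

set_option autoImplicit false
set_option linter.unusedSectionVars false

namespace Crest.Agent.R103

open MeasureTheory Set Filter Topology
open scoped ENNReal ComplexConjugate InnerProductSpace ContDiff

theorem seq_bound (p q y a e1 e2 e3 : ℤ → ℝ) (η C : ℝ) (hq : ∀ n, 0 ≤ q n) (ha : ∀ n, 0 ≤ a n)
    (h1 : ∀ m, p m - q m = e1 m)
    (h2 : ∀ n, p (n - 1) - q (n + 1) = y (n - 1) - y n + e2 n)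
    (h3 : ∀ n, a n = y (n - 1) + y n + e3 n)
    (h4 : ∀ n, a n ≤ 2 * p (n - 1) + 2 * q (n + 1))
    (he1 : ∀ s : Finset ℤ, ∑ n ∈ s, |e1 n| ≤ η) (he2 : ∀ s : Finset ℤ, ∑ n ∈ s, |e2 n| ≤ η)
    (he3 : ∀ s : Finset ℤ, ∑ n ∈ s, |e3 n| ≤ η) (hC : ∀ s : Finset ℤ, ∑ n ∈ s, a n ≤ C)
    (hq0 : Tendsto q atBot (𝓝 0)) (hy0 : Tendsto y atBot (𝓝 0)) (m : ℤ) (N : ℕ) (hN : 1 ≤ N) :
    q m ≤ C / N + 20 * (N : ℝ) ^ 2 * η := by
  have hη : 0 ≤ η := by simpa using he1 ∅
  have hC0 : 0 ≤ C := by simpa using hC ∅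
  have hs : ∀ (f : ℤ → ℝ) (c : ℝ), (∀ s : Finset ℤ, ∑ n ∈ s, f n ≤ c) → ∀ (φ : ℕ → ℤ),
      Function.Injective φ → ∀ k, ∑ j ∈ Finset.range k, f (φ j) ≤ c := by
    intro f c hf φ hφ k
    rw [← Finset.sum_image (f := f) hφ.injOn]
    exact hf _
  have hb1 : ∀ n, |e1 n| ≤ η := fun n => by simpa using he1 {n}
  have hb3 : ∀ n, |e3 n| ≤ η := fun n => by simpa using he3 {n}
  set u : ℤ → ℝ := fun n => q (n + 1) + q n - y n with hu
  have hu1 : ∀ n, u n - u (n - 1) = e1 (n - 1) - e2 n := by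
    intro n
    have := h1 (n - 1)
    have := h2 n
    simp only [hu, sub_add_cancel]
    linarith
  have hu2 : ∀ n (k : ℕ), |u n - u (n - k)| ≤
      ∑ j ∈ Finset.range k, |e1 (n - j - 1)| + ∑ j ∈ Finset.range k, |e2 (n - j)| := by
    intro n k
    induction k with
    | zero => simp
    | succ k ih =>
      rw [Finset.sum_range_succ, Finset.sum_range_succ]
      have h5 := hu1 (n - k)
      have h6 : n - ((k + 1 : ℕ) : ℤ) = n - k - 1 := by push_cast; ring
      have h7 := abs_sub (e1 (n - k - 1)) (e2 (n - k))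
      have h8 := abs_add_le (u n - u (n - k)) (u (n - k) - u (n - k - 1))
      rw [h6]
      rw [sub_add_sub_cancel, h5] at h8
      linarith
  have hu0 : Tendsto u atBot (𝓝 0) := by
    have h5 : Tendsto (fun n : ℤ => q (n + 1)) atBot (𝓝 0) :=
      hq0.comp (tendsto_atBot_add_const_right _ _ tendsto_id)
    simpa using (h5.add hq0).sub hy0
  have hu3 : ∀ n, |u n| ≤ 2 * η := by
    intro n
    have h5 : Tendsto (fun k : ℕ => n - (k : ℤ)) atTop atBot :=
      tendsto_atBot_add_const_left _ _ (tendsto_neg_atTop_atBot.comp tendsto_natCast_atTop_atTop)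
    have h6 : Tendsto (fun k : ℕ => |u n - u (n - k)|) atTop (𝓝 |u n - 0|) :=
      (tendsto_const_nhds.sub (hu0.comp h5)).abs
    rw [sub_zero] at h6
    refine le_of_tendsto' h6 fun k => (hu2 n k).trans ?_
    have h7 := hs _ _ he1 (fun j => n - j - 1) (fun i j h => by simpa using h) k
    have h8 := hs _ _ he2 (fun j => n - j) (fun i j h => by simpa using h) k
    linarith
  have ha1 : ∀ n, q (n + 1) + 2 * q n + q (n - 1) - 5 * η ≤ a n := by
    intro n
    have h5 := abs_le.1 (hu3 n)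
    have h6 := abs_le.1 (hu3 (n - 1))
    have h7 := abs_le.1 (hb3 n)
    have h8 := h3 n
    simp only [hu, sub_add_cancel] at h5 h6
    linarith
  have ha2 : ∀ n, 2 * q n ≤ a n + 5 * η := fun n => by
    linarith [ha1 n, hq (n + 1), hq (n - 1)]
  have hc : ∀ n, 2 * q n ≤ q (n - 1) + q (n + 1) + 7 * η := fun n => by
    linarith [ha1 n, h4 n, h1 (n - 1), abs_le.1 (hb1 (n - 1))]
  have hd : ∀ k : ℕ, q (m - k) + q (m + k) - 7 * η * (2 * k + 1) ≤
      q (m - (k + 1)) + q (m + (k + 1)) := by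
    intro k
    induction k with
    | zero => simpa using by linarith [hc m]
    | succ k ih =>
      have h5 := hc (m - (k + 1))
      have h6 := hc (m + (k + 1))
      have e1 : m - (k + 1) - 1 = m - (k + 1 + 1) := by ring
      have e2 : m - (k + 1) + 1 = m - k := by ring
      have e3 : m + (k + 1) - 1 = m + k := by ring
      have e4 : m + (k + 1) + 1 = m + (k + 1 + 1) := by ring
      rw [e1, e2] at h5
      rw [e3, e4] at h6
      push_cast
      linarith
  have hf : ∀ k : ℕ, 2 * q m ≤ q (m - k) + q (m + k) + 7 * η * k ^ 2 := by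
    intro k
    induction k with
    | zero => simp [two_mul]
    | succ k ih =>
      have := hd k
      push_cast
      nlinarith
  have hN' : (1 : ℝ) ≤ N := by exact_mod_cast hN
  have h5 : ∑ k ∈ Finset.range N, 4 * q m ≤
      ∑ k ∈ Finset.range N, (a (m - k) + a (m + k) + 24 * η * N ^ 2) := by
    refine Finset.sum_le_sum fun k hk => ?_
    have h6 : (k : ℝ) ≤ N := by exact_mod_cast (Finset.mem_range.1 hk).le
    have h7 : (k : ℝ) ^ 2 ≤ N ^ 2 := by gcongr
    have h8 : (1 : ℝ) ≤ N ^ 2 := one_le_pow₀ hN'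
    have := hf k
    have := ha2 (m - k)
    have := ha2 (m + k)
    nlinarith
  rw [Finset.sum_add_distrib, Finset.sum_add_distrib, Finset.sum_const, Finset.sum_const,
    Finset.card_range, nsmul_eq_mul, nsmul_eq_mul] at h5
  have h7 := hs _ _ hC (fun j => m - j) (fun i j h => by simpa using h) N
  have h8 := hs _ _ hC (fun j => m + j) (fun i j h => by simpa using h) N
  have h9 : q m ≤ C / N + 6 * η * N ^ 2 := by
    rw [div_add' _ _ _ (by positivity), le_div_iff₀ (by positivity)]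
    nlinarith
  have h10 : 0 ≤ η * N ^ 2 := by positivity
  nlinarith


variable {E : Type} [NormedAddCommGroup E] [InnerProductSpace ℂ E] [CompleteSpace E]
variable {g : Ang → E} {M : ℝ}

namespace SeqAux

theorem norm_fourier (m : ℤ) (θ : Ang) : ‖(fourier m θ : ℂ)‖ = 1 := by
  rw [fourier_apply, Circle.norm_coe]

theorem integral_fourier_mul (m k : ℤ) :
    ∫ θ : Ang, (fourier (-m) θ : ℂ) * fourier k θ = if m = k then ((2 * Real.pi : ℝ) : ℂ) else 0 := by
  have h1 := congrFun (fourierCoeff_fourier (T := 2 * Real.pi) k) m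
  rw [fourierCoeff, AddCircle.integral_haarAddCircle] at h1
  have h2 : ∫ θ : Ang, (fourier (-m) θ : ℂ) * fourier k θ =
      (2 * Real.pi : ℝ) • (Pi.single k 1 : ℤ → ℂ) m := by
    rw [← h1, smul_inv_smul₀ Real.two_pi_pos.ne']
    rfl
  rw [h2]
  split_ifs with h
  · simp [h]
  · simp [h]

theorem integrable_of_bdd {F : Type} [NormedAddCommGroup F] {f : Ang → F} {c : ℝ}
    (hf : AEStronglyMeasurable f volume) (hc : ∀ θ, ‖f θ‖ ≤ c) : Integrable f :=
  Integrable.of_bound hf c (Eventually.of_forall hc)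

theorem integrable_fourier_smul (hg : AEStronglyMeasurable g volume) (hM : ∀ θ, ‖g θ‖ ≤ M)
    (m : ℤ) : Integrable fun θ => (fourier m θ : ℂ) • g θ :=
  integrable_of_bdd (c := M) ((map_continuous (fourier m)).aestronglyMeasurable.smul hg)
    fun θ => by rw [norm_smul, norm_fourier, one_mul]; exact hM θ

theorem inner_md (hg : AEStronglyMeasurable g volume) (hM : ∀ θ, ‖g θ‖ ≤ M) (c : E) (m : ℤ) :
    ⟪c, md m g⟫_ℂ = ∫ θ, (fourier (-m) θ : ℂ) * ⟪c, g θ⟫_ℂ := by
  rw [md, ← integral_inner (integrable_fourier_smul hg hM _)]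
  simp only [inner_smul_right]

end SeqAux

open SeqAux

theorem bessel (hg : AEStronglyMeasurable g volume) (hM : ∀ θ, ‖g θ‖ ≤ M) (s : Finset ℤ) :
    ∑ m ∈ s, ‖md m g‖ ^ 2 ≤ 2 * Real.pi * ∫ θ, ‖g θ‖ ^ 2 := by
  set X := ∑ m ∈ s, ‖md m g‖ ^ 2 with hX
  set Q : Ang → E := fun θ => ∑ m ∈ s, (fourier m θ : ℂ) • md m g with hQ
  have hπ := Real.two_pi_pos
  have hi1 : ∀ m, Integrable fun θ : Ang => (fourier (-m) θ : ℂ) * ⟪md m g, g θ⟫_ℂ := fun m => by
    have := (integrable_fourier_smul hg hM (-m)).const_inner (𝕜 := ℂ) (md m g)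
    simp only [inner_smul_right] at this
    exact this
  have hi2 : ∀ m k, Integrable fun θ : Ang =>
      (fourier (-m) θ : ℂ) * fourier k θ * ⟪md m g, md k g⟫_ℂ := fun m k =>
    integrable_of_bdd (c := ‖⟪md m g, md k g⟫_ℂ‖) (Continuous.aestronglyMeasurable (by fun_prop))
      fun θ => by rw [norm_mul, norm_mul, norm_fourier, norm_fourier, one_mul, one_mul]
  have e1 : ∀ θ, ⟪Q θ, g θ⟫_ℂ = ∑ m ∈ s, (fourier (-m) θ : ℂ) * ⟪md m g, g θ⟫_ℂ := fun θ => by
    simp only [hQ, sum_inner, inner_smul_left, fourier_neg]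
  have e2 : ∀ θ, ⟪Q θ, Q θ⟫_ℂ = ∑ m ∈ s, ∑ k ∈ s,
      (fourier (-m) θ : ℂ) * fourier k θ * ⟪md m g, md k g⟫_ℂ := fun θ => by
    simp only [hQ]
    rw [sum_inner]
    refine Finset.sum_congr rfl fun m _ => ?_
    rw [inner_sum]
    refine Finset.sum_congr rfl fun k _ => ?_
    rw [inner_smul_left, inner_smul_right, fourier_neg, mul_assoc]
  have hXc : (X : ℂ) = ∑ m ∈ s, ⟪md m g, md m g⟫_ℂ := by
    simp [hX, inner_self_eq_norm_sq_to_K]
  have j1 : Integrable fun θ => ⟪Q θ, g θ⟫_ℂ := by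
    simp_rw [e1]
    exact integrable_finsetSum _ fun m _ => hi1 m
  have j2 : Integrable fun θ => ⟪Q θ, Q θ⟫_ℂ := by
    simp_rw [e2]
    exact integrable_finsetSum _ fun m _ => integrable_finsetSum _ fun k _ => hi2 m k
  have j3 : Integrable fun θ => ‖g θ‖ ^ 2 :=
    integrable_of_bdd (c := M ^ 2) (hg.norm.pow 2) fun θ => by
      rw [norm_pow, norm_norm]
      exact pow_le_pow_left₀ (norm_nonneg _) (hM θ) 2
  have k1 : ∫ θ, ⟪Q θ, g θ⟫_ℂ = X := by
    simp_rw [e1]
    rw [integral_finsetSum _ fun m _ => hi1 m, hXc]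
    exact Finset.sum_congr rfl fun m _ => (inner_md hg hM _ _).symm
  have k2 : ∫ θ, ⟪Q θ, Q θ⟫_ℂ = ((2 * Real.pi * X : ℝ) : ℂ) := by
    simp_rw [e2]
    rw [integral_finsetSum _ fun m _ => integrable_finsetSum _ fun k _ => hi2 m k,
      Complex.ofReal_mul, hXc, Finset.mul_sum]
    refine Finset.sum_congr rfl fun m hm => ?_
    rw [integral_finsetSum _ fun k _ => hi2 m k]
    simp_rw [integral_mul_const, integral_fourier_mul, ite_mul, zero_mul]
    rw [Finset.sum_ite_eq, if_pos hm]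
  have l1 : ∫ θ, RCLike.re ⟪Q θ, g θ⟫_ℂ = X := by rw [integral_re j1, k1]; simp
  have l2 : ∫ θ, RCLike.re ⟪Q θ, Q θ⟫_ℂ = 2 * Real.pi * X := by
    rw [integral_re j2, k2]
    exact Complex.ofReal_re _
  have hle : ∫ θ, 2 * (2 * Real.pi) * RCLike.re ⟪Q θ, g θ⟫_ℂ ≤
      ∫ θ, (RCLike.re ⟪Q θ, Q θ⟫_ℂ + (2 * Real.pi) ^ 2 * ‖g θ‖ ^ 2) := by
    refine integral_mono (j1.re.const_mul _) (j2.re.add (j3.const_mul _)) fun θ => ?_
    have m1 := re_inner_le_norm (𝕜 := ℂ) (Q θ) (g θ)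
    have m2 := inner_self_eq_norm_sq (𝕜 := ℂ) (Q θ)
    have m3 := mul_le_mul_of_nonneg_left m1 hπ.le
    simp only
    nlinarith [sq_nonneg (‖Q θ‖ - 2 * Real.pi * ‖g θ‖)]
  rw [integral_const_mul, integral_add j2.re (j3.const_mul _), integral_const_mul, l1, l2] at hle
  have : 2 * Real.pi * X ≤ 2 * Real.pi * (2 * Real.pi * ∫ θ, ‖g θ‖ ^ 2) := by nlinarith
  exact le_of_mul_le_mul_left this hπ

theorem ae_eq_zero_of_md [SecondCountableTopology E] (hg : AEStronglyMeasurable g volume)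
    (hM : ∀ θ, ‖g θ‖ ≤ M) (h : ∀ m, md m g = 0) : ∀ᵐ θ, g θ = 0 := by
  refine ae_eq_zero_of_forall_inner (𝕜 := ℂ) fun c => ?_
  have h1 : MemLp (fun θ => ⟪c, g θ⟫_ℂ) 2 (volume : Measure Ang) :=
    MemLp.of_bound (aestronglyMeasurable_const.inner hg) (‖c‖ * M) (Eventually.of_forall fun θ =>
      (norm_inner_le_norm _ _).trans (mul_le_mul_of_nonneg_left (hM θ) (norm_nonneg _)))
  have h2 := h1.haarAddCircle
  have h3 : h2.toLp _ = 0 := by
    apply fourierBasis.repr.injective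
    ext m
    rw [fourierBasis_repr, fourierCoeff_congr_ae h2.coeFn_toLp, fourierCoeff,
      AddCircle.integral_haarAddCircle]
    have := inner_md hg hM c m
    rw [h m, inner_zero_right] at this
    simp only [smul_eq_mul]
    rw [← this]
    simp
  have h4 : (fun θ => ⟪c, g θ⟫_ℂ) =ᵐ[AddCircle.haarAddCircle] 0 := by
    refine h2.coeFn_toLp.symm.trans ?_
    rw [h3]
    exact Lp.coeFn_zero _ _ _
  rw [AddCircle.volume_eq_smul_haarAddCircle]
  exact Measure.ae_smul_measure h4 _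

theorem norm_md_le (hM : ∀ θ, ‖g θ‖ ≤ M) (m : ℤ) : ‖md m g‖ ≤ 2 * Real.pi * M := by
  have h1 := norm_integral_le_of_norm_le_const (μ := (volume : Measure Ang))
    (f := fun θ => (fourier (-m) θ : ℂ) • g θ) (C := M) (Eventually.of_forall fun θ => by
      rw [norm_smul, norm_fourier, one_mul]; exact hM θ)
  rw [measureReal_def, AddCircle.measure_univ, ENNReal.toReal_ofReal Real.two_pi_pos.le] at h1
  exact h1.trans_eq (mul_comm _ _)

theorem md_e_smul (g : Ang → E) (m : ℤ) : md m (fun θ => e θ • g θ) = md (m - 1) g := by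
  unfold md
  congr 1
  ext θ
  rw [smul_smul, e_eq_fourier, ← fourier_add]
  congr 3
  ring

theorem md_conj_e_smul (g : Ang → E) (m : ℤ) :
    md m (fun θ => conj (e θ) • g θ) = md (m + 1) g := by
  unfold md
  congr 1
  ext θ
  rw [smul_smul, e_eq_fourier, ← fourier_neg, ← fourier_add]
  congr 3
  ring

theorem md_reflect (β : Ang) (h : ∀ θ, g (β - θ) = g θ) (m : ℤ) :
    md (-m) g = (fourier m β : ℂ) • md m g := by
  unfold md
  rw [← integral_sub_left_eq_self _ _ β, ← integral_smul]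
  congr 1
  ext θ
  rw [h, smul_smul, neg_neg]
  congr 1
  simp only [fourier_apply, sub_eq_add_neg, smul_add, AddCircle.toCircle_add, Circle.coe_mul,
    smul_neg, neg_smul]


end Crest.Agent.R103
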