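import Crest.Agent.R103.Kernel
import Crest.Agent.R103.Seq
import Crest.Agent.R103.Flow

/-! Row 103: vanishing energy forces independence of the position. -/

set_option autoImplicit false

namespace Crest.Agent.R103

open MeasureTheory Set Filter Topology
open scoped ENNReal ComplexConjugate InnerProductSpace ContDiff

variable {E : Type} [NormedAddCommGroup E] [InnerProductSpace ℂ E] [CompleteSpace E]

namespace CA

/-- the `m`-th mode in the direction variable -/
noncomputable def mdx (m : ℤ) (g : Phase → E) (x : ℂ) : E := md m fun θ => g (x, θ)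

theorem norm_fourier (m : ℤ) (θ : Ang) : ‖(fourier m θ : ℂ)‖ = 1 := Circle.norm_coe _

omit [CompleteSpace E] in
theorem enorm_md_le (m : ℤ) (g : Ang → E) : ‖md m g‖ₑ ≤ ∫⁻ θ, ‖g θ‖ₑ := by
  refine (enorm_integral_le_lintegral_enorm _).trans (le_of_eq (lintegral_congr fun θ => ?_))
  rw [← ofReal_norm, ← ofReal_norm, norm_smul, norm_fourier, one_mul]

omit [CompleteSpace E] in
theorem integrable_md (m : ℤ) {g : Ang → E} {M : ℝ} (hg : StronglyMeasurable g)
    (hM : ∀ θ, ‖g θ‖ ≤ M) : Integrable fun θ => (fourier (-m) θ : ℂ) • g θ := by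
  refine Integrable.of_bound
    ((fourier (-m)).continuous.stronglyMeasurable.smul hg).aestronglyMeasurable M
    (Eventually.of_forall fun θ => ?_)
  rw [norm_smul, norm_fourier, one_mul]
  exact hM θ

omit [CompleteSpace E] in
theorem md_sub (m : ℤ) {g g' : Ang → E} {M M' : ℝ} (hg : StronglyMeasurable g)
    (hM : ∀ θ, ‖g θ‖ ≤ M) (hg' : StronglyMeasurable g') (hM' : ∀ θ, ‖g' θ‖ ≤ M') :
    md m (fun θ => g θ - g' θ) = md m g - md m g' := by
  simp only [md, smul_sub]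
  exact integral_sub (integrable_md m hg hM) (integrable_md m hg' hM')

omit [CompleteSpace E] in
theorem md_comb (m : ℤ) {g g' : Ang → E} {M M' : ℝ} (hg : StronglyMeasurable g)
    (hM : ∀ θ, ‖g θ‖ ≤ M) (hg' : StronglyMeasurable g') (hM' : ∀ θ, ‖g' θ‖ ≤ M') (a b : ℂ) :
    md m (fun θ => a • g θ + b • g' θ) = a • md m g + b • md m g' := by
  simp only [md, smul_add, smul_comm _ a, smul_comm _ b]
  rw [← integral_smul, ← integral_smul]
  exact integral_add ((integrable_md m hg hM).smul a) ((integrable_md m hg' hM').smul b)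

omit [CompleteSpace E] [InnerProductSpace ℂ E] in
theorem sm_sec {g : Phase → E} (hg : StronglyMeasurable g) (x : ℂ) :
    StronglyMeasurable fun θ : Ang => g (x, θ) :=
  hg.comp_measurable measurable_prodMk_left

omit [CompleteSpace E] in
theorem stronglyMeasurable_mdx (m : ℤ) {g : Phase → E} (hg : StronglyMeasurable g) :
    StronglyMeasurable (mdx m g) :=
  StronglyMeasurable.integral_prod_right'
    (f := fun y : Phase => (fourier (-m) y.2 : ℂ) • g y)
    ((((fourier (-m)).continuous.comp continuous_snd).stronglyMeasurable).smul hg)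

theorem lintegral_le_of_sq {α : Type} [MeasurableSpace α] (ν : Measure α) (a : α → ℝ) {γ : ℝ}
    (hγ : 0 < γ) (h : ∫⁻ x, ENNReal.ofReal (a x ^ 2) ∂ν ≤ ENNReal.ofReal (γ ^ 2)) :
    ∫⁻ x, ENNReal.ofReal (a x) ∂ν ≤ ENNReal.ofReal γ * (ν univ + 1) := by
  have h1 : ∀ x, ENNReal.ofReal (a x) ≤
      ENNReal.ofReal γ + ENNReal.ofReal γ⁻¹ * ENNReal.ofReal (a x ^ 2) := by
    intro x
    rw [← ENNReal.ofReal_mul (by positivity), ← ENNReal.ofReal_add hγ.le (by positivity)]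
    refine ENNReal.ofReal_le_ofReal ?_
    have h2 : γ + γ⁻¹ * a x ^ 2 = γ⁻¹ * (γ ^ 2 + a x ^ 2) := by field_simp
    rw [h2, le_inv_mul_iff₀ hγ]
    nlinarith [sq_nonneg (γ - a x), sq_nonneg γ, sq_nonneg (a x)]
  refine (lintegral_mono h1).trans ?_
  rw [lintegral_add_left measurable_const, lintegral_const,
    lintegral_const_mul' _ _ ENNReal.ofReal_ne_top, mul_add, mul_one]
  refine add_le_add le_rfl ((mul_le_mul_right h _).trans (le_of_eq ?_))
  rw [← ENNReal.ofReal_mul (by positivity)]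
  congr 1
  field_simp

variable {κ : ℂ → ℝ} {ε M : ℝ} {F f : Phase → E}

theorem norm_md_smD_le (h : IsKer κ ε) (hF : StronglyMeasurable F) (hM : ∀ y, ‖F y‖ ≤ M)
    (m : ℤ) (w x : ℂ) : ‖mdx m (smD κ F w) x‖ ≤ 2 * ‖w‖ * Real.sqrt (msq κ F m x) := by
  have h1 : mdx m (smD κ F w) x = ((w.re : ℝ) : ℂ) • mdx m (smD κ F 1) x +
      ((w.im : ℝ) : ℂ) • mdx m (smD κ F Complex.I) x := by
    simp only [mdx, h.smD_eq hF hM w]
    exact md_comb m (sm_sec (h.stronglyMeasurable_smD hF 1) x) (fun θ => h.norm_smD_le hM 1 _)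
      (sm_sec (h.stronglyMeasurable_smD hF Complex.I) x)
      (fun θ => h.norm_smD_le hM Complex.I _) _ _
  have h2 : ‖mdx m (smD κ F 1) x‖ ≤ Real.sqrt (msq κ F m x) :=
    Real.le_sqrt_of_sq_le (le_add_of_nonneg_right (sq_nonneg _))
  have h3 : ‖mdx m (smD κ F Complex.I) x‖ ≤ Real.sqrt (msq κ F m x) :=
    Real.le_sqrt_of_sq_le (le_add_of_nonneg_left (sq_nonneg _))
  rw [h1]
  refine (norm_add_le _ _).trans ?_
  rw [norm_smul, norm_smul, Complex.norm_real, Complex.norm_real, Real.norm_eq_abs,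
    Real.norm_eq_abs]
  have h4 := mul_le_mul (Complex.abs_re_le_norm w) h2 (norm_nonneg _) (norm_nonneg _)
  have h5 := mul_le_mul (Complex.abs_im_le_norm w) h3 (norm_nonneg _) (norm_nonneg _)
  linarith

theorem mdx_sub_eq (h : IsKer κ ε) (hF : StronglyMeasurable F) (hM : ∀ y, ‖F y‖ ≤ M)
    (m : ℤ) (w x : ℂ) : mdx m (sm κ F) (x + w) - mdx m (sm κ F) x =
      ∫ t in Ioc (0 : ℝ) 1, mdx m (smD κ F w) (x + t • w) := by
  have hD := h.stronglyMeasurable_smD hF w
  have hb := h.norm_smD_le hM w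
  have h1 : ∀ θ : Ang, sm κ F (x + w, θ) - sm κ F (x, θ) =
      ∫ t in Ioc (0 : ℝ) 1, smD κ F w (x + t • w, θ) := by
    intro θ
    rw [← intervalIntegral.integral_of_le zero_le_one,
      intervalIntegral.integral_eq_sub_of_hasDerivAt
        (fun t _ => h.hasDerivAt_sm hF hM x w θ t)]
    · simp
    · rw [intervalIntegrable_iff_integrableOn_Ioc_of_le zero_le_one]
      exact Integrable.of_bound
        (hD.comp_measurable (by fun_prop)).aestronglyMeasurable _ (Eventually.of_forall fun t => hb _)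
  have hs := h.stronglyMeasurable_sm hF
  rw [mdx, mdx, ← md_sub m (sm_sec hs _) (fun θ => h.norm_sm_le hM _) (sm_sec hs _)
    (fun θ => h.norm_sm_le hM _)]
  simp only [h1, mdx, md]
  simp only [← integral_smul]
  refine integral_integral_swap ?_
  refine Integrable.of_bound ?_ ((∫ z, ‖fderiv ℝ κ z‖) * M * ‖w‖) (Eventually.of_forall fun p => ?_)
  · exact ((((fourier (-m)).continuous.comp continuous_fst).stronglyMeasurable).smul
      (hD.comp_measurable (g := fun p : Ang × ℝ => (x + p.2 • w, p.1))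
        (by fun_prop))).aestronglyMeasurable
  · rw [Function.uncurry, norm_smul, norm_fourier, one_mul]
    exact hb _

theorem measurable_msq (h : IsKer κ ε) (hF : StronglyMeasurable F) (m : ℤ) :
    Measurable (msq κ F m) :=
  ((stronglyMeasurable_mdx m (h.stronglyMeasurable_smD hF 1)).norm.measurable.pow_const 2).add
    ((stronglyMeasurable_mdx m (h.stronglyMeasurable_smD hF Complex.I)).norm.measurable.pow_const 2)

theorem lintegral_shift_le {K : Set ℂ} (hK : MeasurableSet K) {S : Set ℂ} (hS : MeasurableSet S)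
    (ψ : ℂ → ℝ≥0∞) (u : ℂ) (hu : ∀ x ∈ S, x + u ∈ K) :
    ∫⁻ x in S, ψ (x + u) ≤ ∫⁻ x in K, ψ x := by
  rw [← lintegral_indicator hK, ← lintegral_add_right_eq_self (K.indicator ψ) u,
    ← lintegral_indicator hS]
  refine lintegral_mono fun x => ?_
  by_cases hx : x ∈ S
  · rw [indicator_of_mem hx, indicator_of_mem (hu x hx)]
  · rw [indicator_of_notMem hx]
    exact bot_le

theorem lintegral_grad (h : IsKer κ ε) (hF : StronglyMeasurable F) (hM : ∀ y, ‖F y‖ ≤ M)
    (m : ℤ) (w : ℂ) {K : Set ℂ} (hK : MeasurableSet K) (hc : Convex ℝ K) :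
    ∫⁻ x in {x | x ∈ K ∧ x + w ∈ K}, ‖mdx m (sm κ F) (x + w) - mdx m (sm κ F) x‖ₑ ≤
      ENNReal.ofReal (2 * ‖w‖) * ∫⁻ x in K, ENNReal.ofReal (Real.sqrt (msq κ F m x)) := by
  have hS : MeasurableSet {x | x ∈ K ∧ x + w ∈ K} := hK.inter (measurable_add_const w hK)
  have hψ : Measurable fun x => ENNReal.ofReal (Real.sqrt (msq κ F m x)) :=
    (measurable_msq h hF m).sqrt.ennreal_ofReal
  calc ∫⁻ x in {x | x ∈ K ∧ x + w ∈ K}, ‖mdx m (sm κ F) (x + w) - mdx m (sm κ F) x‖ₑ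
      ≤ ∫⁻ x in {x | x ∈ K ∧ x + w ∈ K}, ENNReal.ofReal (2 * ‖w‖) * ∫⁻ t in Ioc (0 : ℝ) 1,
          ENNReal.ofReal (Real.sqrt (msq κ F m (x + t • w))) := by
        refine lintegral_mono fun x => ?_
        rw [mdx_sub_eq h hF hM, ← lintegral_const_mul' _ _ ENNReal.ofReal_ne_top]
        refine (enorm_integral_le_lintegral_enorm _).trans (lintegral_mono fun t => ?_)
        rw [← ofReal_norm, ← ENNReal.ofReal_mul (by positivity)]
        exact ENNReal.ofReal_le_ofReal (norm_md_smD_le h hF hM m w _)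
    _ = ENNReal.ofReal (2 * ‖w‖) * ∫⁻ t in Ioc (0 : ℝ) 1, ∫⁻ x in {x | x ∈ K ∧ x + w ∈ K},
          ENNReal.ofReal (Real.sqrt (msq κ F m (x + t • w))) := by
        rw [lintegral_const_mul' _ _ ENNReal.ofReal_ne_top, lintegral_lintegral_swap]
        exact (hψ.comp (f := fun p : ℂ × ℝ => p.1 + p.2 • w) (by fun_prop)).aemeasurable
    _ ≤ ENNReal.ofReal (2 * ‖w‖) * ∫⁻ _t in Ioc (0 : ℝ) 1, ∫⁻ x in K,
          ENNReal.ofReal (Real.sqrt (msq κ F m x)) := by
        refine mul_le_mul_right (setLIntegral_mono' measurableSet_Ioc fun t ht => ?_) _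
        exact lintegral_shift_le hK hS _ _ fun x hx =>
          hc.add_smul_mem hx.1 hx.2 ⟨ht.1.le, ht.2⟩
    _ = _ := by simp

theorem integrable_ker (h : IsKer κ ε) : Integrable κ :=
  h.smooth.continuous.integrable_of_hasCompactSupport h.hasCompactSupport

theorem lintegral_ker (h : IsKer κ ε) : ∫⁻ w, ENNReal.ofReal (κ (-w)) = 1 := by
  rw [lintegral_neg_eq_self (fun w => ENNReal.ofReal (κ w)),
    ← ofReal_integral_eq_lintegral_ofReal (integrable_ker h) (Eventually.of_forall h.nonneg),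
    h.integral_one, ENNReal.ofReal_one]

theorem enorm_sm_sub_le (h : IsKer κ ε) (hF : StronglyMeasurable F) (hM : ∀ y, ‖F y‖ ≤ M)
    (y : Phase) (c : E) :
    ‖sm κ F y - c‖ₑ ≤ ∫⁻ w, ENNReal.ofReal (κ (-w)) * ‖F (tr w y) - c‖ₑ := by
  have hk : Integrable fun w : ℂ => ((κ (-w) : ℝ) : ℂ) := (integrable_ker h).comp_neg.ofReal
  have h1 : sm κ F y = ∫ w, ((κ (-w) : ℝ) : ℂ) • F (tr w y) := by
    rw [sm, ← integral_add_left_eq_self _ y.1]
    simp only [sub_add_cancel_left, tr]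
  have h2 : c = ∫ w, ((κ (-w) : ℝ) : ℂ) • c := by
    rw [integral_smul_const, integral_complex_ofReal, integral_neg_eq_self κ, h.integral_one]
    simp
  have h3 : Integrable fun w : ℂ => ((κ (-w) : ℝ) : ℂ) • F (tr w y) := by
    refine hk.smul_bdd M
      (hF.comp_measurable (g := fun w => tr w y) (by unfold tr; fun_prop)).aestronglyMeasurable
      (Eventually.of_forall fun w => hM _)
  conv_lhs => rw [h1, h2, ← integral_sub h3 (hk.smul_const c)]
  refine (enorm_integral_le_lintegral_enorm _).trans (le_of_eq (lintegral_congr fun w => ?_))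
  rw [← smul_sub, ← ofReal_norm, ← ofReal_norm, norm_smul, Complex.norm_real,
    Real.norm_of_nonneg (h.nonneg _), ENNReal.ofReal_mul (h.nonneg _)]

theorem lintegral_sm_sub_le (h : IsKer κ ε) (hF : StronglyMeasurable F) (hM : ∀ y, ‖F y‖ ≤ M)
    (hf : StronglyMeasurable f) (S : Set Phase) {B : ℝ≥0∞}
    (hB : ∀ w : ℂ, ‖w‖ < ε → ∫⁻ y in S, ‖F (tr w y) - f y‖ₑ ≤ B) :
    ∫⁻ y in S, ‖sm κ F y - f y‖ₑ ≤ B := by
  have hκ : Measurable fun w : ℂ => ENNReal.ofReal (κ (-w)) :=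
    (h.smooth.continuous.measurable.comp measurable_neg).ennreal_ofReal
  refine (lintegral_mono fun y => enorm_sm_sub_le h hF hM y (f y)).trans ?_
  rw [lintegral_lintegral_swap]
  · calc ∫⁻ w, ∫⁻ y in S, ENNReal.ofReal (κ (-w)) * ‖F (tr w y) - f y‖ₑ
        ≤ ∫⁻ w, ENNReal.ofReal (κ (-w)) * B := by
          refine lintegral_mono fun w => ?_
          rw [lintegral_const_mul' _ _ ENNReal.ofReal_ne_top]
          rcases lt_or_ge ‖w‖ ε with hw | hw
          · exact mul_le_mul_right (hB w hw) _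
          · rw [h.supp (-w) (by rwa [norm_neg])]
            simp
      _ = B := by rw [lintegral_mul_const _ hκ, lintegral_ker h, one_mul]
  · refine ((hκ.comp measurable_snd).mul ?_).aemeasurable
    exact ((hF.comp_measurable (g := fun p : Phase × ℂ => tr p.2 p.1)
      (by unfold tr; fun_prop)).sub (hf.comp_measurable measurable_fst)).enorm

omit [CompleteSpace E] in
theorem lintegral_mdx_sub_le (m : ℤ) {g g' : Phase → E} {M M' : ℝ} (hg : StronglyMeasurable g)
    (hM : ∀ y, ‖g y‖ ≤ M) (hg' : StronglyMeasurable g') (hM' : ∀ y, ‖g' y‖ ≤ M') (K : Set ℂ) :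
    ∫⁻ x in K, ‖mdx m g x - mdx m g' x‖ₑ ≤ ∫⁻ y in K ×ˢ univ, ‖g y - g' y‖ₑ := by
  rw [Measure.volume_eq_prod, ← Measure.restrict_prod_eq_prod_univ,
    lintegral_prod (fun y => ‖g y - g' y‖ₑ) (hg.sub hg').enorm.aemeasurable]
  refine lintegral_mono fun x => ?_
  rw [mdx, mdx, ← md_sub m (sm_sec hg x) (fun θ => hM _) (sm_sec hg' x) fun θ => hM' _]
  exact enorm_md_le m _

/-- the inner parallel triangle -/
def inn (T : Tri) (δ : ℝ) : Set ℂ := {x | ∀ j, δ ≤ T.ell j x}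

theorem isClosed_inn (T : Tri) (δ : ℝ) : IsClosed (inn T δ) := by
  rw [inn, ofPred_forall]
  exact isClosed_iInter fun j => isClosed_le continuous_const (T.continuous_ell j)

theorem convex_inn (T : Tri) (δ : ℝ) : Convex ℝ (inn T δ) := by
  intro x hx y hy a b ha hb hab j
  have h1 : a • x + b • y = x + b • (y - x) := by
    rw [smul_sub, show a = 1 - b by linarith, sub_smul, one_smul]
    abel
  rw [h1, T.ell_add, inner_smul_right, ← T.ell_sub]
  have h2 := hx j
  have h3 := hy j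
  have h4 : a = 1 - b := by linarith
  subst h4
  nlinarith [mul_le_mul_of_nonneg_left h2 ha, mul_le_mul_of_nonneg_left h3 hb]

theorem add_mem_Int (T : Tri) {δ : ℝ} {x w : ℂ} (hx : x ∈ inn T δ) (hw : ‖w‖ < δ) :
    x + w ∈ T.Int := by
  intro j
  have h1 := T.abs_ell_sub_le j x (x + w)
  rw [sub_add_cancel_left, norm_neg] at h1
  have h2 := hx j
  linarith [(abs_le.1 h1).2]

theorem le_d (T : Tri) {δ : ℝ} {x : ℂ} (hx : x ∈ inn T δ) : δ ≤ T.d x := by
  obtain ⟨j, hj⟩ := T.exists_d x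
  have h1 := T.abs_ell_sub_le (j + 1) x (T.v j)
  have h2 : j + 1 ≠ j := by fin_cases j <;> decide
  rw [T.ell_v, if_neg h2, sub_zero] at h1
  rw [hj]
  exact (hx _).trans ((le_abs_self _).trans h1)

omit [InnerProductSpace ℂ E] [CompleteSpace E] in
theorem lintegral_tr_le (T : Tri) {δ : ℝ} (hδ : 0 < δ) (hF : StronglyMeasurable F)
    (hM : ∀ y, ‖F y‖ ≤ M) (hf : StronglyMeasurable f) (hM' : ∀ y, ‖f y‖ ≤ M) {w : ℂ}
    (hw : ‖w‖ < δ) {γ : ℝ} (hγ : 0 < γ) (h1 : T.μ {y | F y ≠ f y} ≤ ENNReal.ofReal γ)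
    (h2 : ∫⁻ y, ENNReal.ofReal (‖(T.Int ×ˢ univ).indicator f (tr w y) -
      (T.Int ×ˢ univ).indicator f y‖ ^ 2) ≤ ENNReal.ofReal (γ ^ 2)) :
    ∫⁻ y in inn T δ ×ˢ univ, ‖F (tr w y) - f y‖ₑ ≤
      ENNReal.ofReal γ * (ENNReal.ofReal (2 * M) + (T.μ univ + 1)) := by
  set I : Set Phase := T.Int ×ˢ univ with hI
  set N : Set Phase := {y | F y ≠ f y} ∩ I with hN
  have hIm : MeasurableSet I := (T.isOpen_Int.prod isOpen_univ).measurableSet
  have hNm0 : MeasurableSet {y | F y ≠ f y} := (hF.measurableSet_eq_fun hf).compl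
  have hNm : MeasurableSet N := hNm0.inter hIm
  have hSm : MeasurableSet (inn T δ ×ˢ (univ : Set Ang)) :=
    (isClosed_inn T δ).measurableSet.prod MeasurableSet.univ
  have hsub : inn T δ ×ˢ (univ : Set Ang) ⊆ I := fun y hy =>
    ⟨by simpa using add_mem_Int T (w := 0) hy.1 (by simpa using hδ), mem_univ _⟩
  have hpt : ∀ y ∈ inn T δ ×ˢ (univ : Set Ang), ‖F (tr w y) - f y‖ₑ ≤
      (tr w ⁻¹' N).indicator (fun _ => ENNReal.ofReal (2 * M)) y +
        ENNReal.ofReal ‖I.indicator f (tr w y) - I.indicator f y‖ := by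
    intro y hy
    have hy1 : tr w y ∈ I := ⟨add_mem_Int T hy.1 hw, mem_univ _⟩
    rw [indicator_of_mem hy1, indicator_of_mem (hsub hy), ofReal_norm]
    by_cases hn : F (tr w y) = f (tr w y)
    · rw [hn]
      exact le_add_self
    · rw [indicator_of_mem (show y ∈ tr w ⁻¹' N from ⟨hn, hy1⟩),
        ← sub_add_sub_cancel (F (tr w y)) (f (tr w y)) (f y)]
      refine (enorm_add_le _ _).trans (add_le_add ?_ le_rfl)
      rw [← ofReal_norm]
      refine ENNReal.ofReal_le_ofReal ((norm_sub_le _ _).trans ?_)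
      linarith [hM (tr w y), hM' (tr w y)]
  have htm : MeasurableSet (tr w ⁻¹' N) := (measurePreserving_tr w).measurable hNm
  refine (setLIntegral_mono' hSm hpt).trans ?_
  rw [lintegral_add_left (measurable_const.indicator htm), mul_add]
  refine add_le_add ?_ ?_
  · refine (setLIntegral_le_lintegral _ _).trans ?_
    rw [lintegral_indicator_const htm,
      (measurePreserving_tr w).measure_preimage hNm.nullMeasurableSet, mul_comm]
    refine mul_le_mul_left (le_trans (le_of_eq ?_) h1) _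
    rw [T.μ_eq, Measure.restrict_apply hNm0]
  · refine (lintegral_le_of_sq _ _ hγ ((setLIntegral_le_lintegral _ _).trans h2)).trans ?_
    refine mul_le_mul_right (add_le_add ?_ le_rfl) _
    rw [T.μ_eq, Measure.restrict_apply_univ, Measure.restrict_apply_univ]
    exact measure_mono hsub

theorem lintegral_msq_le (T : Tri) (h : IsKer κ ε) (hF : StronglyMeasurable F)
    (hM : ∀ y, ‖F y‖ ≤ M) (m : ℤ) {ζ : ℂ → ℝ} (hζ : Continuous ζ) (h0 : ∀ x, 0 ≤ ζ x)
    (h1 : ∀ x, ζ x ≤ 1) {δ η : ℝ} (hδ : 0 < δ) (h2 : ∀ x ∈ inn T δ, ζ x = 1)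
    (h3 : ∫ x in T.Int, ζ x * msq κ F m x ≤ η) :
    ∫⁻ x in inn T δ, ENNReal.ofReal (Real.sqrt (msq κ F m x) ^ 2) ≤ ENNReal.ofReal η := by
  have hn : ∀ x, 0 ≤ msq κ F m x := fun x => add_nonneg (sq_nonneg _) (sq_nonneg _)
  have hsub : inn T δ ⊆ T.Int := fun y hy => by
    simpa using add_mem_Int T (w := 0) hy (by simpa using hδ)
  have : IsFiniteMeasure (volume.restrict T.Int) :=
    isFiniteMeasure_restrict.2 (T.isBounded_Δ.subset T.Int_subset_Δ).measure_lt_top.ne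
  have hint : Integrable (fun x => ζ x * msq κ F m x) (volume.restrict T.Int) := by
    refine Integrable.of_bound (hζ.measurable.mul (measurable_msq h hF m)).aestronglyMeasurable
      ((2 * Real.pi * ((∫ z, ‖fderiv ℝ κ z‖) * M * ‖(1 : ℂ)‖)) ^ 2 +
        (2 * Real.pi * ((∫ z, ‖fderiv ℝ κ z‖) * M * ‖Complex.I‖)) ^ 2)
      (Eventually.of_forall fun x => ?_)
    rw [Real.norm_of_nonneg (mul_nonneg (h0 x) (hn x))]
    refine (mul_le_of_le_one_left (hn x) (h1 x)).trans (add_le_add ?_ ?_)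
    · exact pow_le_pow_left₀ (norm_nonneg _) (norm_md_le (fun θ => h.norm_smD_le hM _ _) m) 2
    · exact pow_le_pow_left₀ (norm_nonneg _) (norm_md_le (fun θ => h.norm_smD_le hM _ _) m) 2
  refine le_trans ?_ (ENNReal.ofReal_le_ofReal h3)
  rw [ofReal_integral_eq_lintegral_ofReal hint
    (Eventually.of_forall fun x => mul_nonneg (h0 x) (hn x))]
  refine le_trans (le_of_eq ?_) (lintegral_mono_set hsub)
  refine setLIntegral_congr_fun (isClosed_inn T δ).measurableSet fun x hx => ?_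
  simp only [h2 x hx, Real.sq_sqrt (hn x), one_mul]

theorem mdx_ae_eq (T : Tri) (hf : StronglyMeasurable f) (hM : ∀ y, ‖f y‖ ≤ M) (m : ℤ)
    (H : ∀ (η : ℝ), 0 < η → ∃ (F : Phase → E) (κ ζ : ℂ → ℝ) (ε : ℝ),
      StronglyMeasurable F ∧ (∀ y, ‖F y‖ ≤ M) ∧ IsKer κ ε ∧ ε < η ∧
      T.μ {y | F y ≠ f y} ≤ ENNReal.ofReal η ∧ Continuous ζ ∧ (∀ x, 0 ≤ ζ x) ∧ (∀ x, ζ x ≤ 1) ∧
      (∀ x, η ≤ T.d x → ζ x = 1) ∧ ∫ x in T.Int, ζ x * msq κ F m x ≤ η)
    {δ : ℝ} (hδ : 0 < δ) (w : ℂ) :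
    ∀ᵐ x, x ∈ inn T δ → x + w ∈ inn T δ → mdx m f (x + w) = mdx m f x := by
  set K := inn T δ with hK
  have hKm : MeasurableSet K := (isClosed_inn T δ).measurableSet
  have hS : MeasurableSet {x | x ∈ K ∧ x + w ∈ K} := hKm.inter (measurable_add_const w hKm)
  have hfm := stronglyMeasurable_mdx m hf
  have hfw : StronglyMeasurable fun x => mdx m f (x + w) :=
    hfm.comp_measurable (measurable_add_const w)
  have hsub : K ⊆ T.Int := fun y hy => by
    simpa using add_mem_Int T (w := 0) hy (by simpa using hδ)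
  have hKfin : volume K ≠ ⊤ :=
    ((T.isBounded_Δ.subset T.Int_subset_Δ).subset hsub).measure_lt_top.ne
  set I : Set Phase := T.Int ×ˢ univ with hI
  have hIm : MeasurableSet I := (T.isOpen_Int.prod isOpen_univ).measurableSet
  obtain ⟨r, hr⟩ := (T.isBounded_Δ.subset T.Int_subset_Δ).exists_norm_le
  have htr := transl_tendsto (g := I.indicator f) (M := M) (r := r) (hf.indicator hIm)
    (fun y => (norm_indicator_le_norm_self _ _).trans (hM y))
    (fun y hy => indicator_of_notMem (fun h => absurd (hr _ h.1) (not_le.2 hy)) _)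
  set B : ℝ≥0∞ := ENNReal.ofReal (2 * M) + (T.μ univ + 1) with hB
  set C : ℝ≥0∞ := B + ENNReal.ofReal (2 * ‖w‖) * (volume K + 1) + B with hC
  have hBfin : B ≠ ⊤ := by
    have := measure_ne_top T.μ univ
    rw [hB]
    finiteness
  have hCfin : C ≠ ⊤ := by
    rw [hC]
    finiteness
  have key : ∀ γ : ℝ, 0 < γ → ∫⁻ x in {x | x ∈ K ∧ x + w ∈ K},
      ‖mdx m f (x + w) - mdx m f x‖ₑ ≤ ENNReal.ofReal γ * C := by
    intro γ hγ
    have h1 := htr.eventually (ge_mem_nhds (ENNReal.ofReal_pos.2 (pow_pos hγ 2)))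
    obtain ⟨η₀, hη₀, h2⟩ := Metric.eventually_nhds_iff.1 h1
    obtain ⟨F, κ, ζ, ε, hF, hFM, hκ, hε, hne, hζ, hζ0, hζ1, hζd, hE⟩ :=
      H (min (min δ η₀) (min γ (γ ^ 2))) (by positivity)
    have e1 : min (min δ η₀) (min γ (γ ^ 2)) ≤ δ := (min_le_left _ _).trans (min_le_left _ _)
    have e2 : min (min δ η₀) (min γ (γ ^ 2)) ≤ η₀ := (min_le_left _ _).trans (min_le_right _ _)
    have e3 : min (min δ η₀) (min γ (γ ^ 2)) ≤ γ := (min_le_right _ _).trans (min_le_left _ _)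
    have e4 : min (min δ η₀) (min γ (γ ^ 2)) ≤ γ ^ 2 :=
      (min_le_right _ _).trans (min_le_right _ _)
    have hs := hκ.stronglyMeasurable_sm hF
    have hGm := stronglyMeasurable_mdx m hs
    have a1 : ∫⁻ x in K, ‖mdx m (sm κ F) x - mdx m f x‖ₑ ≤ ENNReal.ofReal γ * B := by
      refine (lintegral_mdx_sub_le m hs (hκ.norm_sm_le hFM) hf hM K).trans ?_
      refine lintegral_sm_sub_le hκ hF hFM hf _ fun u hu => ?_
      exact lintegral_tr_le T hδ hF hFM hf hM (hu.trans (hε.trans_le e1)) hγ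
        (hne.trans (ENNReal.ofReal_le_ofReal e3))
        (h2 (by rw [dist_zero_right]; exact hu.trans (hε.trans_le e2)))
    have a2 : ∫⁻ x in {x | x ∈ K ∧ x + w ∈ K}, ‖mdx m (sm κ F) (x + w) - mdx m (sm κ F) x‖ₑ ≤
        ENNReal.ofReal γ * (ENNReal.ofReal (2 * ‖w‖) * (volume K + 1)) := by
      refine (lintegral_grad hκ hF hFM m w hKm (convex_inn T δ)).trans ?_
      rw [mul_left_comm]
      refine mul_le_mul_right ((lintegral_le_of_sq _ _ hγ ?_).trans
        (by rw [Measure.restrict_apply_univ])) _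
      exact lintegral_msq_le T hκ hF hFM m hζ hζ0 hζ1 hδ
        (fun x hx => hζd x (e1.trans (le_d T hx))) (hE.trans e4)
    have a3 : ∫⁻ x in {x | x ∈ K ∧ x + w ∈ K}, ‖mdx m (sm κ F) (x + w) - mdx m f (x + w)‖ₑ ≤
        ENNReal.ofReal γ * B :=
      (lintegral_shift_le hKm hS (fun x => ‖mdx m (sm κ F) x - mdx m f x‖ₑ) w
        fun x hx => hx.2).trans a1
    have a4 : ∫⁻ x in {x | x ∈ K ∧ x + w ∈ K}, ‖mdx m (sm κ F) x - mdx m f x‖ₑ ≤
        ENNReal.ofReal γ * B := (lintegral_mono_set fun x hx => hx.1).trans a1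
    have hGw : StronglyMeasurable fun x => mdx m (sm κ F) (x + w) :=
      hGm.comp_measurable (measurable_add_const w)
    calc ∫⁻ x in {x | x ∈ K ∧ x + w ∈ K}, ‖mdx m f (x + w) - mdx m f x‖ₑ
        ≤ ∫⁻ x in {x | x ∈ K ∧ x + w ∈ K}, (‖mdx m (sm κ F) (x + w) - mdx m f (x + w)‖ₑ +
            ‖mdx m (sm κ F) (x + w) - mdx m (sm κ F) x‖ₑ + ‖mdx m (sm κ F) x - mdx m f x‖ₑ) := by
          refine lintegral_mono fun x => ?_
          have e : mdx m f (x + w) - mdx m f x = -(mdx m (sm κ F) (x + w) - mdx m f (x + w)) +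
              (mdx m (sm κ F) (x + w) - mdx m (sm κ F) x) + (mdx m (sm κ F) x - mdx m f x) := by
            abel
          rw [e]
          refine (enorm_add_le _ _).trans (add_le_add ((enorm_add_le _ _).trans ?_) le_rfl)
          rw [enorm_neg]
      _ ≤ _ := by
          have m1 : Measurable fun x => ‖mdx m (sm κ F) x - mdx m f x‖ₑ := (hGm.sub hfm).enorm
          have m2 : Measurable fun x => ‖mdx m (sm κ F) (x + w) - mdx m (sm κ F) x‖ₑ :=
            (hGw.sub hGm).enorm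
          rw [lintegral_add_right _ m1, lintegral_add_right _ m2, hC, mul_add, mul_add]
          exact add_le_add (add_le_add a3 a2) a4
  have hzero : ∫⁻ x in {x | x ∈ K ∧ x + w ∈ K}, ‖mdx m f (x + w) - mdx m f x‖ₑ = 0 := by
    have h1 : Tendsto (fun γ : ℝ => ENNReal.ofReal γ * C) (𝓝[>] 0) (𝓝 0) := by
      have h2 : Tendsto (fun γ : ℝ => ENNReal.ofReal γ) (𝓝[>] 0) (𝓝 0) := by
        have := (ENNReal.continuous_ofReal.tendsto 0).mono_left (nhdsWithin_le_nhds (s := Ioi 0))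
        rwa [ENNReal.ofReal_zero] at this
      simpa using ENNReal.Tendsto.mul_const h2 (Or.inr hCfin)
    exact le_antisymm (ge_of_tendsto h1 (eventually_nhdsWithin_of_forall key)) bot_le
  filter_upwards [(setLIntegral_eq_zero_iff hS (hfw.sub hfm).enorm).1 hzero] with x hx h1 h2
  exact sub_eq_zero.1 (enorm_eq_zero.1 (hx ⟨h1, h2⟩))

theorem exists_inn (T : Tri) {x x' : ℂ} (hx : x ∈ T.Int) (hx' : x' ∈ T.Int) :
    ∃ n : ℕ, x ∈ inn T (1 / ((n : ℝ) + 1)) ∧ x' ∈ inn T (1 / ((n : ℝ) + 1)) := by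
  have h : ∀ z ∈ T.Int, ∀ᶠ n : ℕ in atTop, z ∈ inn T (1 / ((n : ℝ) + 1)) := fun z hz =>
    eventually_all.2 fun j =>
      tendsto_one_div_add_atTop_nhds_zero_nat.eventually (ge_mem_nhds (hz j))
  exact ((h x hx).and (h x' hx')).exists

end CA

open CA in
theorem Tri.const_pos [SecondCountableTopology E] (T : Tri) {f : Phase → E} {M : ℝ}
    (hf : StronglyMeasurable f) (hM : ∀ y, ‖f y‖ ≤ M)
    (H : ∀ (m : ℤ) (η : ℝ), 0 < η → ∃ (F : Phase → E) (κ ζ : ℂ → ℝ) (ε : ℝ),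
      StronglyMeasurable F ∧ (∀ y, ‖F y‖ ≤ M) ∧ IsKer κ ε ∧ ε < η ∧
      T.μ {y | F y ≠ f y} ≤ ENNReal.ofReal η ∧ Continuous ζ ∧ (∀ x, 0 ≤ ζ x) ∧ (∀ x, ζ x ≤ 1) ∧
      (∀ x, η ≤ T.d x → ζ x = 1) ∧ ∫ x in T.Int, ζ x * msq κ F m x ≤ η) :
    ∃ c : Ang → E, StronglyMeasurable c ∧ ∀ᵐ y ∂T.μ, f y = c y.2 := by
  have hIm := T.isOpen_Int.measurableSet
  have h1 : ∀ᵐ w : ℂ, ∀ᵐ x : ℂ,
      x ∈ T.Int → x + w ∈ T.Int → ∀ m, mdx m f (x + w) = mdx m f x := by
    refine Eventually.of_forall fun w => ?_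
    have h2 : ∀ᵐ x : ℂ, ∀ (m : ℤ) (n : ℕ), x ∈ inn T (1 / ((n : ℝ) + 1)) →
        x + w ∈ inn T (1 / ((n : ℝ) + 1)) → mdx m f (x + w) = mdx m f x :=
      ae_all_iff.2 fun m => ae_all_iff.2 fun n => mdx_ae_eq T hf hM m (H m) (by positivity) w
    filter_upwards [h2] with x hx h3 h4 m
    obtain ⟨n, h5, h6⟩ := exists_inn T h3 h4
    exact hx m n h5 h6
  have hmeas : MeasurableSet {p : ℂ × ℂ |
      p.2 ∈ T.Int → p.2 + p.1 ∈ T.Int → ∀ m, mdx m f (p.2 + p.1) = mdx m f p.2} := by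
    refine (measurable_snd hIm).imp (((measurable_snd.add measurable_fst) hIm).imp ?_)
    rw [ofPred_forall]
    exact MeasurableSet.iInter fun m =>
      ((stronglyMeasurable_mdx m hf).comp_measurable
        (measurable_snd.add measurable_fst)).measurableSet_eq_fun
        ((stronglyMeasurable_mdx m hf).comp_measurable measurable_snd)
  have h2 := (Measure.ae_ae_comm (p := fun w x : ℂ =>
    x ∈ T.Int → x + w ∈ T.Int → ∀ m, mdx m f (x + w) = mdx m f x) hmeas).1 h1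
  obtain ⟨x₀, hx₀, h3⟩ := Measure.exists_mem_of_measure_ne_zero_of_ae
    (T.isOpen_Int.measure_pos volume T.Int_nonempty).ne' (ae_restrict_of_ae h2)
  have h4 := (measurePreserving_add_right (volume : Measure ℂ) (-x₀)).quasiMeasurePreserving.ae h3
  refine ⟨fun θ => f (x₀, θ), sm_sec hf x₀, ?_⟩
  refine (Measure.ae_prod_iff_ae_ae (hf.measurableSet_eq_fun
    ((sm_sec hf x₀).comp_measurable measurable_snd))).2 ((ae_restrict_iff' hIm).2 ?_)
  filter_upwards [h4] with x hx hxI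
  rw [show x₀ + (x + -x₀) = x by ring] at hx
  have h5 := ae_eq_zero_of_md (g := fun θ => f (x, θ) - f (x₀, θ)) (M := M + M)
    ((sm_sec hf x).sub (sm_sec hf x₀)).aestronglyMeasurable
    (fun θ => (norm_sub_le _ _).trans (add_le_add (hM _) (hM _))) fun m => by
      rw [md_sub m (sm_sec hf x) (fun θ => hM _) (sm_sec hf x₀) fun θ => hM _]
      exact sub_eq_zero.2 (hx hx₀ hxI m)
  filter_upwards [h5] with θ hθ
  exact sub_eq_zero.1 hθ

end Crest.Agent.R103
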