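import Crest.Agent.R103.Flow

/-! Row 103: a function of the direction alone is constant. -/

set_option autoImplicit false

namespace Crest.Agent.R103

open MeasureTheory Set Filter Topology
open scoped ENNReal ComplexConjugate InnerProductSpace ContDiff

namespace ConstB

variable (T : Tri)

/-- the midpoint of side `j` -/
noncomputable def mid (j : Fin 3) : ℂ := T.v (j + 1) + (1 / 2 : ℝ) • (T.v (j + 2) - T.v (j + 1))

theorem ell_mid (i j : Fin 3) :
    T.ell i (mid T j) = (T.ell i (T.v (j + 1)) + T.ell i (T.v (j + 2))) / 2 := by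
  rw [mid, T.ell_add, real_inner_smul_right, ← T.ell_sub]
  ring

theorem ell_mid_self (j : Fin 3) : T.ell j (mid T j) = 0 := by
  have h1 : j ≠ j + 1 := by revert j; decide
  have h2 : j ≠ j + 2 := by revert j; decide
  rw [ell_mid, T.ell_v, T.ell_v, if_neg h1, if_neg h2]
  norm_num

theorem mid_mem (j : Fin 3) : mid T j ∈ T.D0 := by
  refine ⟨fun i => ?_, ?_⟩
  · rw [ell_mid, T.ell_v, T.ell_v]
    have := (T.h_pos i).le
    split_ifs <;> linarith
  · obtain ⟨k, hk⟩ := T.exists_d (mid T j)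
    rw [hk, norm_pos_iff, sub_ne_zero]
    intro h
    have h12 : j + 1 ≠ j + 2 := (by decide : ∀ j : Fin 3, j + 1 ≠ j + 2) j
    have h1 := ell_mid T (j + 1) j
    have h2 := ell_mid T (j + 2) j
    rw [h] at h1 h2
    simp only [T.ell_v, if_true, if_neg h12, if_neg h12.symm] at h1 h2
    have p1 := T.h_pos (j + 1)
    have p2 := T.h_pos (j + 2)
    by_cases e1 : j + 1 = k
    · rw [if_pos e1] at h1; linarith
    · rw [if_neg e1] at h1; linarith

theorem ell_pos_near {j : Fin 3} {x : ℂ} (hx : x ∈ T.D0) (hj : T.ell j x = 0) {i : Fin 3}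
    (hi : i ≠ j) {z : ℂ} (hz : ‖z - x‖ < T.c0 * T.d x) : 0 < T.ell i z := by
  obtain ⟨k, hk⟩ := T.chart_side hx
  have hpos : 0 < T.c0 * T.d x := mul_pos T.c0_pos hx.2
  have hkj : j = k := by
    by_contra hne
    have := hk j hne x (by rw [sub_self, norm_zero]; linarith)
    linarith
  subst hkj
  exact hk i hi z (by linarith)

/-- near the midpoint of a side, the flow reflects outgoing directions -/
theorem flow_snd {j : Fin 3} {τ : ℝ} (hτ : 0 < τ) (hτ' : 2 * τ < T.c0 * T.d (mid T j))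
    {x : ℂ} {θ : Ang} (hx : x ∈ T.Int) (hd : ‖x - mid T j‖ < τ)
    (hl : T.ell j (x + τ • e θ) < 0) : (T.flow τ (x, θ)).2 = T.σ j • θ := by
  have hm := mid_mem T j
  have h1 : ‖((x, θ) : Phase).1 - mid T j‖ < T.c0 * T.d (mid T j) := by
    change ‖x - mid T j‖ < _
    linarith
  have hline : line ((x, θ) : Phase) τ = x + τ • e θ := rfl
  have h2 : ‖line ((x, θ) : Phase) τ - mid T j‖ < T.c0 * T.d (mid T j) := by
    have h3 : line ((x, θ) : Phase) τ - mid T j = (x - mid T j) + τ • e θ := by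
      rw [hline]; ring
    rw [h3]
    refine (norm_add_le _ _).trans_lt ?_
    rw [norm_smul, norm_e, mul_one, Real.norm_eq_abs, abs_of_pos hτ]
    linarith
  have hf : T.fold ((x, θ) : Phase) = (x, θ) := T.fold_of_mem (T.Int_subset_Δ hx)
  have hoth : ∀ i, i ≠ j → 0 < T.ell i (line ((x, θ) : Phase) τ) := fun i hi =>
    ell_pos_near T hm (ell_mid_self T j) hi h2
  have hG : T.foldG (line ((x, θ) : Phase) τ) = T.σ j :=
    T.foldG_eq_σ (by rw [hline]; exact hl) fun i hi => (hoth i hi).le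
  have hi2 : (T.fold (sh τ ((x, θ) : Phase))).1 ∈ T.Int := by
    rw [T.fold_fst, sh_fst]
    refine T.foldG_mem_Int hm h2 fun i => ?_
    by_cases hi : i = j
    · subst hi; rw [hline]; exact hl.ne
    · exact (hoth i hi).ne'
  have h := (Tri.rch_fold (T := T) (y := (x, θ)) (s := τ) hm h1 h2 (by rw [hf]; exact hx) hi2).2
  rw [hf] at h
  rw [h, Tri.fold, sh_fst, hG]
  rfl

theorem inner_σ (j : Fin 3) (θ : Ang) : ⟪T.ν j, e (T.σ j • θ)⟫_ℝ = -⟪T.ν j, e θ⟫_ℝ := by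
  rw [Iso.e_smul, T.σ_lin, inner_sub_right, real_inner_smul_right, real_inner_self_eq_norm_sq,
    T.norm_ν]
  ring

theorem σ_eq_self {j : Fin 3} {θ : Ang} (h : ⟪T.ν j, e θ⟫_ℝ = 0) : T.σ j • θ = θ := by
  apply e_injective
  rw [Iso.e_smul, T.σ_lin, h]
  simp

variable {E : Type} [NormedAddCommGroup E] [InnerProductSpace ℂ E]

theorem norm_fs_sub (S : Sys T.μ T.flow E) {τ : ℝ} (hτ : 0 ≤ τ) (y : Phase) :
    ‖S.fs τ y - S.f y‖ ≤ S.M * τ + S.M * τ ^ 2 := by
  have h1 : S.fs τ y - S.f y = (τ : ℂ) • S.h y + (S.fs τ y - S.f y - (τ : ℂ) • S.h y) := by abel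
  rw [h1]
  refine (norm_add_le _ _).trans (add_le_add ?_ (S.taylor τ y))
  rw [norm_smul, Complex.norm_real, Real.norm_eq_abs, abs_of_nonneg hτ, mul_comm]
  exact mul_le_mul_of_nonneg_right (S.h_bdd y) hτ

theorem step (S : Sys T.μ T.flow E) {c : Ang → E} (h : ∀ᵐ y ∂T.μ, S.f y = c y.2) (j : Fin 3)
    {τ : ℝ} (hτ : 0 < τ) (hτ' : 2 * τ < T.c0 * T.d (mid T j)) :
    ∀ᵐ θ : Ang, ⟪T.ν j, e θ⟫_ℝ < 0 → ‖c (T.σ j • θ) - c θ‖ ≤ S.M * τ + S.M * τ ^ 2 := by
  have h1 : ∀ᵐ y ∂T.μ, ‖c (T.flow τ y).2 - c y.2‖ ≤ S.M * τ + S.M * τ ^ 2 := by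
    filter_upwards [h, S.flow_ae τ, (T.measurePreserving_flow τ).quasiMeasurePreserving.ae h]
      with y hy1 hy2 hy3
    rw [← hy3, ← hy1, hy2]
    exact norm_fs_sub T S hτ.le y
  have h2 : ∀ᵐ θ : Ang, ∀ᵐ x ∂(volume.restrict T.Int),
      ‖c (T.flow τ (x, θ)).2 - c θ‖ ≤ S.M * τ + S.M * τ ^ 2 := by
    have h3 := (Measure.measurePreserving_swap (μ := (volume : Measure Ang))
      (ν := (volume : Measure ℂ).restrict T.Int)).quasiMeasurePreserving.ae h1
    exact Measure.ae_ae_of_ae_prod h3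
  filter_upwards [h2] with θ hθ hneg
  set U : Set ℂ := T.Int ∩ ({x | ‖x - mid T j‖ < τ} ∩ {x | T.ell j (x + τ • e θ) < 0}) with hU
  have hUo : IsOpen U := by
    refine T.isOpen_Int.inter (IsOpen.inter ?_ ?_)
    · exact isOpen_lt (by fun_prop) continuous_const
    · exact isOpen_lt ((T.continuous_ell j).comp (by fun_prop)) continuous_const
  have hle : -⟪T.ν j, e θ⟫_ℝ ≤ 1 := by
    have := abs_real_inner_le_norm (T.ν j) (e θ)
    rw [T.norm_ν, norm_e, mul_one] at this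
    linarith [neg_abs_le ⟪T.ν j, e θ⟫_ℝ]
  have hUn : U.Nonempty := by
    set s : ℝ := τ * (-⟪T.ν j, e θ⟫_ℝ) / 2 with hs
    have hs0 : 0 < s := by rw [hs]; have := mul_pos hτ (neg_pos.2 hneg); linarith
    have hs1 : s < τ := by rw [hs]; nlinarith
    have hn : ‖mid T j + s • T.ν j - mid T j‖ = s := by
      rw [add_sub_cancel_left, norm_smul, T.norm_ν, mul_one, Real.norm_eq_abs, abs_of_pos hs0]
    have he : T.ell j (mid T j + s • T.ν j) = s := by
      rw [T.ell_add, ell_mid_self, real_inner_smul_right, real_inner_self_eq_norm_sq, T.norm_ν]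
      ring
    refine ⟨mid T j + s • T.ν j, fun i => ?_, ?_, ?_⟩
    · by_cases hi : i = j
      · subst hi; rw [he]; exact hs0
      · exact ell_pos_near T (mid_mem T j) (ell_mid_self T j) hi (by rw [hn]; linarith)
    · change ‖mid T j + s • T.ν j - mid T j‖ < τ
      rw [hn]; exact hs1
    · change T.ell j (mid T j + s • T.ν j + τ • e θ) < 0
      rw [T.ell_add, he, real_inner_smul_right, hs]
      have := mul_pos hτ (neg_pos.2 hneg)
      linarith
  have hpos : volume U ≠ 0 := (hUo.measure_pos volume hUn).ne'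
  have h4 : ∀ᵐ x ∂(volume.restrict U), ‖c (T.flow τ (x, θ)).2 - c θ‖ ≤ S.M * τ + S.M * τ ^ 2 :=
    ae_restrict_of_ae_restrict_of_subset inter_subset_left hθ
  obtain ⟨x, hxU, hx⟩ := Measure.exists_mem_of_measure_ne_zero_of_ae hpos h4
  rwa [flow_snd T hτ hτ' hxU.1 hxU.2.1 hxU.2.2] at hx

theorem half (S : Sys T.μ T.flow E) {c : Ang → E} (h : ∀ᵐ y ∂T.μ, S.f y = c y.2) (j : Fin 3) :
    ∀ᵐ θ : Ang, ⟪T.ν j, e θ⟫_ℝ < 0 → c (T.σ j • θ) = c θ := by
  have hpos : 0 < T.c0 * T.d (mid T j) := mul_pos T.c0_pos (mid_mem T j).2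
  set a : ℝ := T.c0 * T.d (mid T j) / 4 with ha
  have ha0 : 0 < a := by rw [ha]; linarith
  have h1 : ∀ n : ℕ, ∀ᵐ θ : Ang, ⟪T.ν j, e θ⟫_ℝ < 0 →
      ‖c (T.σ j • θ) - c θ‖ ≤ S.M * (a * (1 / ((n : ℝ) + 1))) +
        S.M * (a * (1 / ((n : ℝ) + 1))) ^ 2 := by
    intro n
    have hn : (0 : ℝ) < 1 / ((n : ℝ) + 1) := Nat.one_div_pos_of_nat
    have hn1 : 1 / ((n : ℝ) + 1) ≤ 1 := by
      rw [div_le_one (by positivity)]
      linarith [(Nat.cast_nonneg n : (0 : ℝ) ≤ n)]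
    refine step T S h j (mul_pos ha0 hn) ?_
    have := mul_le_mul_of_nonneg_left hn1 ha0.le
    linarith
  filter_upwards [ae_all_iff.2 h1] with θ hθ hneg
  have h2 : Tendsto (fun n : ℕ => a * (1 / ((n : ℝ) + 1))) atTop (𝓝 (a * 0)) :=
    tendsto_one_div_add_atTop_nhds_zero_nat.const_mul a
  have h3 : Tendsto (fun n : ℕ => S.M * (a * (1 / ((n : ℝ) + 1))) +
      S.M * (a * (1 / ((n : ℝ) + 1))) ^ 2) atTop (𝓝 (S.M * (a * 0) + S.M * (a * 0) ^ 2)) :=
    (h2.const_mul _).add ((h2.pow 2).const_mul _)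
  have h4 := ge_of_tendsto' h3 fun n => hθ n hneg
  rw [← sub_eq_zero, ← norm_le_zero_iff]
  simpa using h4

theorem full (S : Sys T.μ T.flow E) {c : Ang → E} (h : ∀ᵐ y ∂T.μ, S.f y = c y.2) (j : Fin 3) :
    ∀ᵐ θ : Ang, c (T.σ j • θ) = c θ := by
  filter_upwards [half T S h j,
    (measurePreserving_smul_ang (T.σ j)).quasiMeasurePreserving.ae (half T S h j)] with θ h1 h2
  rcases lt_trichotomy ⟪T.ν j, e θ⟫_ℝ 0 with hlt | heq | hgt
  · exact h1 hlt
  · rw [σ_eq_self T heq]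
  · have h3 := h2 (by rw [inner_σ]; linarith)
    rw [smul_smul, T.σ_mul_self, one_smul] at h3
    exact h3.symm

end ConstB

variable {E : Type} [NormedAddCommGroup E] [InnerProductSpace ℂ E] [CompleteSpace E]

theorem Tri.const_dir [SecondCountableTopology E] (T : Tri) (hT : T.Irr) (S : Sys T.μ T.flow E)
    {c : Ang → E} (hc : StronglyMeasurable c) (h : ∀ᵐ y ∂T.μ, S.f y = c y.2) :
    ∃ c₀, ∀ᵐ y ∂T.μ, S.f y = c₀ := by
  obtain ⟨i, j, hij⟩ := hT
  have herg := AddCircle.ergodic_add_left.2 hij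
  have h1 : c ∘ (fun θ : Ang => ((T.σ i).β - (T.σ j).β) + θ) =ᵐ[volume] c := by
    filter_upwards [ConstB.full T S h j,
      (measurePreserving_smul_ang (T.σ j)).quasiMeasurePreserving.ae (ConstB.full T S h i)]
      with θ h1 h2
    rw [← h1, ← h2, T.σ_ang, T.σ_ang]
    simp only [Function.comp]
    congr 1
    abel
  obtain ⟨c₀, hc₀⟩ := herg.ae_eq_const_of_ae_eq_comp_ae hc.aestronglyMeasurable h1
  refine ⟨c₀, ?_⟩
  have h2 : ∀ᵐ y ∂T.μ, c y.2 = c₀ :=
    (Measure.quasiMeasurePreserving_snd (μ := (volume : Measure ℂ).restrict T.Int)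
      (ν := (volume : Measure Ang))).ae hc₀
  filter_upwards [h, h2] with y h3 h4
  rw [h3, h4]

end Crest.Agent.R103
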