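import Crest.Agent.R103.Dev

/-! Row 103: developments of lines (uniqueness, shift, reversal, tubes, attached vertices, events). -/

set_option autoImplicit false

namespace Crest.Agent.R103

open MeasureTheory Set Filter Topology
open scoped ENNReal ComplexConjugate InnerProductSpace ContDiff

theorem line_mem_of_convex {K : Set ℂ} (hK : Convex ℝ K) {y : Phase} {a b t : ℝ}
    (ha : line y a ∈ K) (hb : line y b ∈ K) (ht : t ∈ uIcc a b) : line y t ∈ K := by
  rw [← segment_eq_uIcc] at ht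
  obtain ⟨u, w, hu, hw, huw, rfl⟩ := ht
  have := hK ha hb hu hw huw
  convert this using 1
  have hw' : w = 1 - u := by linarith
  subst hw'
  simp only [line, smul_eq_mul, Complex.real_smul]; push_cast; ring

theorem pos_of_mul_pos_left_aux {a b : ℝ} (h : 0 < a * b) (ha : 0 < a) : 0 < b :=
  (mul_pos_iff_of_pos_left ha).1 h

namespace Tri

variable {T : Tri} {y : Phase} {τ s : ℝ} {A B : Iso} {p : ℂ} {R : ℝ}

/-! ### Basic properties -/

theorem Dv.int (h : T.Dv τ y A) : y.1 ∈ T.Int := h.1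
theorem Dv.mem_D0 (h : T.Dv τ y A) : A • line y τ ∈ T.D0 := by
  obtain ⟨-, 𝒜, h, -, rfl⟩ := h
  exact h.mem τ right_mem_uIcc
theorem Dv.mem_Γ (h : T.Dv τ y A) : A ∈ T.Γ := by
  obtain ⟨-, 𝒜, h, h0, rfl⟩ := h
  refine h.induct isPreconnected_uIcc (· ∈ T.Γ) ?_ left_mem_uIcc (h0 ▸ one_mem _) right_mem_uIcc
  rintro z - A B (rfl | ⟨j, -, rfl⟩) hA
  exacts [hA, mul_mem (T.σ_mem j) hA]
theorem Dv.unique (h : T.Dv τ y A) (h' : T.Dv τ y B) : T.Eqv (line y τ) A B := by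
  obtain ⟨-, 𝒜, h, h0, rfl⟩ := h
  obtain ⟨-, ℬ, h', h0', rfl⟩ := h'
  exact h.unique isPreconnected_uIcc h' left_mem_uIcc (Or.inl (h0'.trans h0.symm)) right_mem_uIcc
theorem Dv.smul_eq (h : T.Dv τ y A) (h' : T.Dv τ y B) : A • line y τ = B • line y τ :=
  (h.unique h').smul_eq.symm
theorem Rch.unique (h : T.Rch τ y A) (h' : T.Dv τ y B) : B = A :=
  (h.1.unique h').eq_of_int h.2
theorem Dv.dst_eq (h : T.Dv τ y A) : T.dst y τ = T.d (A • line y τ) := by
  have h' : ∃ A, T.Dv τ y A := ⟨A, h⟩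
  unfold dst
  rw [dif_pos h', h'.choose_spec.smul_eq h]
theorem Rch.flow_eq (h : T.Rch τ y A) : T.flow τ y = A • sh τ y := by
  have h' : ∃ A, T.Rch τ y A := ⟨A, h⟩
  unfold flow
  rw [dif_pos h', h.unique h'.choose_spec.1]
theorem Rch.flow_int (h : T.Rch τ y A) : (T.flow τ y).1 ∈ T.Int := by
  rw [h.flow_eq]; exact h.2
theorem flow_of_not (h : ¬ ∃ A, T.Rch τ y A) : T.flow τ y = y := by
  unfold flow; rw [dif_neg h]
theorem dv_zero (hy : y.1 ∈ T.Int) : T.Dv 0 y 1 := by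
  refine ⟨hy, fun _ => 1, Dev.const (continuous_line' y).continuousOn fun z hz => ?_, rfl, rfl⟩
  rw [uIcc_self, mem_singleton_iff] at hz
  rw [hz, one_smul, line_zero]; exact T.Int_subset_D0 hy
theorem dst_zero (hy : y.1 ∈ T.Int) : T.dst y 0 = T.d y.1 := by
  rw [(dv_zero hy).dst_eq, one_smul, line_zero]
theorem dst_nonneg (T : Tri) (y : Phase) (τ : ℝ) : 0 ≤ T.dst y τ := by
  unfold dst; split_ifs
  exacts [T.d_nonneg _, le_rfl]
theorem dst_pos_iff : 0 < T.dst y τ ↔ ∃ A, T.Dv τ y A := by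
  refine ⟨fun h => ?_, fun ⟨A, h⟩ => by rw [h.dst_eq]; exact h.mem_D0.2⟩
  by_contra h'
  unfold dst at h
  rw [dif_neg h'] at h
  exact lt_irrefl _ h
theorem Dv.dst_pos (h : T.Dv τ y A) : 0 < T.dst y τ := dst_pos_iff.2 ⟨A, h⟩
theorem dst_eq_zero (h : ¬ ∃ A, T.Dv τ y A) : T.dst y τ = 0 := by
  unfold dst; rw [dif_neg h]
theorem Dv.mono (h : T.Dv τ y A) (hs : s ∈ uIcc 0 τ) : ∃ B, T.Dv s y B := by
  obtain ⟨hy, 𝒜, h, h0, rfl⟩ := h
  exact ⟨𝒜 s, hy, 𝒜, h.mono (uIcc_subset_uIcc_left hs), h0, rfl⟩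
theorem Dv.eq_one (h : T.Dv τ y A) (hτ : line y τ ∈ T.Int) (hA : T.Dv τ y 1) : A = 1 :=
  Rch.unique ⟨hA, by rwa [one_smul]⟩ h
theorem Dv.eqv (h : T.Dv τ y A) (hB : T.Eqv (line y τ) A B) : T.Dv τ y B := by
  by_cases hτ : τ = 0
  · subst hτ
    have h1 := h.eq_one (by simpa using h.1) (dv_zero h.1)
    subst h1
    rw [hB.eq_of_int (by simpa using h.1)]; exact h
  · obtain ⟨hy, 𝒜, h, h0, rfl⟩ := h
    refine ⟨hy, Function.update 𝒜 τ B, h.congr fun z _ => ?_, ?_, by simp⟩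
    · by_cases hz : z = τ
      · subst hz; simpa using hB
      · rw [Function.update_of_ne hz]; exact Or.inl rfl
    · rw [Function.update_of_ne (Ne.symm hτ), h0]
theorem Dv.append {ℬ : ℝ → Iso} (h : T.Dv τ y A) (hℬ : T.Dev (line y) (uIcc τ s) ℬ)
    (hA : T.Eqv (line y τ) A (ℬ τ)) : T.Dv s y (ℬ s) := by
  classical
  obtain ⟨hy, 𝒜, h, h0, rfl⟩ := h
  have hI : ∀ z ∈ uIcc 0 τ, z ∈ uIcc τ s → T.Eqv (line y z) (𝒜 z) (ℬ z) := fun z h1 h2 =>
    (h.mono inter_subset_left).unique (ordConnected_uIcc.inter ordConnected_uIcc).isPreconnected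
      (hℬ.mono inter_subset_right) ⟨right_mem_uIcc, left_mem_uIcc⟩ hA ⟨h1, h2⟩
  have h1 : T.Dev (line y) (uIcc 0 τ) (piecewise (uIcc 0 τ) 𝒜 ℬ) :=
    h.congr fun z hz => Or.inl (piecewise_eq_of_mem _ _ _ hz)
  have h2 : T.Dev (line y) (uIcc τ s) (piecewise (uIcc 0 τ) 𝒜 ℬ) := by
    refine hℬ.congr fun z hz => ?_
    by_cases hz' : z ∈ uIcc 0 τ
    · rw [piecewise_eq_of_mem _ _ _ hz']; exact (hI z hz' hz).symm
    · rw [piecewise_eq_of_notMem _ _ _ hz']; exact Or.inl rfl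
  have h3 : T.Dv s y (piecewise (uIcc 0 τ) 𝒜 ℬ s) :=
    ⟨hy, _, (h1.union h2 isCompact_uIcc.isClosed isCompact_uIcc.isClosed).mono
      uIcc_subset_uIcc_union_uIcc, by rw [piecewise_eq_of_mem _ _ _ left_mem_uIcc, h0], rfl⟩
  refine h3.eqv ?_
  by_cases hz' : s ∈ uIcc 0 τ
  · rw [piecewise_eq_of_mem _ _ _ hz']; exact hI s hz' right_mem_uIcc
  · rw [piecewise_eq_of_notMem _ _ _ hz']; exact Or.inl rfl
/-- straight continuation inside the triangle -/
theorem Dv.straight (h : T.Dv τ y A) (hs : ∀ t ∈ uIcc τ s, A • line y t ∈ T.D0) : T.Dv s y A :=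
  h.append (Dev.const (continuous_line' y).continuousOn hs) (Or.inl rfl)
/-- reflection at a side -/
theorem Dv.reflect (h : T.Dv τ y A) {j : Fin 3} (hj : T.ell j (A • line y τ) = 0) :
    T.Dv τ y (T.σ j * A) := h.eqv (Or.inr ⟨j, hj, rfl⟩)
theorem abs_sub_le_of_mem_uIcc {t : ℝ} (ht : t ∈ uIcc τ s) : |t - τ| ≤ |s - τ| :=
  abs_sub_left_of_mem_uIcc ht
/-- local continuation through the chart -/
theorem Dv.chart (h : T.Dv τ y A) (hs : |s - τ| < T.c0 * T.dst y τ) :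
    T.Dv s y (T.foldG (A • line y s) * A) := by
  have h1 : T.Dev (fun _ : ℝ => line y τ) (uIcc τ s) fun _ => A :=
    Dev.const continuousOn_const fun _ _ => h.mem_D0
  have h2 := h1.step (continuous_line' y).continuousOn fun t ht => by
    rw [norm_line_sub_line, ← h.dst_eq]
    exact (abs_sub_le_of_mem_uIcc ht).trans_lt hs
  refine h.append h2 (Or.inl ?_)
  rw [T.foldG_of_mem h.mem_D0.1, one_mul]
theorem rch_one (hy : y.1 ∈ T.Int) (hτ : line y τ ∈ T.Int) : T.Rch τ y 1 := by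
  refine ⟨(dv_zero hy).straight fun t ht => ?_, by rwa [one_smul]⟩
  rw [one_smul]
  exact T.Int_subset_D0 (line_mem_of_convex T.convex_Int (by simpa using hy) hτ ht)
theorem dst_sub_le (T : Tri) (y : Phase) (s τ : ℝ) : T.dst y τ - |s - τ| ≤ T.dst y s := by
  by_cases hs : |s - τ| < T.dst y τ
  · obtain ⟨A, h⟩ := dst_pos_iff.1 ((abs_nonneg _).trans_lt hs)
    have h1 : T.Dev (fun _ : ℝ => line y τ) (uIcc τ s) fun _ => A :=
      Dev.const continuousOn_const fun _ _ => h.mem_D0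
    obtain ⟨ℬ, hℬ, h2⟩ := h1.tube isCompact_uIcc (continuous_line' y).continuousOn fun t ht => by
      rw [norm_line_sub_line, ← h.dst_eq]
      exact (abs_sub_le_of_mem_uIcc ht).trans_lt hs
    have h3 := h.append hℬ (Or.inl ((h2 τ left_mem_uIcc).2.1 h.mem_D0.1))
    have h4 := (h2 s right_mem_uIcc).1
    rw [norm_line_sub_line] at h4
    have h5 := (abs_le.1 (T.abs_d_sub_le (ℬ s • line y s) (A • line y τ))).1
    rw [h3.dst_eq, h.dst_eq]; linarith
  · linarith [T.dst_nonneg y s]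
theorem abs_dst_sub_le (T : Tri) (y : Phase) (s τ : ℝ) : |T.dst y s - T.dst y τ| ≤ |s - τ| := by
  have h1 := T.dst_sub_le y s τ
  have h2 := T.dst_sub_le y τ s
  rw [abs_sub_comm τ s] at h2
  rw [abs_le]; constructor <;> linarith
theorem lipschitz_dst (T : Tri) (y : Phase) : LipschitzWith 1 (T.dst y) :=
  LipschitzWith.mk_one fun s τ => T.abs_dst_sub_le y s τ
theorem continuous_dst (T : Tri) (y : Phase) : Continuous (T.dst y) :=
  (T.lipschitz_dst y).continuous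

section
variable {Z : Type} [TopologicalSpace Z] {g : Z → ℝ} {S : Set Z} {ℬ : Z → Iso}

/-- a development of a reparametrised line which is right at one point is right everywhere -/
theorem Dev.dv (hS : IsPreconnected S) (hg : ContinuousOn g S)
    (h : T.Dev (fun z => line y (g z)) S ℬ) {z₀ z : Z} (hz₀ : z₀ ∈ S) (h0 : T.Dv (g z₀) y (ℬ z₀))
    (hz : z ∈ S) : T.Dv (g z) y (ℬ z) := by
  refine hS.induction₂' (fun a b => T.Dv (g a) y (ℬ a) → T.Dv (g b) y (ℬ b))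
    (fun a ha => ?_) (fun _ _ _ _ _ _ h h' h'' => h' (h h'')) hz₀ hz h0
  have hpos := mul_pos T.c0_pos (h.mem a ha).2
  have h1 : ContinuousWithinAt (fun b => T.c0 * T.d (ℬ b • line y (g b)) - |g b - g a|) S a :=
    (continuousWithinAt_const.mul (T.continuous_d.continuousAt.comp_continuousWithinAt
      (h.continuousOn_fold a ha))).sub ((hg a ha).sub continuousWithinAt_const).abs
  have h2 : ContinuousWithinAt (fun b => |g b - g a|) S a :=
    ((hg a ha).sub continuousWithinAt_const).abs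
  filter_upwards [h.loc a ha, h1.eventually (lt_mem_nhds (a := 0) (by simpa using hpos)),
    h2.eventually (gt_mem_nhds (a := T.c0 * T.d (ℬ a • line y (g a))) (by simpa using hpos)),
    self_mem_nhdsWithin] with b hb h3 h4 hbS
  refine ⟨fun hA => ?_, fun hB => ?_⟩
  · have h5 := (hA.eqv hb).chart (s := g b) (by rw [hA.dst_eq]; exact h4)
    rwa [T.foldG_of_mem (h.mem b hbS).1, one_mul] at h5
  · have h5 := hB.chart (s := g a) (by rw [hB.dst_eq, abs_sub_comm]; linarith)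
    rw [T.foldG_of_mem (by rw [hb.smul_eq]; exact (h.mem a ha).1), one_mul] at h5
    exact h5.eqv hb.symm

/-- any choice of foldings along an orbit is a development -/
theorem dev_of_dv (hg : ContinuousOn g S) (h : ∀ z ∈ S, T.Dv (g z) y (ℬ z)) :
    T.Dev (fun z => line y (g z)) S ℬ := by
  have hc : ContinuousOn (fun z => line y (g z)) S := (continuous_line' y).comp_continuousOn hg
  refine ⟨hc, fun z hz => (h z hz).mem_D0, fun a ha => ?_⟩
  have hpos := mul_pos T.c0_pos (h a ha).dst_pos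
  have h2 : ContinuousWithinAt (fun b => |g b - g a|) S a :=
    ((hg a ha).sub continuousWithinAt_const).abs
  filter_upwards [h2.eventually (gt_mem_nhds (a := T.c0 * T.dst y (g a)) (by simpa using hpos)),
    Eqv.near (hc a ha) (h a ha).mem_D0, T.eventually_ell_pos (hc a ha) (ℬ a),
    self_mem_nhdsWithin] with b h3 h4 h5 hb
  refine h4 _ _ ?_ (((h a ha).chart h3).unique (h b hb))
  rcases T.foldG_cases (ℬ a • line y (g b)) with ⟨_, h6⟩ | ⟨j, hj, h6⟩ <;> rw [h6]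
  · exact Or.inl (one_mul _)
  · refine Or.inr ⟨j, ?_, rfl⟩
    exact ((h a ha).mem_D0.1 j).eq_or_lt.elim Eq.symm fun h7 => absurd (h5 j h7) (not_lt.2 hj.le)

end

theorem Dv.eventually (h : T.Dv τ y A) :
    ∀ᶠ q : ℝ × Phase in 𝓝 (τ, y), T.Dv q.1 q.2 (T.foldG (A • line q.2 q.1) * A) := by
  obtain ⟨hy, 𝒜, h, h0, rfl⟩ := h
  have hm : MapsTo (fun t : ℝ => t * τ) (Icc 0 1) (uIcc 0 τ) := fun t ht => by
    rw [← segment_eq_uIcc]
    exact ⟨1 - t, t, by linarith [ht.2], ht.1, by ring, by simp⟩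
  have h1 := h.comp (g := fun t : ℝ => t * τ) (t := Icc 0 1) (by fun_prop) hm
  obtain ⟨m, hm0, hm'⟩ := isCompact_Icc.exists_forall_le'
    (T.continuous_d.comp_continuousOn h1.continuousOn_fold) (a := 0) fun t ht => (h1.mem t ht).2
  have hc := continuous_e
  have h2 : Continuous fun q : ℝ × Phase => ‖q.2.1 - y.1‖ + ‖q.1 • e q.2.2 - τ • e y.2‖ := by
    fun_prop
  have h3 : ∀ᶠ q : ℝ × Phase in 𝓝 (τ, y), q.2.1 ∈ T.Int :=
    (continuous_fst.comp continuous_snd).continuousAt.eventually (T.isOpen_Int.mem_nhds hy)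
  filter_upwards [h3, h2.continuousAt.eventually (gt_mem_nhds (a := T.c0 * m)
    (by simpa using mul_pos T.c0_pos hm0))] with q hq hq'
  have h4 := h1.step (c' := fun t => line q.2 (t * q.1))
    ((continuous_line' _).comp (by fun_prop)).continuousOn fun t ht => by
      have h5 : line q.2 (t * q.1) - line y (t * τ) =
          (q.2.1 - y.1) + t • (q.1 • e q.2.2 - τ • e y.2) := by
        simp only [line, smul_sub, smul_smul]; ring
      have h6 := mul_le_mul_of_nonneg_left (hm' t ht) T.c0_pos.le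
      have h7 : ‖t • (q.1 • e q.2.2 - τ • e y.2)‖ ≤ ‖q.1 • e q.2.2 - τ • e y.2‖ := by
        rw [norm_smul, Real.norm_eq_abs, abs_of_nonneg ht.1]
        exact mul_le_of_le_one_left (norm_nonneg _) ht.2
      rw [h5]
      refine (norm_add_le _ _).trans_lt ?_
      simp only [Function.comp] at h6
      linarith
  have h5 := h4.dv isPreconnected_Icc (g := fun t : ℝ => t * q.1) (by fun_prop)
    (z₀ := 0) (z := 1) (by simp) (by
      simp only [zero_mul, h0, one_smul, line_zero, mul_one]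
      rw [T.foldG_of_mem (T.Int_subset_Δ hq)]; exact dv_zero hq) (by simp)
  simpa using h5

theorem isOpen_lt_dst (T : Tri) {c : ℝ} (hc : 0 ≤ c) :
    IsOpen {q : ℝ × Phase | c < T.dst q.2 q.1} := by
  rw [isOpen_iff_mem_nhds]
  rintro ⟨τ, y⟩ h
  obtain ⟨A, hA⟩ := dst_pos_iff.1 (hc.trans_lt h)
  have h1 : Continuous fun q : ℝ × Phase => ‖line q.2 q.1 - line y τ‖ :=
    (continuous_line.sub continuous_const).norm
  have h' : c < T.dst y τ := h
  filter_upwards [hA.eventually, h1.continuousAt.eventually (gt_mem_nhds (a := T.dst y τ - c)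
    (by simpa using h'))] with q hq hq'
  have h2 := T.norm_foldG_sub_le hA.mem_D0.1 (A • line q.2 q.1)
  have h3 := (abs_le.1 (T.abs_d_sub_le (T.foldG (A • line q.2 q.1) • A • line q.2 q.1)
    (A • line y τ))).1
  rw [Iso.norm_smul_sub] at h2
  change c < T.dst q.2 q.1
  rw [hq.dst_eq, mul_smul]
  rw [hA.dst_eq] at hq'
  linarith
theorem isOpen_rch (T : Tri) (A : Iso) : IsOpen {q : ℝ × Phase | T.Rch q.1 q.2 A} := by
  rw [isOpen_iff_mem_nhds]
  rintro ⟨τ, y⟩ h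
  have h1 : Continuous fun q : ℝ × Phase => A • line q.2 q.1 :=
    A.continuous_smul_pt.comp continuous_line
  filter_upwards [h.1.eventually, h1.continuousAt.eventually (T.isOpen_Int.mem_nhds h.2)]
    with q hq hq'
  rw [T.foldG_of_mem (T.Int_subset_Δ hq'), one_mul] at hq
  exact ⟨hq, hq'⟩
theorem isOpen_att (T : Tri) (p : ℂ) : IsOpen {q : ℝ × Phase | T.Att q.2 q.1 p} := by
  rw [isOpen_iff_mem_nhds]
  rintro ⟨τ, y⟩ ⟨A, j, hA, hp, h⟩
  have h1 : Continuous fun q : ℝ × Phase => ‖line q.2 q.1 - p‖ :=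
    (continuous_line.sub continuous_const).norm
  filter_upwards [hA.eventually, h1.continuousAt.eventually (gt_mem_nhds h)] with q hq hq'
  refine ⟨_, j, hq, ?_, hq'⟩
  rw [mul_smul, hp]
  apply T.foldG_v
  rw [← hp, Iso.norm_smul_sub]
  linarith [T.r0_pos]

/-! ### Shift and reversal -/

theorem Rch.dv_of (h : T.Rch s y A) (h' : T.Dv τ (A • sh s y) B) : T.Dv (s + τ) y (B * A) := by
  obtain ⟨-, 𝒜, h', h0, rfl⟩ := h'
  have h1 := (h'.smul A⁻¹).congr_curve (c' := fun t => line y (s + t)) fun t _ => by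
    rw [line_smul, inv_smul_smul, line_sh]
  have h2 := h1.dv isPreconnected_uIcc (by fun_prop) left_mem_uIcc
    (by simpa [h0] using h.1) right_mem_uIcc
  simpa using h2
theorem Rch.neg (h : T.Rch s y A) : T.Rch (-s) (A • sh s y) A⁻¹ := by
  refine ⟨?_, by rw [line_smul, inv_smul_smul, line_sh, add_neg_cancel, line_zero]; exact h.1.1⟩
  obtain ⟨⟨-, 𝒜, h', h0, rfl⟩, hi⟩ := h
  have h1 := (h'.smul (𝒜 s)).congr_curve (c' := fun t => line (𝒜 s • sh s y) (t - s))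
    fun t _ => by rw [line_smul, line_sh, add_sub_cancel]
  have h2 := h1.dv isPreconnected_uIcc (by fun_prop) right_mem_uIcc
    (by rw [sub_self, mul_inv_cancel]; exact dv_zero hi) left_mem_uIcc
  simpa [h0] using h2
theorem Rch.dv_iff (h : T.Rch s y A) : T.Dv τ (A • sh s y) B ↔ T.Dv (s + τ) y (B * A) := by
  refine ⟨h.dv_of, fun h' => ?_⟩
  have h1 : A⁻¹ • sh (-s) (A • sh s y) = y := by
    rw [sh_smul, inv_smul_smul, sh_sh, add_neg_cancel, sh_zero]
  have h2 := h.neg.dv_of (τ := s + τ) (B := B * A) (by rw [h1]; exact h')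
  simpa using h2
theorem Rch.rch_iff (h : T.Rch s y A) : T.Rch τ (A • sh s y) B ↔ T.Rch (s + τ) y (B * A) := by
  unfold Rch
  rw [h.dv_iff, line_smul, line_sh, mul_smul]
theorem Rch.dst_flow (h : T.Rch s y A) (τ : ℝ) : T.dst (T.flow s y) τ = T.dst y (s + τ) := by
  rw [h.flow_eq]
  by_cases h' : ∃ B, T.Dv τ (A • sh s y) B
  · obtain ⟨B, hB⟩ := h'
    rw [hB.dst_eq, (h.dv_of hB).dst_eq, line_smul, line_sh, mul_smul]
  · rw [dst_eq_zero h', dst_eq_zero]
    rintro ⟨C, hC⟩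
    exact h' ⟨C * A⁻¹, h.dv_iff.2 (by simpa using hC)⟩
theorem Rch.att_flow (h : T.Rch s y A) : T.Att (T.flow s y) τ (A • p) ↔ T.Att y (s + τ) p := by
  rw [h.flow_eq]
  unfold Att
  rw [line_smul, line_sh, Iso.norm_smul_sub]
  constructor
  · rintro ⟨B, j, h1, h2, h3⟩
    exact ⟨B * A, j, h.dv_of h1, by rwa [mul_smul], h3⟩
  · rintro ⟨C, j, h1, h2, h3⟩
    exact ⟨C * A⁻¹, j, h.dv_iff.2 (by simpa using h1), by rwa [mul_smul, inv_smul_smul], h3⟩
theorem Rch.ev_flow (h : T.Rch s y A) : T.Ev R (T.flow s y) τ ↔ T.Ev R y (s + τ) := by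
  have key : ∀ p, (T.Att (T.flow s y) τ (A • p) ∧ (crd (A • p) (T.flow s y)).re + τ = 0 ∧
      |(crd (A • p) (T.flow s y)).im| < R) ↔
      (T.Att y (s + τ) p ∧ (crd p y).re + (s + τ) = 0 ∧ |(crd p y).im| < R) := fun p => by
    rw [h.att_flow, h.flow_eq, crd_smul_re, crd_smul_im, crd_sh]
    simp [add_assoc]
  constructor
  · rintro ⟨p, hp⟩
    exact ⟨A⁻¹ • p, (key _).1 (by simpa using hp)⟩
  · rintro ⟨p, hp⟩
    exact ⟨A • p, (key _).2 hp⟩
theorem Rch.good_flow (h : T.Rch s y A) : T.Good (T.flow s y) ↔ T.Good y := by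
  refine ⟨fun hg τ => ?_, fun hg τ => by rw [h.dst_flow]; exact hg _⟩
  have := hg (τ - s)
  rwa [h.dst_flow, add_sub_cancel] at this
theorem dst_sh (hy : y.1 ∈ T.Int) (hs : line y s ∈ T.Int) (τ : ℝ) :
    T.dst (sh s y) τ = T.dst y (s + τ) := by
  have h := rch_one hy hs
  rw [← h.dst_flow, h.flow_eq, one_smul]
theorem dv_of_rev (h : T.Dv τ (rev y) A) : T.Dv (-τ) y A := by
  obtain ⟨hy, 𝒜, h, h0, rfl⟩ := h
  have h1 := h.congr_curve (c' := fun t => line y (-t)) fun t _ => by rw [line_rev]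
  exact h1.dv isPreconnected_uIcc (by fun_prop) left_mem_uIcc
    (by rw [neg_zero, h0]; exact dv_zero hy) right_mem_uIcc
theorem dv_rev : T.Dv τ (rev y) A ↔ T.Dv (-τ) y A :=
  ⟨dv_of_rev, fun h => by
    have := dv_of_rev (y := rev y) (τ := -τ) (A := A) (by rwa [rev_rev])
    rwa [neg_neg] at this⟩
theorem rch_rev : T.Rch τ (rev y) A ↔ T.Rch (-τ) y A := by
  unfold Rch; rw [dv_rev, line_rev]
theorem dst_rev (T : Tri) (y : Phase) (τ : ℝ) : T.dst (rev y) τ = T.dst y (-τ) := by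
  by_cases h' : ∃ B, T.Dv (-τ) y B
  · obtain ⟨B, hB⟩ := h'
    rw [hB.dst_eq, (dv_rev.2 hB).dst_eq, line_rev]
  · rw [dst_eq_zero h', dst_eq_zero (by simpa only [dv_rev] using h')]
theorem flow_rev (T : Tri) (y : Phase) (τ : ℝ) : T.flow τ (rev y) = rev (T.flow (-τ) y) := by
  by_cases h' : ∃ B, T.Rch (-τ) y B
  · obtain ⟨B, hB⟩ := h'
    rw [hB.flow_eq, (rch_rev.2 hB).flow_eq, sh_rev, smul_rev]
  · rw [flow_of_not h', flow_of_not (by simpa only [rch_rev] using h')]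
theorem att_rev : T.Att (rev y) τ p ↔ T.Att y (-τ) p := by
  unfold Att; simp only [dv_rev, line_rev]
theorem ev_rev : T.Ev R (rev y) τ ↔ T.Ev R y (-τ) := by
  unfold Ev
  refine exists_congr fun p => ?_
  rw [att_rev, crd_rev, Complex.neg_re, Complex.neg_im, abs_neg]
  refine and_congr_right fun _ => and_congr_left fun _ => ?_
  constructor <;> intro h <;> linarith
theorem good_rev : T.Good (rev y) ↔ T.Good y := by
  refine ⟨fun hg τ => ?_, fun hg τ => by rw [dst_rev]; exact hg _⟩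
  have := hg (-τ)
  rwa [dst_rev, neg_neg] at this

/-! ### Attached vertices and events -/

theorem att_zero {j : Fin 3} (hy : y.1 ∈ T.Int) (h : ‖y.1 - T.v j‖ < 4 * T.r0) :
    T.Att y 0 (T.v j) := ⟨1, j, dv_zero hy, one_smul _ _, by simpa using h⟩
theorem Att.norm_lt (h : T.Att y τ p) : ‖line y τ - p‖ < 4 * T.r0 := by
  obtain ⟨A, j, -, -, h⟩ := h; exact h
theorem Att.dst_eq (h : T.Att y τ p) : T.dst y τ = ‖line y τ - p‖ := by
  obtain ⟨A, j, hA, hp, h⟩ := h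
  rw [← A.norm_smul_sub, hp] at h ⊢
  rw [hA.dst_eq, T.d_eq (by linarith [T.r0_pos])]
theorem Att.dst_pos (h : T.Att y τ p) : 0 < T.dst y τ := by
  obtain ⟨A, j, hA, -⟩ := h; exact hA.dst_pos
theorem Att.mem_V (h : T.Att y τ p) : p ∈ T.V := by
  obtain ⟨A, j, hA, hp, -⟩ := h; exact ⟨A, hA.mem_Γ, j, hp⟩
theorem Att.unique {p' : ℂ} (h : T.Att y τ p) (h' : T.Att y τ p') : p = p' := by
  obtain ⟨A, j, hA, hp, h⟩ := h
  obtain ⟨B, k, hB, hp', h'⟩ := h'
  have hr := T.r0_pos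
  have h1 := (hB.unique hA).smul_v hp' (by linarith)
  have h2 : j = k := by
    by_contra hjk
    have h3 := T.v_sep hjk
    rw [← hp, ← h1, Iso.norm_smul_sub] at h3
    have h4 := norm_sub_le_norm_sub_add_norm_sub p (line y τ) p'
    rw [norm_sub_rev p (line y τ)] at h4
    linarith
  subst h2
  exact smul_left_cancel A (hp.trans h1.symm)
/-- every development at time `τ` sends the attached vertex to a vertex -/
theorem Att.smul_eq (h : T.Att y τ p) (hA : T.Dv τ y A) : ∃ j, A • p = T.v j := by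
  obtain ⟨B, j, hB, hp, h⟩ := h
  exact ⟨j, (hB.unique hA).smul_v hp (by linarith [T.r0_pos])⟩
theorem att_of_dst (h0 : 0 < T.dst y τ) (h : T.dst y τ < 4 * T.r0) : ∃ p, T.Att y τ p := by
  obtain ⟨A, hA⟩ := dst_pos_iff.1 h0
  obtain ⟨j, hj⟩ := T.exists_d (A • line y τ)
  refine ⟨A⁻¹ • T.v j, A, j, hA, smul_inv_smul _ _, ?_⟩
  rwa [← A.norm_smul_sub, smul_inv_smul, ← hj, ← hA.dst_eq]
theorem Dv.prop {j : Fin 3} (hA : T.Dv τ y A) (hp : A • p = T.v j)
    (hτ : ‖line y τ - p‖ < 10 * T.r0) (hB : T.Dv s y B) (hs : ‖line y s - p‖ < 10 * T.r0) :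
    B • p = T.v j := by
  have h1 : ∀ t ∈ uIcc τ s, ∃ C, T.Dv t y C := fun t ht => by
    rcases uIcc_subset_uIcc_union_uIcc (b := 0) ht with h | h
    · exact hA.mono (by rwa [uIcc_comm])
    · exact hB.mono h
  choose! 𝒜 h𝒜 using h1
  have h2 := dev_of_dv (g := fun t => t) continuousOn_id h𝒜
  have h3 := h2.induct isPreconnected_uIcc (fun C => C • p = T.v j) (fun t ht C D h hC =>
    h.smul_v hC (mem_ball_iff_norm.1 (line_mem_of_convex (convex_ball p _)
      (mem_ball_iff_norm.2 hτ) (mem_ball_iff_norm.2 hs) ht))) left_mem_uIcc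
    ((hA.unique (h𝒜 τ left_mem_uIcc)).smul_v hp hτ) right_mem_uIcc
  exact ((h𝒜 s right_mem_uIcc).unique hB).smul_v h3 hs
theorem Att.prop (h : T.Att y τ p) (h0 : 0 < T.dst y s) (hs : ‖line y s - p‖ < 4 * T.r0) :
    T.Att y s p := by
  obtain ⟨A, j, hA, hp, h⟩ := h
  obtain ⟨B, hB⟩ := dst_pos_iff.1 h0
  have hr := T.r0_pos
  exact ⟨B, j, hB, hA.prop hp (by linarith) hB (by linarith), hs⟩
/-- the vertex attached at time `0` is fixed by the development as long as the orbit is close -/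
theorem Dv.smul_v {j : Fin 3} (h : T.Dv τ y A) (h0 : ‖y.1 - T.v j‖ < 4 * T.r0)
    (hτ : ‖line y τ - T.v j‖ < 4 * T.r0) : A • T.v j = T.v j := by
  have hr := T.r0_pos
  exact (dv_zero h.1).prop (one_smul _ _) (by rw [line_zero]; linarith) h (by linarith)
theorem Att.extend (h : T.Att y τ p) (hs : ‖line y s - p‖ < 4 * T.r0)
    (hne : ∀ t ∈ uIcc τ s, line y t ≠ p) : T.Att y s p := by
  have hball : ∀ t ∈ uIcc τ s, ‖line y t - p‖ < 4 * T.r0 := fun t ht =>
    mem_ball_iff_norm.1 (line_mem_of_convex (convex_ball p _)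
      (mem_ball_iff_norm.2 h.norm_lt) (mem_ball_iff_norm.2 hs) ht)
  refine (isPreconnected_uIcc (a := τ) (b := s)).induction₂
    (fun a b => T.Att y a p ↔ T.Att y b p) (fun a ha => ?_)
    (fun _ _ _ _ _ _ h h' => h.trans h') (fun _ _ _ _ h => h.symm) left_mem_uIcc right_mem_uIcc
    |>.1 h
  have hm : 0 < ‖line y a - p‖ := norm_pos_iff.2 (sub_ne_zero.2 (hne a ha))
  have h1 : ∀ᶠ b in 𝓝 a, |b - a| < ‖line y a - p‖ / 2 :=
    (continuous_id.sub continuous_const).abs.continuousAt.eventually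
      (gt_mem_nhds (by simpa using hm))
  filter_upwards [h1.filter_mono nhdsWithin_le_nhds, self_mem_nhdsWithin] with b hb hb'
  have h2 := norm_sub_le_norm_sub_add_norm_sub (line y a) (line y b) p
  rw [norm_line_sub_line, abs_sub_comm] at h2
  constructor
  · intro h3
    refine h3.prop ?_ (hball b hb')
    have := T.dst_sub_le y b a
    rw [h3.dst_eq] at this; linarith
  · intro h3
    refine h3.prop ?_ (hball a ha)
    have := T.dst_sub_le y a b
    rw [h3.dst_eq, abs_sub_comm] at this; linarith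
theorem Ev.dst_pos (h : T.Ev R y τ) : 0 < T.dst y τ := by
  obtain ⟨p, h, -⟩ := h; exact h.dst_pos
theorem norm_line_sub_of_re {p : ℂ} (h : (crd p y).re + τ = 0) :
    ‖line y τ - p‖ = |(crd p y).im| := by
  rw [norm_line_sub, ← Complex.abs_im_eq_norm.2 (by simpa using h)]; simp
theorem Ev.dst_lt (h : T.Ev R y τ) : T.dst y τ < R := by
  obtain ⟨p, h, h1, h2⟩ := h
  rwa [h.dst_eq, norm_line_sub_of_re h1]
theorem ev_of_dst_lt (hg : T.Good y) (hR : R ≤ T.r0) (h : T.dst y τ < R) :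
    ∃ s, |s - τ| ≤ T.dst y τ ∧ T.Ev R y s := by
  have hr := T.r0_pos
  obtain ⟨p, hp⟩ := att_of_dst (hg τ) (by linarith)
  have h1 := hp.dst_eq
  rw [norm_line_sub] at h1
  have h2 := Complex.abs_re_le_norm (crd p y + τ)
  have h3 := Complex.abs_im_le_norm (crd p y + τ)
  simp only [Complex.add_re, Complex.ofReal_re, Complex.add_im, Complex.ofReal_im, add_zero]
    at h2 h3
  refine ⟨-(crd p y).re, ?_, p, hp.prop (hg _) ?_, by ring, by linarith⟩
  · rw [h1, ← abs_neg]; convert h2 using 2; ring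
  · rw [norm_line_sub_of_re (by ring)]; linarith
theorem Ev.sep' (h : T.Ev R y τ) (h' : T.Ev R y s) (hne : τ ≠ s) : 4 * T.r0 - R < |s - τ| := by
  obtain ⟨p, hp, h1, h2⟩ := h
  obtain ⟨p', hp', h1', -⟩ := h'
  by_contra hlt
  have h3 := norm_sub_le_norm_sub_add_norm_sub (line y s) (line y τ) p
  rw [norm_line_sub_line, norm_line_sub_of_re h1] at h3
  have h4 := (hp.prop hp'.dst_pos (by linarith)).unique hp'
  subst h4
  exact hne (by linarith)
theorem Ev.sep (hR : R ≤ T.r0) (h : T.Ev R y τ) (h' : T.Ev R y s) (hne : τ ≠ s) :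
    3 * T.r0 < |s - τ| := by
  linarith [h.sep' h' hne]
/-- the event of a point close to a vertex -/
theorem Ev.own {j : Fin 3} (_hR : R ≤ T.r0) (h : T.Ev R y τ) (hτ : |τ| < 2 * T.r0)
    (hj : ‖y.1 - T.v j‖ < T.r0) :
    τ = -(crd (T.v j) y).re ∧ T.dst y τ = |(crd (T.v j) y).im| ∧ T.Att y τ (T.v j) := by
  obtain ⟨p, hp, h1, -⟩ := h
  have hr := T.r0_pos
  have hy : y.1 ∈ T.Int := by obtain ⟨A, k, hA, -⟩ := hp; exact hA.1
  have h3 := norm_sub_le_norm_sub_add_norm_sub (line y τ) (line y 0) (T.v j)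
  rw [norm_line_sub_line, sub_zero, line_zero] at h3
  have h4 := (att_zero (j := j) hy (by linarith)).prop hp.dst_pos (by linarith)
  have h5 := hp.unique h4
  subst h5
  exact ⟨by linarith, by rw [h4.dst_eq, norm_line_sub_of_re h1], h4⟩

/-- a line missing all developed vertices is a complete orbit -/
theorem good_of_avoid (hy : y.1 ∈ T.Int) (h : ∀ τ, line y τ ∉ T.V) : T.Good y := by
  have hr := T.r0_pos
  have key : ∀ a b, |b - a| < T.r0 → 0 < T.dst y a → 0 < T.dst y b := by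
    intro a b hab ha
    by_contra hb
    have h1 := T.dst_sub_le y b a
    obtain ⟨p, hp⟩ := att_of_dst ha (by linarith)
    have h2 := norm_sub_le_norm_sub_add_norm_sub (line y b) (line y a) p
    rw [norm_line_sub_line, ← hp.dst_eq] at h2
    exact hb (hp.extend (by linarith) fun t _ ht => h t (ht ▸ hp.mem_V)).dst_pos
  intro τ
  refine PreconnectedSpace.induction₂' (fun a b => 0 < T.dst y a → 0 < T.dst y b) (fun a => ?_)
    ⟨fun _ _ _ h h' h'' => h' (h h'')⟩ 0 τ (dv_zero hy).dst_pos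
  have h1 : ∀ᶠ b in 𝓝 a, |b - a| < T.r0 :=
    (continuous_id.sub continuous_const).abs.continuousAt.eventually
      (gt_mem_nhds (by simpa using hr))
  filter_upwards [h1] with b hb
  exact ⟨key a b hb, key b a (by rwa [abs_sub_comm])⟩

/-! ### Tubes -/

/-- Two lines starting in the triangle that stay closer to each other than the first one is to
the vertices have the same development. -/
theorem tube {y y₂ : Phase} {t₀ g₀ lam T₀ : ℝ} (hy : y.1 ∈ T.Int) (ht₀ : line y t₀ ∈ T.Int)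
    (hy₂ : y₂.1 ∈ T.Int) (hg₀ : line y₂ g₀ ∈ T.Int)
    (hw : ∀ τ ∈ uIcc 0 T₀,
      ‖line y₂ (g₀ + lam * τ) - line y (t₀ + τ)‖ < T.dst y (t₀ + τ))
    {τ : ℝ} (hτ : τ ∈ uIcc 0 T₀) :
    |T.dst y₂ (g₀ + lam * τ) - T.dst y (t₀ + τ)| ≤ ‖line y₂ (g₀ + lam * τ) - line y (t₀ + τ)‖ ∧
    ∀ p, T.Att y (t₀ + τ) p → ‖line y₂ (g₀ + lam * τ) - p‖ < 4 * T.r0 →
      T.Att y₂ (g₀ + lam * τ) p := by
  have h1 : ∀ t ∈ uIcc 0 T₀, ∃ C, T.Dv (t₀ + t) y C := fun t ht =>
    dst_pos_iff.1 ((norm_nonneg _).trans_lt (hw t ht))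
  choose! 𝒜 h𝒜 using h1
  have h2 := dev_of_dv (g := fun t => t₀ + t) (by fun_prop) h𝒜
  obtain ⟨ℬ, hℬ, h3⟩ := h2.tube isCompact_uIcc (c' := fun t => line y₂ (g₀ + lam * t))
    ((continuous_line' _).comp (by fun_prop)).continuousOn fun t ht => by
      rw [← (h𝒜 t ht).dst_eq]; exact hw t ht
  have h0 : 𝒜 0 = 1 := (rch_one hy ht₀).unique (by simpa using h𝒜 0 left_mem_uIcc)
  have h0' : ℬ 0 = 1 := by
    rw [(h3 0 left_mem_uIcc).2.1, h0]
    simpa [h0] using T.Int_subset_Δ hg₀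
  have h4 := hℬ.dv isPreconnected_uIcc (by fun_prop) left_mem_uIcc
    (by simpa [h0'] using (rch_one hy₂ hg₀).1) hτ
  have hr := T.r0_pos
  refine ⟨?_, fun p hp hp' => ?_⟩
  · rw [h4.dst_eq, (h𝒜 τ hτ).dst_eq]
    exact (T.abs_d_sub_le _ _).trans (h3 τ hτ).1
  · obtain ⟨j, hj⟩ := hp.smul_eq (h𝒜 τ hτ)
    exact ⟨_, j, h4, (h3 τ hτ).2.2 p j hj (by linarith [hp.norm_lt]) (by linarith), hp'⟩

theorem Dev.dv_smul {ℬ : ℝ → Iso} {T₀ : ℝ} (h : T.Dev (line y) (uIcc 0 T₀) ℬ)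
    (h0 : (ℬ 0 • y).1 ∈ T.Int) (hτ : τ ∈ uIcc 0 T₀) : T.Dv τ (ℬ 0 • y) (ℬ τ * (ℬ 0)⁻¹) :=
  ⟨h0, _, ((h.smul (ℬ 0)).congr_curve fun _ _ => line_smul _ _ _).mono
    (uIcc_subset_uIcc_left hτ), mul_inv_cancel _, rfl⟩

/-- A small translate, folded back into the triangle, follows the orbit. -/
theorem tube_fold {y : Phase} {w : ℂ} {T₀ : ℝ} (hi : (T.fold (tr w y)).1 ∈ T.Int)
    (hw : ∀ τ ∈ uIcc 0 T₀, ‖w‖ < T.c0 * T.dst y τ) {τ : ℝ} (hτ : τ ∈ uIcc 0 T₀) :
    |T.dst (T.fold (tr w y)) τ - T.dst y τ| ≤ ‖w‖ ∧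
    ∀ A, T.Rch τ y A → (T.fold (tr (A.lin w) (T.flow τ y))).1 ∈ T.Int →
      (∃ B, T.Rch τ (T.fold (tr w y)) B) ∧
      T.flow τ (T.fold (tr w y)) = T.fold (tr (A.lin w) (T.flow τ y)) := by
  have h1 : ∀ t ∈ uIcc 0 T₀, ∃ C, T.Dv t y C := fun t ht =>
    dst_pos_iff.1 (pos_of_mul_pos_left_aux ((norm_nonneg _).trans_lt (hw t ht)) T.c0_pos)
  choose! 𝒜 h𝒜 using h1
  have h2 := dev_of_dv (g := fun t => t) continuousOn_id h𝒜
  have h3 := h2.step (c' := line (tr w y)) (continuous_line' _).continuousOn fun t ht => by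
    rw [line_tr, add_sub_cancel_left, ← (h𝒜 t ht).dst_eq]; exact hw t ht
  have hy := (h𝒜 0 left_mem_uIcc).1
  have h0 : 𝒜 0 = 1 := (h𝒜 0 left_mem_uIcc).eq_one (by simpa using hy) (dv_zero hy)
  have h4 : (T.foldG (𝒜 0 • line (tr w y) 0) * 𝒜 0) • tr w y = T.fold (tr w y) := by
    rw [h0, one_smul, mul_one, line_zero, fold]
  have h5 := h3.dv_smul (by rw [h4]; exact hi) hτ
  have h6 : (T.foldG (𝒜 τ • line (tr w y) τ) * 𝒜 τ * (T.foldG (𝒜 0 • line (tr w y) 0) * 𝒜 0)⁻¹) •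
      sh τ (T.fold (tr w y)) = T.foldG (𝒜 τ • line (tr w y) τ) • 𝒜 τ • sh τ (tr w y) := by
    rw [← h4, sh_smul, mul_smul, inv_smul_smul, mul_smul]
  rw [h4] at h5
  refine ⟨?_, fun A hA hi' => ?_⟩
  · have h7 := congrArg Prod.fst h6
    rw [Prod.smul_fst, sh_fst] at h7
    rw [h5.dst_eq, (h𝒜 τ hτ).dst_eq, h7]
    refine (T.abs_d_sub_le _ _).trans ((T.norm_foldG_sub_le (h𝒜 τ hτ).mem_D0.1 _).trans_eq ?_)
    rw [Iso.norm_smul_sub, line_tr, add_sub_cancel_left]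
  · have h8 : 𝒜 τ = A := hA.unique (h𝒜 τ hτ)
    have h9 : tr (A.lin w) (T.flow τ y) = A • sh τ (tr w y) := by
      rw [hA.flow_eq, ← smul_tr]
      congr 1
      exact Prod.ext (line_tr w y τ).symm rfl
    have h10 : T.fold (tr (A.lin w) (T.flow τ y)) =
        T.foldG (𝒜 τ • line (tr w y) τ) • 𝒜 τ • sh τ (tr w y) := by
      rw [h9, h8]; rfl
    have h11 : T.Rch τ (T.fold (tr w y)) _ := ⟨h5, by
      rw [h10, ← h6] at hi'; exact hi'⟩
    exact ⟨⟨_, h11⟩, by rw [h11.flow_eq, h6, h10]⟩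

/-- Inside a chart the flow is the folded free motion. -/
theorem rch_fold {x : ℂ} (hx : x ∈ T.D0) (h1 : ‖y.1 - x‖ < T.c0 * T.d x)
    (h2 : ‖line y s - x‖ < T.c0 * T.d x) (hi1 : (T.fold y).1 ∈ T.Int)
    (hi2 : (T.fold (sh s y)).1 ∈ T.Int) :
    (∃ A, T.Rch s (T.fold y) A) ∧ T.flow s (T.fold y) = T.fold (sh s y) := by
  have h3 : T.Dev (fun _ : ℝ => x) (uIcc 0 s) fun _ => 1 :=
    Dev.const continuousOn_const fun _ _ => by rwa [one_smul]
  have h4 := h3.step (continuous_line' y).continuousOn fun t ht => by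
    rw [one_smul]
    exact mem_ball_iff_norm.1 (line_mem_of_convex (convex_ball x _)
      (mem_ball_iff_norm.2 (by simpa using h1)) (mem_ball_iff_norm.2 h2) ht)
  simp only [one_smul, mul_one] at h4
  have h5 := h4.dv_smul (by rw [line_zero]; exact hi1) right_mem_uIcc
  rw [line_zero] at h5
  have h6 : (T.foldG (line y s) * (T.foldG y.1)⁻¹) • sh s (T.fold y) = T.fold (sh s y) := by
    rw [fold, sh_smul, mul_smul, inv_smul_smul]; rfl
  have h7 : T.Rch s (T.fold y) _ := ⟨h5, by rw [← h6] at hi2; exact hi2⟩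
  exact ⟨⟨_, h7⟩, by rw [h7.flow_eq, h6]⟩

end Tri

end Crest.Agent.R103
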