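import Mathlib

/-! Row 103 (triangle billiards): definitions.

The plane is `ℂ`, directions are angles in `Ang = ℝ / 2π`.  Billiard orbits are described by
unfolding: a *development* of a curve `c` is a locally constant (up to the reflection in the side
on which the folded point sits) choice of elements of the reflection group folding `c` into the
triangle. -/

set_option autoImplicit false

namespace Crest.Agent.R103

open MeasureTheory Set Filter Topology
open scoped ENNReal ComplexConjugate InnerProductSpace ContDiff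

instance instFactTwoPi : Fact (0 < 2 * Real.pi) := ⟨Real.two_pi_pos⟩

/-- angles -/
abbrev Ang : Type := AddCircle (2 * Real.pi)

/-- the unit vector with angle `θ` -/
noncomputable def e (θ : Ang) : ℂ := AddCircle.toCircle θ

/-- phase points: position and direction -/
abbrev Phase : Type := ℂ × Ang

@[simp] theorem norm_e (θ : Ang) : ‖e θ‖ = 1 := Circle.norm_coe _
theorem e_add (θ θ' : Ang) : e (θ + θ') = e θ * e θ' := by
  simp [e, AddCircle.toCircle_add]
@[simp] theorem e_zero : e 0 = 1 := by simp [e]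
theorem e_neg (θ : Ang) : e (-θ) = conj (e θ) := by
  simp only [e, AddCircle.toCircle_neg, Circle.coe_inv_eq_conj]
theorem e_sub (θ θ' : Ang) : e (θ - θ') = e θ * conj (e θ') := by
  rw [sub_eq_add_neg, e_add, e_neg]
theorem e_mul_conj (θ : Ang) : e θ * conj (e θ) = 1 := by rw [← e_sub, sub_self, e_zero]
theorem conj_mul_e (θ : Ang) : conj (e θ) * e θ = 1 := by rw [mul_comm, e_mul_conj]
theorem e_coe (t : ℝ) : e (t : Ang) = Complex.exp (t * Complex.I) := by
  have h : 2 * Real.pi / (2 * Real.pi) = 1 := div_self Real.two_pi_pos.ne'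
  simp only [e, AddCircle.toCircle_apply_mk, Circle.coe_exp, h, one_mul]
theorem e_pi : e ((Real.pi : ℝ) : Ang) = -1 := by rw [e_coe, Complex.exp_pi_mul_I]
theorem continuous_e : Continuous e :=
  continuous_subtype_val.comp AddCircle.continuous_toCircle
theorem e_injective : Function.Injective e := fun _ _ h =>
  AddCircle.injective_toCircle Real.two_pi_pos.ne' (Subtype.ext h)
theorem e_eq_fourier (θ : Ang) : e θ = fourier 1 θ := by simp [e]
theorem exists_e {u : ℂ} (hu : ‖u‖ = 1) : ∃ θ, e θ = u :=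
  ⟨((Complex.arg u : ℝ) : Ang), by
    rw [e_coe]
    have := Complex.norm_mul_exp_arg_mul_I u
    rwa [hu, Complex.ofReal_one, one_mul] at this⟩

/-! ### Isometries of the plane -/

/-- `z ↦ e β * z + b` or `z ↦ e β * conj z + b` -/
@[ext] structure Iso where
  flip : Bool
  β : Ang
  b : ℂ

namespace Iso

/-- the linear part -/
noncomputable def lin (A : Iso) (u : ℂ) : ℂ := if A.flip then e A.β * conj u else e A.β * u
/-- the action on angles -/
noncomputable def act (A : Iso) (θ : Ang) : Ang := if A.flip then A.β - θ else A.β + θ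

theorem lin_add (A : Iso) (u w : ℂ) : A.lin (u + w) = A.lin u + A.lin w := by
  unfold lin; split_ifs <;> simp [mul_add]
theorem lin_sub (A : Iso) (u w : ℂ) : A.lin (u - w) = A.lin u - A.lin w := by
  unfold lin; split_ifs <;> simp [mul_sub]
theorem lin_neg (A : Iso) (u : ℂ) : A.lin (-u) = - A.lin u := by
  unfold lin; split_ifs <;> simp
@[simp] theorem lin_zero (A : Iso) : A.lin 0 = 0 := by
  unfold lin; split_ifs <;> simp
theorem lin_smul (A : Iso) (t : ℝ) (u : ℂ) : A.lin (t • u) = t • A.lin u := by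
  unfold lin; split_ifs <;> simp <;> ring
@[simp] theorem norm_lin (A : Iso) (u : ℂ) : ‖A.lin u‖ = ‖u‖ := by
  unfold lin; split_ifs <;> simp
theorem e_act (A : Iso) (θ : Ang) : e (A.act θ) = A.lin (e θ) := by
  unfold lin act; split_ifs
  · rw [e_sub]
  · rw [e_add]

theorem inner_lin (A : Iso) (u w : ℂ) : ⟪A.lin u, A.lin w⟫_ℝ = ⟪u, w⟫_ℝ := by
  have h1 := norm_add_sq_real (A.lin u) (A.lin w)
  have h2 := norm_add_sq_real u w
  rw [← lin_add, norm_lin, norm_lin, norm_lin] at h1
  linarith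
theorem continuous_lin (A : Iso) : Continuous A.lin := by
  unfold lin; split_ifs <;> fun_prop
theorem continuous_act (A : Iso) : Continuous A.act := by
  unfold act; split_ifs <;> fun_prop

noncomputable instance : Mul Iso := ⟨fun A B => ⟨xor A.flip B.flip, A.act B.β, A.lin B.b + A.b⟩⟩
noncomputable instance : One Iso := ⟨⟨false, 0, 0⟩⟩
noncomputable instance : Inv Iso := ⟨fun A => ⟨A.flip, if A.flip then A.β else -A.β,
    if A.flip then -(e A.β * conj A.b) else -(conj (e A.β) * A.b)⟩⟩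

theorem mul_flip (A B : Iso) : (A * B).flip = xor A.flip B.flip := rfl
theorem mul_β (A B : Iso) : (A * B).β = A.act B.β := rfl
theorem mul_b (A B : Iso) : (A * B).b = A.lin B.b + A.b := rfl
theorem one_flip : (1 : Iso).flip = false := rfl
theorem one_β : (1 : Iso).β = 0 := rfl
theorem one_b : (1 : Iso).b = 0 := rfl
theorem inv_flip (A : Iso) : (A⁻¹).flip = A.flip := rfl
theorem inv_β (A : Iso) : (A⁻¹).β = if A.flip then A.β else -A.β := rfl
theorem inv_b (A : Iso) :
    (A⁻¹).b = if A.flip then -(e A.β * conj A.b) else -(conj (e A.β) * A.b) := rfl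

theorem lin_mul (A B : Iso) (u : ℂ) : (A * B).lin u = A.lin (B.lin u) := by
  obtain ⟨f1, β1, b1⟩ := A
  obtain ⟨f2, β2, b2⟩ := B
  cases f1 <;> cases f2 <;> simp [lin, mul_flip, mul_β, act, e_add, e_sub, mul_assoc]
theorem act_mul (A B : Iso) (θ : Ang) : (A * B).act θ = A.act (B.act θ) := by
  obtain ⟨f1, β1, b1⟩ := A
  obtain ⟨f2, β2, b2⟩ := B
  cases f1 <;> cases f2 <;> simp [mul_flip, mul_β, act] <;> abel
@[simp] theorem lin_one (u : ℂ) : (1 : Iso).lin u = u := by simp [lin, one_flip, one_β]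
@[simp] theorem act_one (θ : Ang) : (1 : Iso).act θ = θ := by simp [act, one_flip, one_β]

noncomputable instance : Group Iso := Group.ofLeftAxioms
  (fun A B C => by
    ext1
    · simp [mul_flip]
    · rw [mul_β, mul_β, mul_β, act_mul]
    · rw [mul_b, mul_b, mul_b, mul_b, lin_mul, lin_add, add_assoc])
  (fun A => by
    ext1
    · simp [mul_flip, one_flip]
    · rw [mul_β, act_one]
    · rw [mul_b, lin_one, one_b, add_zero])
  (fun A => by
    obtain ⟨f1, β1, b1⟩ := A
    ext1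
    · simp [mul_flip, inv_flip, one_flip]
    · cases f1 <;> simp [mul_β, act, inv_flip, inv_β, one_β]
    · cases f1 <;> simp [mul_b, lin, inv_flip, inv_β, inv_b, one_b, e_neg])

noncomputable instance : MulAction Iso ℂ where
  smul A z := A.lin z + A.b
  one_smul z := by
    change (1 : Iso).lin z + (1 : Iso).b = z
    rw [lin_one, one_b, add_zero]
  mul_smul A B z := by
    change (A * B).lin z + (A * B).b = A.lin (B.lin z + B.b) + A.b
    rw [lin_mul, mul_b, lin_add, add_assoc]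

noncomputable instance : MulAction Iso Ang where
  smul A θ := A.act θ
  one_smul θ := act_one θ
  mul_smul A B θ := act_mul A B θ

theorem smul_def (A : Iso) (z : ℂ) : A • z = A.lin z + A.b := rfl
theorem smul_ang (A : Iso) (θ : Ang) : A • θ = A.act θ := rfl
theorem e_smul (A : Iso) (θ : Ang) : e (A • θ) = A.lin (e θ) := e_act A θ
theorem smul_add' (A : Iso) (z u : ℂ) : A • (z + u) = A • z + A.lin u := by
  rw [smul_def, smul_def, lin_add]; ring
theorem smul_sub_smul (A : Iso) (z w : ℂ) : A • z - A • w = A.lin (z - w) := by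
  rw [smul_def, smul_def, lin_sub]; ring
theorem norm_smul_sub (A : Iso) (z w : ℂ) : ‖A • z - A • w‖ = ‖z - w‖ := by
  rw [smul_sub_smul, norm_lin]
theorem lin_inv_lin (A : Iso) (u : ℂ) : A⁻¹.lin (A.lin u) = u := by
  rw [← lin_mul, inv_mul_cancel, lin_one]
theorem lin_lin_inv (A : Iso) (u : ℂ) : A.lin (A⁻¹.lin u) = u := by
  rw [← lin_mul, mul_inv_cancel, lin_one]
theorem continuous_smul_pt (A : Iso) : Continuous fun z : ℂ => A • z :=
  A.continuous_lin.add continuous_const
theorem continuous_smul_ang (A : Iso) : Continuous fun θ : Ang => A • θ := A.continuous_act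
theorem continuous_smul_phase (A : Iso) : Continuous fun y : Phase => A • y :=
  (A.continuous_smul_pt.comp continuous_fst).prodMk (A.continuous_smul_ang.comp continuous_snd)

end Iso

/-! ### Lines -/

/-- the straight line through a phase point -/
noncomputable def line (y : Phase) (τ : ℝ) : ℂ := y.1 + τ • e y.2
/-- free motion -/
noncomputable def sh (τ : ℝ) (y : Phase) : Phase := (line y τ, y.2)
/-- translation of the position -/
noncomputable def tr (w : ℂ) (y : Phase) : Phase := (y.1 + w, y.2)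
/-- reversal of the direction -/
noncomputable def rev (y : Phase) : Phase := (y.1, y.2 + ((Real.pi : ℝ) : Ang))
/-- coordinates of the position relative to the point `p` in the frame of the direction:
real part = signed time since the foot of the perpendicular from `p`, imaginary part = signed
distance of the line from `p` -/
noncomputable def crd (p : ℂ) (y : Phase) : ℂ := (y.1 - p) * conj (e y.2)

/-! ### Triangles -/

/-- a triangle: vertices, angles of the inner unit normals (side `j` is opposite to `v j`),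
heights -/
structure Tri where
  v : Fin 3 → ℂ
  n : Fin 3 → Ang
  h : Fin 3 → ℝ
  h_pos : ∀ j, 0 < h j
  ell_v' : ∀ i j, ⟪e (n i), v j - v (i + 1)⟫_ℝ = if i = j then h i else 0
  sum_one' : ∀ z, ∑ j, ⟪e (n j), z - v (j + 1)⟫_ℝ / h j = 1
  bary' : ∀ z, ∑ j, (⟪e (n j), z - v (j + 1)⟫_ℝ / h j) • v j = z

namespace Tri

variable (T : Tri)

/-- inner unit normal of side `j` -/
noncomputable def ν (j : Fin 3) : ℂ := e (T.n j)
/-- signed distance from the line of side `j` (positive inside) -/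
noncomputable def ell (j : Fin 3) (z : ℂ) : ℝ := ⟪T.ν j, z - T.v (j + 1)⟫_ℝ
/-- reflection in side `j` -/
noncomputable def σ (j : Fin 3) : Iso :=
  ⟨true, T.n j + T.n j + ((Real.pi : ℝ) : Ang), (2 * ⟪T.ν j, T.v (j + 1)⟫_ℝ) • T.ν j⟩
/-- the reflection group -/
noncomputable def Γ : Subgroup Iso := Subgroup.closure (range T.σ)
/-- developed vertices -/
def V : Set ℂ := {p | ∃ A ∈ T.Γ, ∃ j, A • p = T.v j}
/-- closed triangle -/
def Δ : Set ℂ := {z | ∀ j, 0 ≤ T.ell j z}
/-- open triangle -/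
def Int : Set ℂ := {z | ∀ j, 0 < T.ell j z}
/-- distance to the nearest vertex -/
noncomputable def d (z : ℂ) : ℝ := Metric.infDist z (range T.v)
/-- closed triangle without the vertices -/
def D0 : Set ℂ := {z | z ∈ T.Δ ∧ 0 < T.d z}
/-- a small length: a tenth of the smallest height -/
noncomputable def r0 : ℝ := min (T.h 0) (min (T.h 1) (T.h 2)) / 10
/-- the perimeter -/
noncomputable def per : ℝ := ‖T.v 0 - T.v 1‖ + ‖T.v 1 - T.v 2‖ + ‖T.v 2 - T.v 0‖
/-- relative size of the charts -/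
noncomputable def c0 : ℝ := T.r0 / T.per
/-- the angles of the triangle are not all rational -/
def Irr : Prop := ∃ i j, addOrderOf ((T.σ i).β - (T.σ j).β) = 0
/-- the (unnormalised) Liouville measure -/
noncomputable def μ : Measure Phase := (volume.restrict T.Int).prod volume

/-! ### Developments -/

/-- two foldings at the point `a` agree up to the reflection in a side through the folded point -/
def Eqv (a : ℂ) (A B : Iso) : Prop := B = A ∨ ∃ j, T.ell j (A • a) = 0 ∧ B = T.σ j * A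

/-- `𝒜` develops the curve `c` over the parameter set `s` -/
structure Dev {Z : Type} [TopologicalSpace Z] (c : Z → ℂ) (s : Set Z) (𝒜 : Z → Iso) : Prop where
  cont : ContinuousOn c s
  mem : ∀ z ∈ s, 𝒜 z • c z ∈ T.D0
  loc : ∀ z ∈ s, ∀ᶠ z' in 𝓝[s] z, T.Eqv (c z) (𝒜 z) (𝒜 z')

/-- the orbit of the interior point `y` exists up to time `τ`, and `A` folds the line into the
triangle at time `τ` -/
def Dv (τ : ℝ) (y : Phase) (A : Iso) : Prop :=
  y.1 ∈ T.Int ∧ ∃ 𝒜 : ℝ → Iso, T.Dev (line y) (uIcc 0 τ) 𝒜 ∧ 𝒜 0 = 1 ∧ 𝒜 τ = A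

/-- as `Dv`, and the orbit is in the interior at time `τ` -/
def Rch (τ : ℝ) (y : Phase) (A : Iso) : Prop := T.Dv τ y A ∧ A • line y τ ∈ T.Int

open Classical in
/-- the billiard flow (junk value `y` where it is undefined or on the boundary) -/
noncomputable def flow (τ : ℝ) (y : Phase) : Phase :=
  if h : ∃ A, T.Rch τ y A then h.choose • sh τ y else y

open Classical in
/-- distance from the vertices of the orbit of `y` at time `τ` (zero if undefined) -/
noncomputable def dst (y : Phase) (τ : ℝ) : ℝ :=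
  if h : ∃ A, T.Dv τ y A then T.d (h.choose • line y τ) else 0

/-- the orbit exists for all times -/
def Good (y : Phase) : Prop := ∀ τ, 0 < T.dst y τ

/-- the developed vertex `p` is the one close to the orbit at time `τ` -/
def Att (y : Phase) (τ : ℝ) (p : ℂ) : Prop :=
  ∃ A j, T.Dv τ y A ∧ A • p = T.v j ∧ ‖line y τ - p‖ < 4 * T.r0

/-- at time `τ` the orbit has its closest approach, at distance `< R`, to a vertex -/
def Ev (R : ℝ) (y : Phase) (τ : ℝ) : Prop :=
  ∃ p, T.Att y τ p ∧ (crd p y).re + τ = 0 ∧ |(crd p y).im| < R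

/-- time `0` lies between two events less than `L` apart -/
def Short (R L : ℝ) (y : Phase) : Prop :=
  ∃ τ₁ τ₂, T.Ev R y τ₁ ∧ T.Ev R y τ₂ ∧ τ₁ ≤ 0 ∧ 0 < τ₂ ∧ τ₂ - τ₁ < L
/-- an event in `(τ₀, τ₀ + L)` -/
def Next (R L : ℝ) (y : Phase) (τ₀ : ℝ) : Prop := ∃ τ, T.Ev R y τ ∧ τ₀ < τ ∧ τ < τ₀ + L
/-- an event in `(τ₀ - L, τ₀)` -/
def Prev (R L : ℝ) (y : Phase) (τ₀ : ℝ) : Prop := ∃ τ, T.Ev R y τ ∧ τ₀ - L < τ ∧ τ < τ₀
/-- an event near time `0`, preceded by a short gap and followed by a long one -/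
def Wp (R L : ℝ) (y : Phase) : Prop :=
  ∃ τ₀, |τ₀| < T.r0 ∧ T.Ev R y τ₀ ∧ T.Prev R L y τ₀ ∧ ¬ T.Next R L y τ₀
/-- an event near time `0` with exactly one short adjacent gap -/
def W (R L : ℝ) (y : Phase) : Prop :=
  ∃ τ₀, |τ₀| < T.r0 ∧ T.Ev R y τ₀ ∧ ¬ (T.Prev R L y τ₀ ↔ T.Next R L y τ₀)
/-- robustly long (forward) -/
def RL (ρ L : ℝ) (y : Phase) : Prop := ∀ τ ∈ Icc (2 * T.r0) (L + 4 * ρ), 11 * ρ < T.dst y τ
/-- robustly short (forward) -/
def RS (ρ L : ℝ) (y : Phase) : Prop :=
  ∃ τ ∈ Icc (2 * T.r0) (L / 2), T.dst y τ < 9 * ρ ∧ ∀ τ' ∈ Icc (2 * T.r0) τ, ρ < T.dst y τ'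

/-! ### Separatrices -/

/-- the separatrix leaving `v j` in direction `θ`, started at distance `r0` -/
noncomputable def sep (j : Fin 3) (θ : Ang) : Phase := (T.v j + T.r0 • e θ, θ)
/-- first time (measured from the vertex, truncated at `1 / s`) the separatrix comes `s`-close
to a vertex -/
noncomputable def tt (s : ℝ) (j : Fin 3) (θ : Ang) : ℝ :=
  sInf ({τ | T.r0 ≤ τ ∧ T.dst (T.sep j θ) (τ - T.r0) < s} ∪ {1 / s})
/-- directions almost parallel to a side -/
def Exc (s : ℝ) : Set Ang := {θ | ∃ i, |⟪T.ν i, e θ⟫_ℝ| ≤ s}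
/-- the orbits with a short gap, then a pass at distance `≥ a ρ`, then a very long and wide
free flight -/
def S3 (ρ L a A : ℝ) (y : Phase) : Prop :=
  ∃ τ₁ τ₀, T.Ev (10 * ρ) y τ₁ ∧ T.Ev (10 * ρ) y τ₀ ∧ τ₁ < τ₀ ∧ τ₀ < τ₁ + L ∧ |τ₀| < 14 * ρ ∧
    a * ρ ≤ T.dst y τ₀ ∧
    ∀ τ ∈ Icc (τ₀ + 3 * T.r0) (τ₀ + 3 / 2 * A * L), (31 + 10 * A) * ρ ≤ T.dst y τ

/-- `S3` seen from just after the previous vertex `v u` -/
def S5 (ρ L a A : ℝ) (u : Fin 3) (y : Phase) : Prop :=
  (crd (T.v u) y).re ∈ Icc (2 * T.r0) (2 * T.r0 + ρ) ∧ |(crd (T.v u) y).im| < 10 * ρ ∧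
    ∃ τ₀, T.r0 < τ₀ ∧ τ₀ + (crd (T.v u) y).re < L ∧ T.Ev (10 * ρ) y τ₀ ∧
      (∀ τ, 0 < τ → τ < τ₀ → ¬ T.Ev (10 * ρ) y τ) ∧ a * ρ ≤ T.dst y τ₀ ∧
      ∀ τ ∈ Icc (τ₀ + 3 * T.r0) (τ₀ + 3 / 2 * A * L), (31 + 10 * A) * ρ ≤ T.dst y τ
/-- directions of separatrices from `v u` passing the developed vertex `p` before a very long
free flight -/
def Gd (ρ a A : ℝ) (u : Fin 3) (p : ℂ) : Set Ang :=
  {θ | T.r0 ≤ ‖p - T.v u‖ ∧ T.Att (T.sep u θ) (‖p - T.v u‖ - T.r0) p ∧
    T.dst (T.sep u θ) (‖p - T.v u‖ - T.r0) < 30 * ρ ∧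
    (∀ τ ∈ Icc (‖p - T.v u‖ + T.r0) (A * ‖p - T.v u‖), 30 * ρ < T.dst (T.sep u θ) (τ - T.r0)) ∧
    A * ‖p - T.v u‖ ≤ T.tt (a * ρ / 2) u θ}

/-! ### Folding near the triangle -/

open Classical in
/-- the reflection in the first side whose inequality fails -/
noncomputable def foldG (a : ℂ) : Iso :=
  if T.ell 0 a < 0 then T.σ 0 else if T.ell 1 a < 0 then T.σ 1 else
    if T.ell 2 a < 0 then T.σ 2 else 1
/-- folding of a phase point -/
noncomputable def fold (y : Phase) : Phase := T.foldG y.1 • y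
open Classical in
/-- extension of a function on the triangle by reflection -/
noncomputable def ext {E : Type} [Zero E] (F : Phase → E) (y : Phase) : E :=
  if (T.fold y).1 ∈ T.Int then F (T.fold y) else 0
/-- cut-off vanishing on `d ≤ 2ρ`, one on `3ρ ≤ d` -/
noncomputable def zeta (ρ : ℝ) (x : ℂ) : ℝ :=
  ∏ j, Real.smoothTransition ((‖x - T.v j‖ ^ 2 / ρ ^ 2 - 4) / 5)

end Tri

/-! ### Mollification and Fourier modes -/

/-- normalising constant of the kernel -/
noncomputable def kc : ℝ := ∫ z : ℂ, expNegInvGlue (1 - ‖z‖ ^ 2)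
/-- radial mollifier of radius `ε` -/
noncomputable def ker (ε : ℝ) (z : ℂ) : ℝ := (ε ^ 2 * kc)⁻¹ * expNegInvGlue (1 - ‖z‖ ^ 2 / ε ^ 2)

/-- a smooth radial probability kernel supported in the ball of radius `ε` -/
structure IsKer (κ : ℂ → ℝ) (ε : ℝ) : Prop where
  pos : 0 < ε
  smooth : ContDiff ℝ ∞ κ
  nonneg : ∀ z, 0 ≤ κ z
  supp : ∀ z, ε ≤ ‖z‖ → κ z = 0
  radial : ∀ z z', ‖z‖ = ‖z'‖ → κ z = κ z'
  integral_one : ∫ z, κ z = 1

section
variable {E : Type} [NormedAddCommGroup E] [InnerProductSpace ℂ E]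

/-- mollification in the position -/
noncomputable def sm (κ : ℂ → ℝ) (F : Phase → E) (y : Phase) : E :=
  ∫ z, ((κ (y.1 - z) : ℝ) : ℂ) • F (z, y.2)
/-- derivative of the mollification in direction `u` -/
noncomputable def smD (κ : ℂ → ℝ) (F : Phase → E) (u : ℂ) (y : Phase) : E :=
  ∫ z, ((fderiv ℝ κ (y.1 - z) u : ℝ) : ℂ) • F (z, y.2)
/-- squared gradient of the mollification -/
noncomputable def gsq (κ : ℂ → ℝ) (F : Phase → E) (y : Phase) : ℝ :=
  ‖smD κ F 1 y‖ ^ 2 + ‖smD κ F Complex.I y‖ ^ 2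
/-- defect in the transport equation -/
noncomputable def sig (κ : ℂ → ℝ) (F H : Phase → E) (y : Phase) : E :=
  smD κ F (e y.2) y - sm κ H y
/-- Fourier mode (not normalised) -/
noncomputable def md (m : ℤ) (g : Ang → E) : E := ∫ θ, (fourier (-m) θ : ℂ) • g θ
/-- squared gradient of the `m`-th mode of the mollification -/
noncomputable def msq (κ : ℂ → ℝ) (F : Phase → E) (m : ℤ) (x : ℂ) : ℝ :=
  ‖md m fun θ => smD κ F 1 (x, θ)‖ ^ 2 + ‖md m fun θ => smD κ F Complex.I (x, θ)‖ ^ 2

end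

/-- A bounded Hilbert-valued function transformed by the flow through isometries, with bounded
second differences. -/
structure Sys {Ω : Type} [MeasurableSpace Ω] (μ : Measure Ω) (φ : ℝ → Ω → Ω)
    (E : Type) [NormedAddCommGroup E] [InnerProductSpace ℂ E] where
  f : Ω → E
  h : Ω → E
  fs : ℝ → Ω → E
  M : ℝ
  f_meas : StronglyMeasurable f
  h_meas : StronglyMeasurable h
  f_bdd : ∀ y, ‖f y‖ ≤ M
  h_bdd : ∀ y, ‖h y‖ ≤ M
  flow_ae : ∀ τ, ∀ᵐ y ∂μ, f (φ τ y) = fs τ y
  inner_fs : ∀ τ a b, ⟪fs τ a, fs τ b⟫_ℂ = ⟪f a, f b⟫_ℂ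
  taylor : ∀ τ y, ‖fs τ y - f y - (τ : ℂ) • h y‖ ≤ M * τ ^ 2

/-- the cut and extended function `ext (χ g)`, `χ = 1 - 1_Short` -/
noncomputable def Tri.cut (T : Tri) {E : Type} [Zero E] (ρ L : ℝ) (g : Phase → E) : Phase → E :=
  T.ext (Set.indicator {y | ¬ T.Short (10 * ρ) L y} g)

end Crest.Agent.R103
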