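import Crest.Agent.R103.Basic

/-! Row 103: developments of curves. -/

set_option autoImplicit false

namespace Crest.Agent.R103

open MeasureTheory Set Filter Topology
open scoped ENNReal ComplexConjugate InnerProductSpace ContDiff

namespace Tri

variable {T : Tri} {a a' p : ℂ} {A B C : Iso}

theorem Eqv.refl (T : Tri) (a : ℂ) (A : Iso) : T.Eqv a A A := Or.inl rfl

theorem Eqv.smul_eq (h : T.Eqv a A B) : B • a = A • a := by
  rcases h with rfl | ⟨j, hj, rfl⟩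
  · rfl
  · rw [mul_smul, T.σ_fix hj]

theorem σ_σ (T : Tri) (j : Fin 3) (A : Iso) : T.σ j * (T.σ j * A) = A := by
  rw [← mul_assoc, σ_mul_self, one_mul]

theorem Eqv.symm (h : T.Eqv a A B) : T.Eqv a B A := by
  have h' := h.smul_eq
  rcases h with rfl | ⟨j, hj, rfl⟩
  · exact Or.inl rfl
  · exact Or.inr ⟨j, by rw [h', hj], (T.σ_σ j A).symm⟩

theorem Eqv.trans (hA : A • a ∈ T.D0) (h1 : T.Eqv a A B) (h2 : T.Eqv a B C) : T.Eqv a A C := by
  have h' := h1.smul_eq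
  rcases h1 with rfl | ⟨j, hj, rfl⟩
  · exact h2
  · rcases h2 with rfl | ⟨k, hk, rfl⟩
    · exact Or.inr ⟨j, hj, rfl⟩
    · rw [h'] at hk
      rw [T.side_unique hA hk hj]
      exact Or.inl (T.σ_σ j A)

theorem Eqv.eq_of_int (h : T.Eqv a A B) (hA : A • a ∈ T.Int) : B = A := by
  rcases h with rfl | ⟨j, hj, rfl⟩
  · rfl
  · exact absurd hj (hA j).ne'

theorem Eqv.move (h : T.Eqv a A B) (hA : A • a' ∈ T.Δ) (hB : B • a' ∈ T.Δ) : T.Eqv a' A B := by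
  rcases h with rfl | ⟨j, -, rfl⟩
  · exact Or.inl rfl
  · refine Or.inr ⟨j, le_antisymm ?_ (hA j), rfl⟩
    have := hB j
    rw [mul_smul, ell_σ] at this
    linarith

theorem Eqv.mul_right (h : T.Eqv a A B) (C : Iso) : T.Eqv (C • a) (A * C⁻¹) (B * C⁻¹) := by
  rcases h with rfl | ⟨j, hj, rfl⟩
  · exact Or.inl rfl
  · exact Or.inr ⟨j, by rw [mul_smul, inv_smul_smul, hj], mul_assoc _ _ _⟩

theorem Eqv.smul_v {j : Fin 3} (h : T.Eqv a A B) (hp : A • p = T.v j) (ha : ‖a - p‖ < 10 * T.r0) :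
    B • p = T.v j := by
  rcases h with rfl | ⟨i, hi, rfl⟩
  · exact hp
  · rw [mul_smul, hp]
    apply T.σ_v
    rintro rfl
    rw [← A.norm_smul_sub, hp] at ha
    exact (T.ell_pos_of_near ha).ne' hi

section
variable {Z : Type} [TopologicalSpace Z] {c c' : Z → ℂ} {s t : Set Z} {𝒜 ℬ : Z → Iso} {z : Z}

theorem eventually_ell_pos (T : Tri) (hc : ContinuousWithinAt c s z) (B : Iso) :
    ∀ᶠ z' in 𝓝[s] z, ∀ i, 0 < T.ell i (B • c z) → 0 < T.ell i (B • c z') := by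
  rw [eventually_all]
  intro i
  by_cases h : 0 < T.ell i (B • c z)
  · have h1 : ContinuousWithinAt (fun z => T.ell i (B • c z)) s z :=
      ((T.continuous_ell i).comp B.continuous_smul_pt).continuousAt.comp_continuousWithinAt hc
    filter_upwards [h1.eventually (lt_mem_nhds h)] with z' hz' _ using hz'
  · exact Eventually.of_forall fun _ h' => absurd h' h

theorem Eqv.near (hc : ContinuousWithinAt c s z) (hA : A • c z ∈ T.D0) :
    ∀ᶠ z' in 𝓝[s] z, ∀ B C, T.Eqv (c z) A B → T.Eqv (c z') B C → T.Eqv (c z) A C := by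
  have h2 : ∀ᶠ z' in 𝓝[s] z, ∀ j i, 0 < T.ell i ((T.σ j * A) • c z) →
      0 < T.ell i ((T.σ j * A) • c z') :=
    eventually_all.2 fun j => T.eventually_ell_pos hc _
  filter_upwards [T.eventually_ell_pos hc A, h2] with z' h1 h2 B C hB hC
  refine hB.trans hA ?_
  have hpos : ∀ i, 0 < T.ell i (B • c z) → 0 < T.ell i (B • c z') := by
    rcases hB with rfl | ⟨j, -, rfl⟩
    exacts [h1, h2 j]
  rcases hC with rfl | ⟨i, hi, rfl⟩
  · exact Or.inl rfl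
  · refine Or.inr ⟨i, ?_, rfl⟩
    have h0 : 0 ≤ T.ell i (B • c z) := by rw [hB.smul_eq]; exact hA.1 i
    exact h0.eq_or_lt.elim Eq.symm fun h => absurd hi (hpos i h).ne'

theorem Dev.mono (h : T.Dev c s 𝒜) (ht : t ⊆ s) : T.Dev c t 𝒜 :=
  ⟨h.cont.mono ht, fun z hz => h.mem z (ht hz),
    fun z hz => (h.loc z (ht hz)).filter_mono (nhdsWithin_mono _ ht)⟩

theorem Dev.congr (h : T.Dev c s 𝒜) (hB : ∀ z ∈ s, T.Eqv (c z) (𝒜 z) (ℬ z)) : T.Dev c s ℬ := by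
  refine ⟨h.cont, fun z hz => by rw [(hB z hz).smul_eq]; exact h.mem z hz, fun z hz => ?_⟩
  filter_upwards [h.loc z hz, Eqv.near (h.cont z hz) (h.mem z hz), self_mem_nhdsWithin]
    with z' h1 h2 hz'
  exact (hB z hz).symm.trans (by rw [(hB z hz).smul_eq]; exact h.mem z hz)
    (h2 _ _ h1 (hB z' hz'))

theorem Dev.congr_curve (h : T.Dev c s 𝒜) (hc : ∀ z ∈ s, c' z = c z) : T.Dev c' s 𝒜 :=
  ⟨h.cont.congr hc, fun z hz => by rw [hc z hz]; exact h.mem z hz,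
    fun z hz => by rw [hc z hz]; exact h.loc z hz⟩

theorem Dev.smul (h : T.Dev c s 𝒜) (C : Iso) :
    T.Dev (fun z => C • c z) s fun z => 𝒜 z * C⁻¹ :=
  ⟨C.continuous_smul_pt.comp_continuousOn h.cont,
    fun z hz => by rw [mul_smul, inv_smul_smul]; exact h.mem z hz,
    fun z hz => (h.loc z hz).mono fun _ h' => h'.mul_right C⟩

theorem Dev.const (hc : ContinuousOn c s) (hA : ∀ z ∈ s, A • c z ∈ T.D0) :
    T.Dev c s fun _ => A :=
  ⟨hc, hA, fun _ _ => Eventually.of_forall fun _ => Or.inl rfl⟩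

theorem Dev.comp {Z' : Type} [TopologicalSpace Z'] {g : Z' → Z} {t : Set Z'} (h : T.Dev c s 𝒜)
    (hg : ContinuousOn g t) (hm : MapsTo g t s) : T.Dev (fun z => c (g z)) t fun z => 𝒜 (g z) :=
  ⟨h.cont.comp hg hm, fun _ hz => h.mem _ (hm hz),
    fun z hz => ((hg z hz).tendsto_nhdsWithin hm).eventually (h.loc _ (hm hz))⟩

theorem Dev.union (h1 : T.Dev c s 𝒜) (h2 : T.Dev c t 𝒜) (hs : IsClosed s) (ht : IsClosed t) :
    T.Dev c (s ∪ t) 𝒜 := by
  refine ⟨h1.cont.union_of_isClosed h2.cont hs ht,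
    fun z hz => hz.elim (h1.mem z) (h2.mem z), fun z _ => ?_⟩
  rw [nhdsWithin_union, eventually_sup]
  constructor
  · by_cases hz : z ∈ s
    · exact h1.loc z hz
    · rw [notMem_closure_iff_nhdsWithin_eq_bot.1 (by rwa [hs.closure_eq])]; exact eventually_bot
  · by_cases hz : z ∈ t
    · exact h2.loc z hz
    · rw [notMem_closure_iff_nhdsWithin_eq_bot.1 (by rwa [ht.closure_eq])]; exact eventually_bot

theorem Dev.unique (hs : IsPreconnected s) (h1 : T.Dev c s 𝒜) (h2 : T.Dev c s ℬ) {z₀ : Z}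
    (hz₀ : z₀ ∈ s) (h0 : T.Eqv (c z₀) (𝒜 z₀) (ℬ z₀)) (hz : z ∈ s) : T.Eqv (c z) (𝒜 z) (ℬ z) := by
  refine hs.induction₂' (fun x y => T.Eqv (c x) (𝒜 x) (ℬ x) → T.Eqv (c y) (𝒜 y) (ℬ y))
    (fun x hx => ?_) (fun _ _ _ _ _ _ h h' h'' => h' (h h'')) hz₀ hz h0
  filter_upwards [h1.loc x hx, h2.loc x hx, Eqv.near (h1.cont x hx) (h1.mem x hx),
    self_mem_nhdsWithin] with y ha hb hn hy
  have hx1 := h1.mem x hx
  refine ⟨fun h => ?_, fun h => ?_⟩
  · have h3 : T.Eqv (c x) (𝒜 y) (ℬ y) :=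
      ha.symm.trans (by rw [ha.smul_eq]; exact hx1) (h.trans hx1 hb)
    exact h3.move (h1.mem y hy).1 (h2.mem y hy).1
  · exact (hn _ _ ha h).trans hx1 hb.symm

theorem Dev.induct (hs : IsPreconnected s) (h : T.Dev c s 𝒜) (P : Iso → Prop)
    (hP : ∀ z ∈ s, ∀ A B, T.Eqv (c z) A B → P A → P B) {z₀ : Z} (hz₀ : z₀ ∈ s) (h0 : P (𝒜 z₀))
    (hz : z ∈ s) : P (𝒜 z) := by
  refine hs.induction₂' (fun x y => P (𝒜 x) → P (𝒜 y))
    (fun x hx => ?_) (fun _ _ _ _ _ _ h h' h'' => h' (h h'')) hz₀ hz h0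
  filter_upwards [h.loc x hx] with y hy
  exact ⟨hP x hx _ _ hy, hP x hx _ _ hy.symm⟩

theorem Dev.continuousOn_fold (h : T.Dev c s 𝒜) : ContinuousOn (fun z => 𝒜 z • c z) s := by
  intro z hz
  rw [ContinuousWithinAt, tendsto_iff_norm_sub_tendsto_zero]
  have h1 := tendsto_iff_norm_sub_tendsto_zero.1 (h.cont z hz)
  refine h1.congr' ?_
  filter_upwards [h.loc z hz] with z' hz'
  rw [← hz'.smul_eq, Iso.norm_smul_sub]

/-- small perturbations of a developed curve -/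
theorem Dev.step (h : T.Dev c s 𝒜) (hc : ContinuousOn c' s)
    (hw : ∀ z ∈ s, ‖c' z - c z‖ < T.c0 * T.d (𝒜 z • c z)) :
    T.Dev c' s fun z => T.foldG (𝒜 z • c' z) * 𝒜 z := by
  have hmem : ∀ z ∈ s, (T.foldG (𝒜 z • c' z) * 𝒜 z) • c' z ∈ T.D0 := fun z hz => by
    rw [mul_smul]
    exact T.foldG_mem_D0 (h.mem z hz) (by rw [Iso.norm_smul_sub]; exact hw z hz)
  refine ⟨hc, hmem, fun z hz => ?_⟩
  obtain ⟨j, hj⟩ := T.chart_side (h.mem z hz)
  have hpos := mul_pos T.c0_pos (h.mem z hz).2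
  have hfold : ∀ b, ‖b - 𝒜 z • c z‖ < T.c0 * T.d (𝒜 z • c z) →
      T.foldG b = 1 ∨ T.foldG b = T.σ j := by
    intro b hb
    rcases T.foldG_cases b with ⟨_, h1⟩ | ⟨i, hi, h1⟩
    · exact Or.inl h1
    · by_cases hij : i = j
      · exact Or.inr (hij ▸ h1)
      · exact absurd (hj i hij b (by linarith)) (not_lt.2 hi.le)
  have hev : ∀ᶠ z' in 𝓝[s] z, ‖c' z' - c z‖ < T.c0 * T.d (𝒜 z • c z) :=
    (((hc z hz).sub continuousWithinAt_const).norm).eventually (gt_mem_nhds (hw z hz))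
  filter_upwards [h.loc z hz, hev, self_mem_nhdsWithin,
    T.eventually_ell_pos (hc z hz) (T.foldG (𝒜 z • c' z) * 𝒜 z)] with z' h1 h2 hz' h3
  have h4 : T.foldG (𝒜 z' • c' z') = 1 ∨ T.foldG (𝒜 z' • c' z') = T.σ j := by
    apply hfold
    rw [← h1.smul_eq, Iso.norm_smul_sub, h1.smul_eq]; exact h2
  have h5 := hfold (𝒜 z • c' z) (by rw [Iso.norm_smul_sub]; exact hw z hz)
  have h6 : 𝒜 z' = 𝒜 z ∨ 𝒜 z' = T.σ j * 𝒜 z := by
    rcases h1 with h1 | ⟨k, hk, h1⟩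
    · exact Or.inl h1
    · by_cases hkj : k = j
      · exact Or.inr (hkj ▸ h1)
      · exact absurd hk (hj k hkj _ (by simpa using by linarith)).ne'
  have h7 : T.foldG (𝒜 z' • c' z') * 𝒜 z' = T.foldG (𝒜 z • c' z) * 𝒜 z ∨
      T.foldG (𝒜 z' • c' z') * 𝒜 z' = T.σ j * (T.foldG (𝒜 z • c' z) * 𝒜 z) := by
    rcases h4 with h4 | h4 <;> rcases h5 with h5 | h5 <;> rw [h4, h5] <;>
      rcases h6 with h6 | h6 <;> rw [h6] <;> simp [σ_σ]
  rcases h7 with h7 | h7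
  · exact Or.inl h7
  · refine Or.inr ⟨j, ?_, h7⟩
    refine ((hmem z hz).1 j).eq_or_lt.elim Eq.symm fun hlt => ?_
    have h8 := (hmem z' hz').1 j
    rw [h7, mul_smul, ell_σ] at h8
    linarith [h3 j hlt]

/-- the tube lemma for curves -/
theorem Dev.tube (hs : IsCompact s) (h : T.Dev c s 𝒜) (hc : ContinuousOn c' s)
    (hw : ∀ z ∈ s, ‖c' z - c z‖ < T.d (𝒜 z • c z)) :
    ∃ ℬ, T.Dev c' s ℬ ∧ ∀ z ∈ s, ‖ℬ z • c' z - 𝒜 z • c z‖ ≤ ‖c' z - c z‖ ∧
      (𝒜 z • c' z ∈ T.Δ → ℬ z = 𝒜 z) ∧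
      ∀ p j, 𝒜 z • p = T.v j → ‖c z - p‖ < 10 * T.r0 → ‖c' z - p‖ < 10 * T.r0 →
        ℬ z • p = T.v j := by
  have hwc : ContinuousOn (fun z => c' z - c z) s := hc.sub h.cont
  obtain ⟨m, hm, hm'⟩ := hs.exists_forall_le' (f := fun z => T.d (𝒜 z • c z) - ‖c' z - c z‖)
    ((T.continuous_d.comp_continuousOn h.continuousOn_fold).sub hwc.norm) (a := 0)
    (fun z hz => sub_pos.2 (hw z hz))
  obtain ⟨K, hK⟩ := hs.exists_bound_of_continuousOn hwc
  have hcm := mul_pos T.c0_pos hm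
  obtain ⟨n, hn⟩ := exists_nat_gt (max (K / (T.c0 * m)) 0)
  have hn0 : (0 : ℝ) < n := (le_max_right _ _).trans_lt hn
  have hnK : K / n < T.c0 * m := by
    have := (le_max_left _ _).trans_lt hn
    rw [div_lt_iff₀ hcm] at this
    rw [div_lt_iff₀ hn0]; linarith
  have key : ∀ k : ℕ, k ≤ n → ∃ ℬ, T.Dev (fun z => c z + ((k : ℝ) / n) • (c' z - c z)) s ℬ ∧
      ∀ z ∈ s, ‖ℬ z • (c z + ((k : ℝ) / n) • (c' z - c z)) - 𝒜 z • c z‖ ≤
          (k : ℝ) / n * ‖c' z - c z‖ ∧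
        (𝒜 z • c' z ∈ T.Δ → ℬ z = 𝒜 z) ∧
        ∀ p j, 𝒜 z • p = T.v j → ‖c z - p‖ < 10 * T.r0 → ‖c' z - p‖ < 10 * T.r0 →
          ℬ z • p = T.v j := by
    intro k
    induction k with
    | zero =>
      intro _
      refine ⟨𝒜, h.congr_curve fun z _ => by simp, fun z _ => ⟨by simp, fun _ => rfl,
        fun _ _ h _ _ => h⟩⟩
    | succ k ih =>
      intro hk
      obtain ⟨ℬ, hℬ, hℬ'⟩ := ih (Nat.le_of_succ_le hk)
      have hk1 : ((k + 1 : ℕ) : ℝ) / n ≤ 1 := by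
        rw [div_le_one hn0]; exact_mod_cast hk
      have hk0 : (0 : ℝ) ≤ ((k + 1 : ℕ) : ℝ) / n := by positivity
      have hk2 : (k : ℝ) / n ≤ 1 := by
        rw [div_le_one hn0]; exact_mod_cast Nat.le_of_succ_le hk
      have hdiff : ∀ z, ‖(c z + (((k + 1 : ℕ) : ℝ) / n) • (c' z - c z)) -
          (c z + ((k : ℝ) / n) • (c' z - c z))‖ = ‖c' z - c z‖ / n := by
        intro z
        have : (c z + (((k + 1 : ℕ) : ℝ) / n) • (c' z - c z)) -
          (c z + ((k : ℝ) / n) • (c' z - c z)) = (1 / (n : ℝ)) • (c' z - c z) := by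
          rw [add_sub_add_left_eq_sub, ← sub_smul]; congr 1; push_cast; ring
        rw [this, norm_smul, Real.norm_eq_abs, abs_of_pos (by positivity)]; ring
      refine ⟨_, hℬ.step (h.cont.add (hwc.const_smul (((k + 1 : ℕ) : ℝ) / n))) fun z hz => ?_,
        fun z hz => ⟨?_, fun hΔ => ?_, fun p j hp h1 h2 => ?_⟩⟩
      · rw [hdiff]
        have h1 := (abs_le.1 (T.abs_d_sub_le
          (ℬ z • (c z + ((k : ℝ) / n) • (c' z - c z))) (𝒜 z • c z))).1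
        have h2 := (hℬ' z hz).1
        have h3 := hm' z hz
        have h4 : (k : ℝ) / n * ‖c' z - c z‖ ≤ ‖c' z - c z‖ :=
          mul_le_of_le_one_left (norm_nonneg _) hk2
        have h5 : ‖c' z - c z‖ / n ≤ K / n := div_le_div_of_nonneg_right (hK z hz) hn0.le
        have h6 : T.c0 * m ≤ T.c0 * T.d (ℬ z • (c z + ((k : ℝ) / n) • (c' z - c z))) :=
          mul_le_mul_of_nonneg_left (by linarith) T.c0_pos.le
        linarith
      · rw [mul_smul]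
        have h1 := T.norm_foldG_sub_le (hℬ.mem z hz).1
          (ℬ z • (c z + (((k + 1 : ℕ) : ℝ) / n) • (c' z - c z)))
        rw [Iso.norm_smul_sub, hdiff] at h1
        have h2 := (hℬ' z hz).1
        refine (norm_sub_le_norm_sub_add_norm_sub _ _ _).trans ((add_le_add h1 h2).trans_eq ?_)
        push_cast; ring
      · rw [(hℬ' z hz).2.1 hΔ, T.foldG_of_mem, one_mul]
        have := T.convex_Δ.add_smul_sub_mem (h.mem z hz).1 hΔ ⟨hk0, hk1⟩
        rwa [Iso.smul_sub_smul, ← Iso.lin_smul, ← Iso.smul_add'] at this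
      · have h3 := (hℬ' z hz).2.2 p j hp h1 h2
        rw [mul_smul, h3]
        apply T.foldG_v
        rw [← h3, Iso.norm_smul_sub, ← mem_ball_iff_norm]
        exact (convex_ball p _).add_smul_sub_mem (mem_ball_iff_norm.2 h1)
          (mem_ball_iff_norm.2 h2) ⟨hk0, hk1⟩
  obtain ⟨ℬ, hℬ, hℬ'⟩ := key n le_rfl
  rw [div_self hn0.ne'] at hℬ hℬ'
  simp only [one_smul, add_sub_cancel, one_mul] at hℬ hℬ'
  exact ⟨ℬ, hℬ, hℬ'⟩

end

end Tri

end Crest.Agent.R103
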