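import Crest.Agent.R103.Basic

/-! Row 103: the mollifier, the cut-off, calculus of mollified functions. -/

set_option autoImplicit false
set_option linter.unusedSectionVars false

namespace Crest.Agent.R103

open MeasureTheory Set Filter Topology
open scoped ENNReal ComplexConjugate InnerProductSpace ContDiff

theorem kc_pos : 0 < kc := by
  have hc : Continuous fun z : ℂ => expNegInvGlue (1 - ‖z‖ ^ 2) :=
    (expNegInvGlue.contDiff (n := 0)).continuous.comp (by fun_prop)
  refine hc.integral_pos_of_hasCompactSupport_nonneg_nonzero (x := 0) ?_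
    (fun z => expNegInvGlue.nonneg _) (expNegInvGlue.pos_of_pos (by simp)).ne'
  refine HasCompactSupport.intro (isCompact_closedBall (0 : ℂ) 1) fun z hz => ?_
  rw [mem_closedBall_zero_iff, not_le] at hz
  exact expNegInvGlue.zero_of_nonpos (by nlinarith)

theorem contDiff_ker (ε : ℝ) : ContDiff ℝ ∞ (ker ε) :=
  contDiff_const.mul (expNegInvGlue.contDiff.comp
    (contDiff_const.sub ((contDiff_norm_sq ℝ).div_const _)))

theorem ker_eq (ε : ℝ) (z : ℂ) : ker ε z = (ε ^ 2)⁻¹ * ker 1 (ε⁻¹ • z) := by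
  simp only [ker, norm_smul, mul_pow, Real.norm_eq_abs, sq_abs, inv_pow, one_pow, one_mul, div_one,
    mul_inv, mul_assoc]
  rw [div_eq_inv_mul]

/-- derivative bound of a rescaled function -/
theorem norm_fderiv_comp_smul_sub {G : ℂ → ℝ} (hG : Differentiable ℝ G) {ρ : ℝ} (hρ : 0 < ρ)
    (v x : ℂ) : ‖fderiv ℝ (fun x => G (ρ⁻¹ • (x - v))) x‖ ≤
      ‖fderiv ℝ G (ρ⁻¹ • (x - v))‖ / ρ := by
  have h1 : HasFDerivAt (fun x : ℂ => ρ⁻¹ • (x - v)) (ρ⁻¹ • ContinuousLinearMap.id ℝ ℂ) x :=
    ((hasFDerivAt_id x).sub_const v).const_smul ρ⁻¹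
  have h2 := (hG (ρ⁻¹ • (x - v))).hasFDerivAt.comp x h1
  have h3 : fderiv ℝ (fun x => G (ρ⁻¹ • (x - v))) x = _ := h2.fderiv
  rw [h3]
  refine (ContinuousLinearMap.opNorm_comp_le _ _).trans ?_
  rw [div_eq_mul_inv]
  gcongr
  rw [norm_smul, ContinuousLinearMap.norm_id, mul_one, Real.norm_eq_abs, abs_of_pos (inv_pos.2 hρ)]

theorem isKer_ker {ε : ℝ} (hε : 0 < ε) : IsKer (ker ε) ε := by
  refine ⟨hε, contDiff_ker ε, fun z => ?_, fun z hz => ?_, fun z z' h => ?_, ?_⟩
  · exact mul_nonneg (inv_nonneg.2 (mul_nonneg (sq_nonneg _) kc_pos.le)) (expNegInvGlue.nonneg _)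
  · have : 1 ≤ ‖z‖ ^ 2 / ε ^ 2 := by
      rw [one_le_div (by positivity)]
      gcongr
    rw [ker, expNegInvGlue.zero_of_nonpos (by linarith), mul_zero]
  · simp only [ker, h]
  · have h1 : ∀ z : ℂ, ker ε z =
        (ε ^ 2 * kc)⁻¹ * (fun w : ℂ => expNegInvGlue (1 - ‖w‖ ^ 2)) (ε⁻¹ • z) := fun z => by
      simp only [ker, norm_smul, mul_pow, Real.norm_eq_abs, sq_abs, inv_pow]
      rw [div_eq_inv_mul]
    simp_rw [h1]
    rw [integral_const_mul,
      Measure.integral_comp_inv_smul volume (fun w : ℂ => expNegInvGlue (1 - ‖w‖ ^ 2)) ε,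
      Complex.finrank_real_complex, abs_of_pos (by positivity), smul_eq_mul]
    exact inv_mul_cancel₀ (mul_pos (by positivity) kc_pos).ne'
theorem ker_bound : ∃ C : ℝ, 0 < C ∧ ∀ ε : ℝ, 0 < ε → ∀ z,
    ker ε z ≤ C / ε ^ 2 ∧ ‖fderiv ℝ (ker ε) z‖ ≤ C / ε ^ 3 := by
  have h1 := isKer_ker (ε := 1) one_pos
  have hc : HasCompactSupport (ker 1) :=
    HasCompactSupport.intro (isCompact_closedBall (0 : ℂ) 1) fun z hz => h1.supp z (by
      rw [mem_closedBall_zero_iff, not_le] at hz
      exact hz.le)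
  obtain ⟨C₁, hC₁⟩ := h1.smooth.continuous.bounded_above_of_compact_support hc
  obtain ⟨C₂, hC₂⟩ := (h1.smooth.continuous_fderiv (by simp)).bounded_above_of_compact_support
    (hc.fderiv ℝ)
  have hC₁0 : 0 ≤ C₁ := (norm_nonneg _).trans (hC₁ 0)
  have hC₂0 : 0 ≤ C₂ := (norm_nonneg _).trans (hC₂ 0)
  refine ⟨C₁ + C₂ + 1, by positivity, fun ε hε z => ⟨?_, ?_⟩⟩
  · rw [ker_eq, div_eq_inv_mul]
    gcongr
    have := (le_abs_self _).trans (hC₁ (ε⁻¹ • z))
    linarith
  · have hd := h1.smooth.differentiable (by simp)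
    have e : ker ε = fun z => (ε ^ 2)⁻¹ * ker 1 (ε⁻¹ • (z - 0)) := by
      funext z
      rw [ker_eq, sub_zero]
    rw [e, fderiv_const_mul (by fun_prop), norm_smul, Real.norm_eq_abs,
      abs_of_pos (by positivity)]
    calc (ε ^ 2)⁻¹ * ‖fderiv ℝ (fun z => ker 1 (ε⁻¹ • (z - 0))) z‖
        ≤ (ε ^ 2)⁻¹ * ((C₁ + C₂ + 1) / ε) := by
          gcongr
          refine (norm_fderiv_comp_smul_sub hd hε 0 z).trans ?_
          gcongr
          linarith [hC₂ (ε⁻¹ • (z - 0))]
      _ = (C₁ + C₂ + 1) / ε ^ 3 := by field_simp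

namespace IsKer

variable {κ : ℂ → ℝ} {ε : ℝ}

theorem hasCompactSupport (h : IsKer κ ε) : HasCompactSupport κ := by
  refine HasCompactSupport.intro (isCompact_closedBall (0 : ℂ) ε) fun z hz => h.supp z ?_
  rw [mem_closedBall_zero_iff, not_le] at hz
  exact hz.le
theorem differentiable (h : IsKer κ ε) : Differentiable ℝ κ := h.smooth.differentiable (by simp)
theorem continuous (h : IsKer κ ε) : Continuous κ := h.smooth.continuous
theorem continuous_fderiv (h : IsKer κ ε) : Continuous (fderiv ℝ κ) :=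
  h.smooth.continuous_fderiv (by simp)
theorem integrable (h : IsKer κ ε) : Integrable κ :=
  h.continuous.integrable_of_hasCompactSupport h.hasCompactSupport
theorem integrable_fderiv (h : IsKer κ ε) : Integrable (fderiv ℝ κ) :=
  h.continuous_fderiv.integrable_of_hasCompactSupport (h.hasCompactSupport.fderiv ℝ)
theorem integrable_fderiv_apply (h : IsKer κ ε) (u : ℂ) : Integrable fun z => fderiv ℝ κ z u :=
  h.integrable_fderiv.apply_continuousLinearMap u
theorem fderiv_eq_zero (h : IsKer κ ε) {z : ℂ} (hz : ε ≤ ‖z‖) : fderiv ℝ κ z = 0 := by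
  apply IsLocalMin.fderiv_eq_zero
  refine Eventually.of_forall fun w => ?_
  rw [h.supp z hz]
  exact h.nonneg w
theorem integral_fderiv (h : IsKer κ ε) (u : ℂ) : ∫ z, fderiv ℝ κ z u = 0 := by
  have := integral_mul_fderiv_eq_neg_fderiv_mul_of_integrable (μ := volume) (𝕜 := ℝ)
    (f := fun _ : ℂ => (1 : ℝ)) (g := κ) (v := u) (by simp)
    (by simpa using h.integrable_fderiv_apply u) (by simpa using h.integrable)
    (fun _ _ => differentiableAt_const _) (fun z _ => h.differentiable z)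
  simpa using this
theorem fderiv_lin (h : IsKer κ ε) (A : Iso) (z u : ℂ) :
    fderiv ℝ κ (A.lin z) (A.lin u) = fderiv ℝ κ z u := by
  let L : ℂ →L[ℝ] ℂ :=
    { toFun := A.lin
      map_add' := A.lin_add
      map_smul' := A.lin_smul
      cont := A.continuous_lin }
  have e : (fun w => κ (L w)) = κ := funext fun w => h.radial _ _ (A.norm_lin w)
  have h2 := (h.differentiable (L z)).hasFDerivAt.comp z L.hasFDerivAt
  have h3 : fderiv ℝ (fun w => κ (L w)) z = _ := h2.fderiv
  rw [e] at h3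
  rw [h3]
  rfl

variable {E : Type} [NormedAddCommGroup E] [InnerProductSpace ℂ E] [CompleteSpace E]
variable {F H : Phase → E} {M : ℝ}

theorem stronglyMeasurable_sm (h : IsKer κ ε) (hF : StronglyMeasurable F) :
    StronglyMeasurable (sm κ F) := by
  apply StronglyMeasurable.integral_prod_right'
    (f := fun p : Phase × ℂ => ((κ (p.1.1 - p.2) : ℝ) : ℂ) • F (p.2, p.1.2))
  have := h.continuous
  exact (Continuous.stronglyMeasurable (by fun_prop)).smul (hF.comp_measurable (by fun_prop))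
theorem stronglyMeasurable_smD' (h : IsKer κ ε) (hF : StronglyMeasurable F) {u : Phase → ℂ}
    (hu : Continuous u) : StronglyMeasurable fun y => smD κ F (u y) y := by
  apply StronglyMeasurable.integral_prod_right'
    (f := fun p : Phase × ℂ => ((fderiv ℝ κ (p.1.1 - p.2) (u p.1) : ℝ) : ℂ) • F (p.2, p.1.2))
  have := h.continuous_fderiv
  exact (Continuous.stronglyMeasurable (by fun_prop)).smul (hF.comp_measurable (by fun_prop))
theorem stronglyMeasurable_smD (h : IsKer κ ε) (hF : StronglyMeasurable F) (u : ℂ) :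
    StronglyMeasurable (smD κ F u) := by
  exact h.stronglyMeasurable_smD' hF (u := fun _ => u) continuous_const
theorem stronglyMeasurable_sig (h : IsKer κ ε) (hF : StronglyMeasurable F)
    (hH : StronglyMeasurable H) : StronglyMeasurable (sig κ F H) := by
  exact (h.stronglyMeasurable_smD' hF (u := fun y => e y.2)
    (continuous_e.comp continuous_snd)).sub (h.stronglyMeasurable_sm hH)
theorem norm_sm_le (h : IsKer κ ε) (hM : ∀ y, ‖F y‖ ≤ M) (y : Phase) : ‖sm κ F y‖ ≤ M := by
  have h1 : ‖sm κ F y‖ ≤ ∫ z, κ (y.1 - z) * M := by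
    refine norm_integral_le_of_norm_le ((h.integrable.comp_sub_left y.1).mul_const M)
      (ae_of_all _ fun z => ?_)
    rw [norm_smul, Complex.norm_real, Real.norm_eq_abs, abs_of_nonneg (h.nonneg _)]
    exact mul_le_mul_of_nonneg_left (hM _) (h.nonneg _)
  rwa [integral_mul_const, integral_sub_left_eq_self κ volume y.1, h.integral_one, one_mul] at h1
theorem norm_smD_le (h : IsKer κ ε) (hM : ∀ y, ‖F y‖ ≤ M) (u : ℂ) (y : Phase) :
    ‖smD κ F u y‖ ≤ (∫ z, ‖fderiv ℝ κ z‖) * M * ‖u‖ := by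
  have h1 : ‖smD κ F u y‖ ≤ ∫ z, ‖fderiv ℝ κ (y.1 - z)‖ * (M * ‖u‖) := by
    refine norm_integral_le_of_norm_le
      ((h.integrable_fderiv.norm.comp_sub_left y.1).mul_const _) (ae_of_all _ fun z => ?_)
    rw [norm_smul, Complex.norm_real]
    calc ‖fderiv ℝ κ (y.1 - z) u‖ * ‖F (z, y.2)‖ ≤ (‖fderiv ℝ κ (y.1 - z)‖ * ‖u‖) * M := by
          gcongr
          · exact ContinuousLinearMap.le_opNorm _ _
          · exact hM _
      _ = _ := by ring
  rwa [integral_mul_const, integral_sub_left_eq_self (fun z => ‖fderiv ℝ κ z‖) volume y.1,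
    ← mul_assoc] at h1
omit [CompleteSpace E] in
theorem integrable_smul_of_integrable (hF : StronglyMeasurable F) (hM : ∀ y, ‖F y‖ ≤ M)
    {k : ℂ → ℝ} (hk : Integrable k) (x : ℂ) (θ : Ang) :
    Integrable fun z => ((k (x - z) : ℝ) : ℂ) • F (z, θ) := by
  have h1 := hk.comp_sub_left x
  refine Integrable.mono' (h1.norm.mul_const M) ?_ (ae_of_all _ fun z => ?_)
  · exact (Complex.continuous_ofReal.comp_aestronglyMeasurable h1.1).smul
      (hF.comp_measurable (by fun_prop)).aestronglyMeasurable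
  · rw [norm_smul, Complex.norm_real]
    exact mul_le_mul_of_nonneg_left (hM _) (norm_nonneg _)
/-- `smD` is real linear in the direction -/
theorem smD_eq (h : IsKer κ ε) (hF : StronglyMeasurable F) (hM : ∀ y, ‖F y‖ ≤ M) (u : ℂ)
    (y : Phase) :
    smD κ F u y = ((u.re : ℝ) : ℂ) • smD κ F 1 y + ((u.im : ℝ) : ℂ) • smD κ F Complex.I y := by
  have i1 := integrable_smul_of_integrable hF hM (h.integrable_fderiv_apply 1) y.1 y.2
  have i2 := integrable_smul_of_integrable hF hM (h.integrable_fderiv_apply Complex.I) y.1 y.2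
  unfold smD
  rw [← integral_smul, ← integral_smul]
  refine Eq.trans ?_ (integral_add (i1.smul ((u.re : ℝ) : ℂ)) (i2.smul ((u.im : ℝ) : ℂ)))
  congr 1
  funext z
  have hu : u = u.re • (1 : ℂ) + u.im • Complex.I := by
    apply Complex.ext <;> simp
  have : fderiv ℝ κ (y.1 - z) u =
      u.re * fderiv ℝ κ (y.1 - z) 1 + u.im * fderiv ℝ κ (y.1 - z) Complex.I := by
    conv_lhs => rw [hu]
    rw [map_add, map_smul, map_smul, smul_eq_mul, smul_eq_mul]
  rw [this]
  simp only [smul_smul, ← add_smul]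
  push_cast
  rfl
theorem hasDerivAt_sm (h : IsKer κ ε) (hF : StronglyMeasurable F) (hM : ∀ y, ‖F y‖ ≤ M)
    (x u : ℂ) (θ : Ang) (t : ℝ) :
    HasDerivAt (fun s : ℝ => sm κ F (x + s • u, θ)) (smD κ F u (x + t • u, θ)) t := by
  obtain ⟨C, hC⟩ := h.continuous_fderiv.bounded_above_of_compact_support
    (h.hasCompactSupport.fderiv ℝ)
  have hM0 : 0 ≤ M := (norm_nonneg _).trans (hM 0)
  have hC0 : 0 ≤ C := (norm_nonneg _).trans (hC 0)
  refine (hasDerivAt_integral_of_dominated_loc_of_deriv_le (μ := volume) (x₀ := t)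
    (F := fun (s : ℝ) z => ((κ (x + s • u - z) : ℝ) : ℂ) • F (z, θ))
    (F' := fun (s : ℝ) z => ((fderiv ℝ κ (x + s • u - z) u : ℝ) : ℂ) • F (z, θ))
    (bound := (Metric.closedBall (x + t • u) (ε + ‖u‖)).indicator fun _ => C * ‖u‖ * M)
    (Metric.ball_mem_nhds t one_pos)
    (Eventually.of_forall fun s => (integrable_smul_of_integrable hF hM h.integrable _ θ).1)
    (integrable_smul_of_integrable hF hM h.integrable _ θ)
    (integrable_smul_of_integrable hF hM (h.integrable_fderiv_apply u) _ θ).1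
    (ae_of_all _ fun z s hs => ?_) ?_ (ae_of_all _ fun z s _ => ?_)).2
  · by_cases hz : z ∈ Metric.closedBall (x + t • u) (ε + ‖u‖)
    · rw [indicator_of_mem hz, norm_smul, Complex.norm_real]
      gcongr
      · exact (ContinuousLinearMap.le_opNorm _ _).trans (by gcongr; exact hC _)
      · exact hM _
    · rw [indicator_of_notMem hz, h.fderiv_eq_zero]
      · simp
      · rw [Metric.mem_closedBall, dist_comm, dist_eq_norm, not_le] at hz
        rw [Metric.mem_ball, Real.dist_eq] at hs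
        have e : x + t • u - z = (x + s • u - z) - (s - t) • u := by
          rw [sub_smul]
          abel
        have h1 := norm_sub_le (x + s • u - z) ((s - t) • u)
        rw [← e, norm_smul, Real.norm_eq_abs] at h1
        nlinarith [norm_nonneg u, abs_nonneg (s - t)]
  · exact (integrable_indicator_iff measurableSet_closedBall).2
      (integrableOn_const measure_closedBall_lt_top.ne)
  · have h1 : HasDerivAt (fun s : ℝ => x + s • u - z) u s := by
      simpa using (((hasDerivAt_id s).smul_const u).const_add x).sub_const z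
    have h2 := (h.differentiable (x + s • u - z)).hasFDerivAt.comp_hasDerivAt s h1
    exact h2.ofReal_comp.smul_const _

end IsKer

section
variable {E : Type} [NormedAddCommGroup E] [InnerProductSpace ℂ E] [CompleteSpace E]

theorem gsq_bound : ∃ C : ℝ, ∀ (ε M : ℝ) (F : Phase → E), 0 < ε → (∀ y, ‖F y‖ ≤ M) → ∀ y,
    gsq (ker ε) F y ≤ C * M ^ 2 / ε ^ 2 := by
  obtain ⟨C, hC0, hC⟩ := ker_bound
  refine ⟨2 * (C * Real.pi) ^ 2, fun ε M F hε hM y => ?_⟩
  have h := isKer_ker hε
  have hM0 : 0 ≤ M := (norm_nonneg _).trans (hM 0)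
  have h1 : ∫ z, ‖fderiv ℝ (ker ε) z‖ ≤ C * Real.pi / ε := by
    calc ∫ z, ‖fderiv ℝ (ker ε) z‖
        ≤ ∫ z, (Metric.closedBall (0 : ℂ) ε).indicator (fun _ => C / ε ^ 3) z := by
          refine integral_mono h.integrable_fderiv.norm
            ((integrable_indicator_iff measurableSet_closedBall).2
              (integrableOn_const measure_closedBall_lt_top.ne)) fun z => ?_
          by_cases hz : z ∈ Metric.closedBall (0 : ℂ) ε
          · rw [indicator_of_mem hz]
            exact (hC ε hε z).2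
          · rw [indicator_of_notMem hz]
            rw [mem_closedBall_zero_iff, not_le] at hz
            simp [h.fderiv_eq_zero hz.le]
      _ = C * Real.pi / ε := by
          rw [integral_indicator measurableSet_closedBall, setIntegral_const, Measure.real,
            Complex.volume_closedBall]
          simp only [ENNReal.toReal_mul, ENNReal.toReal_pow, ENNReal.toReal_ofReal hε.le,
            ENNReal.coe_toReal, NNReal.coe_real_pi, smul_eq_mul]
          field_simp
  have h2 : ∀ u : ℂ, ‖u‖ = 1 → ‖smD (ker ε) F u y‖ ^ 2 ≤ (C * Real.pi / ε * M) ^ 2 := by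
    intro u hu
    have h3 := h.norm_smD_le hM u y
    rw [hu, mul_one] at h3
    gcongr
    exact h3.trans (by gcongr)
  calc gsq (ker ε) F y ≤ (C * Real.pi / ε * M) ^ 2 + (C * Real.pi / ε * M) ^ 2 :=
        add_le_add (h2 1 norm_one) (h2 _ Complex.norm_I)
    _ = _ := by field_simp; ring

/-- translation as a continuous map -/
noncomputable def trC (w : ℂ) : C(Phase, Phase) := ⟨tr w, by unfold tr; fun_prop⟩

theorem continuous_trC : Continuous trC :=
  ContinuousMap.continuous_of_continuous_uncurry _ (by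
    change Continuous fun p : ℂ × Phase => tr p.1 p.2
    unfold tr
    fun_prop)

/-- continuity of translations in `L²` -/
theorem transl_tendsto {g : Phase → E} {M r : ℝ} (hg : StronglyMeasurable g)
    (hM : ∀ y, ‖g y‖ ≤ M) (hr : ∀ y, r < ‖y.1‖ → g y = 0) :
    Tendsto (fun w : ℂ => ∫⁻ y, ENNReal.ofReal (‖g (tr w y) - g y‖ ^ 2)) (𝓝 0) (𝓝 0) := by
  have hmp : ∀ w : ℂ, MeasurePreserving (trC w) (volume : Measure Phase) volume := fun w =>
    (measurePreserving_add_right (volume : Measure ℂ) w).prod (MeasurePreserving.id volume)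
  have hg2 : MemLp g 2 (volume : Measure Phase) := by
    have hS : MeasurableSet (Metric.closedBall (0 : ℂ) r ×ˢ (univ : Set Ang)) :=
      measurableSet_closedBall.prod MeasurableSet.univ
    have hfin : (volume : Measure Phase) (Metric.closedBall (0 : ℂ) r ×ˢ (univ : Set Ang)) ≠ ⊤ := by
      rw [Measure.volume_eq_prod, Measure.prod_prod]
      exact ENNReal.mul_ne_top measure_closedBall_lt_top.ne (measure_ne_top _ _)
    refine (memLp_indicator_const 2 hS M (Or.inr hfin)).of_le hg.aestronglyMeasurable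
      (ae_of_all _ fun y => ?_)
    by_cases hy : y ∈ Metric.closedBall (0 : ℂ) r ×ˢ (univ : Set Ang)
    · rw [indicator_of_mem hy]
      exact (hM y).trans (le_abs_self M)
    · rw [hr y (by simpa using hy)]
      simp
  have hc : Continuous fun w : ℂ => Lp.compMeasurePreserving (trC w) (hmp w) (hg2.toLp g) :=
    continuous_const.compMeasurePreservingLp continuous_trC hmp (by simp)
  have h1 := (Lp.tendsto_Lp_iff_tendsto_eLpNorm' _ _).1 (hc.tendsto 0)
  have h2 : ∀ w : ℂ, ⇑(Lp.compMeasurePreserving (trC w) (hmp w) (hg2.toLp g)) =ᵐ[volume]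
      fun y => g (tr w y) := fun w =>
    (Lp.coeFn_compMeasurePreserving _ (hmp w)).trans
      ((hmp w).quasiMeasurePreserving.ae_eq_comp hg2.coeFn_toLp)
  have h3 : Tendsto (fun w : ℂ => eLpNorm (fun y => g (tr w y) - g y) 2 volume) (𝓝 0) (𝓝 0) := by
    refine h1.congr fun w => eLpNorm_congr_ae ?_
    filter_upwards [h2 w, h2 0] with y h4 h5
    rw [Pi.sub_apply, h4, h5]
    simp [tr]
  have h4 := ((ENNReal.continuous_pow 2).tendsto 0).comp h3
  rw [zero_pow two_ne_zero] at h4
  refine h4.congr fun w => ?_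
  have h5 := eLpNorm_nnreal_pow_eq_lintegral (μ := volume) (f := fun y => g (tr w y) - g y)
    (p := 2) two_ne_zero
  simp only [ENNReal.coe_ofNat, NNReal.coe_ofNat, ENNReal.rpow_ofNat] at h5
  rw [Function.comp_apply, h5]
  refine lintegral_congr fun y => ?_
  rw [ENNReal.ofReal_pow (norm_nonneg _), ofReal_norm]

end

namespace Tri

variable (T : Tri) {ρ : ℝ}

theorem contDiff_zeta (ρ : ℝ) : ContDiff ℝ ∞ (T.zeta ρ) := by
  refine contDiff_prod fun j _ => Real.smoothTransition.contDiff.comp ?_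
  exact ((((contDiff_norm_sq ℝ).comp (contDiff_id.sub contDiff_const)).div_const _).sub
    contDiff_const).div_const _
theorem zeta_nonneg (ρ : ℝ) (x : ℂ) : 0 ≤ T.zeta ρ x := by
  exact Finset.prod_nonneg fun j _ => Real.smoothTransition.nonneg _
theorem zeta_le_one (ρ : ℝ) (x : ℂ) : T.zeta ρ x ≤ 1 := by
  exact Finset.prod_le_one (fun j _ => Real.smoothTransition.nonneg _)
    fun j _ => Real.smoothTransition.le_one _
theorem zeta_eq_zero (hρ : 0 < ρ) {x : ℂ} (hx : T.d x ≤ 2 * ρ) : T.zeta ρ x = 0 := by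
  obtain ⟨j, hj⟩ := T.exists_d x
  refine Finset.prod_eq_zero (Finset.mem_univ j) (Real.smoothTransition.zero_of_nonpos ?_)
  have : ‖x - T.v j‖ ^ 2 / ρ ^ 2 ≤ 4 := by
    rw [div_le_iff₀ (by positivity)]
    rw [hj] at hx
    nlinarith [norm_nonneg (x - T.v j)]
  linarith
theorem zeta_eq_one (hρ : 0 < ρ) {x : ℂ} (hx : 3 * ρ ≤ T.d x) : T.zeta ρ x = 1 := by
  refine Finset.prod_eq_one fun j _ => Real.smoothTransition.one_of_one_le ?_
  have : 9 ≤ ‖x - T.v j‖ ^ 2 / ρ ^ 2 := by
    rw [le_div_iff₀ (by positivity)]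
    have := hx.trans (T.d_le x j)
    nlinarith
  linarith
theorem fderiv_zeta_eq_zero (hρ : 0 < ρ) {x : ℂ} (hx : ¬ (2 * ρ ≤ T.d x ∧ T.d x ≤ 3 * ρ)) :
    fderiv ℝ (T.zeta ρ) x = 0 := by
  rw [not_and_or, not_le, not_le] at hx
  rcases hx with hx | hx
  · apply IsLocalMin.fderiv_eq_zero
    refine Eventually.of_forall fun w => ?_
    rw [T.zeta_eq_zero hρ hx.le]
    exact T.zeta_nonneg ρ w
  · apply IsLocalMax.fderiv_eq_zero
    refine Eventually.of_forall fun w => ?_
    rw [T.zeta_eq_one hρ hx.le]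
    exact T.zeta_le_one ρ w
theorem fderiv_zeta_bound : ∃ C : ℝ, ∀ ρ : ℝ, 0 < ρ → ∀ x, ‖fderiv ℝ (T.zeta ρ) x‖ ≤ C / ρ := by
  let G : ℂ → ℝ := fun z => Real.smoothTransition ((‖z‖ ^ 2 - 4) / 5)
  have hG : ContDiff ℝ ∞ G :=
    Real.smoothTransition.contDiff.comp (((contDiff_norm_sq ℝ).sub contDiff_const).div_const _)
  have hGd : Differentiable ℝ G := hG.differentiable (by simp)
  have hGc : HasCompactSupport (fderiv ℝ G) := by
    refine HasCompactSupport.intro (isCompact_closedBall (0 : ℂ) 3) fun z hz => ?_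
    rw [mem_closedBall_zero_iff, not_le] at hz
    apply IsLocalMax.fderiv_eq_zero
    refine Eventually.of_forall fun w => ?_
    have : G z = 1 := Real.smoothTransition.one_of_one_le (by nlinarith)
    rw [this]
    exact Real.smoothTransition.le_one _
  obtain ⟨C, hC⟩ := (hG.continuous_fderiv (by simp)).bounded_above_of_compact_support hGc
  refine ⟨3 * C, fun ρ hρ x => ?_⟩
  have e : T.zeta ρ = fun x => ∏ j, G (ρ⁻¹ • (x - T.v j)) := by
    funext x
    simp only [zeta, G, norm_smul, mul_pow, Real.norm_eq_abs, sq_abs, inv_pow, div_eq_inv_mul]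
  have hd : ∀ j ∈ (Finset.univ : Finset (Fin 3)), HasFDerivAt (fun x => G (ρ⁻¹ • (x - T.v j)))
      (fderiv ℝ (fun x => G (ρ⁻¹ • (x - T.v j))) x) x := fun j _ =>
    DifferentiableAt.hasFDerivAt (by fun_prop)
  rw [e, (HasFDerivAt.finsetProd hd).fderiv]
  refine (norm_sum_le _ _).trans ?_
  have hb : ∀ j ∈ (Finset.univ : Finset (Fin 3)),
      ‖(∏ i ∈ Finset.univ.erase j, G (ρ⁻¹ • (x - T.v i))) •
        fderiv ℝ (fun x => G (ρ⁻¹ • (x - T.v j))) x‖ ≤ C / ρ := fun j _ => by
    rw [norm_smul, Real.norm_eq_abs,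
      abs_of_nonneg (Finset.prod_nonneg fun i _ => Real.smoothTransition.nonneg _)]
    refine (mul_le_of_le_one_left (norm_nonneg _) (Finset.prod_le_one
      (fun i _ => Real.smoothTransition.nonneg _) fun i _ => Real.smoothTransition.le_one _)).trans ?_
    refine (norm_fderiv_comp_smul_sub hGd hρ _ x).trans ?_
    gcongr
    exact hC _
  refine (Finset.sum_le_sum hb).trans (le_of_eq ?_)
  simp
  ring
theorem volume_d_le {s : ℝ} (hs : 0 ≤ s) :
    volume {x | T.d x ≤ s} ≤ ENNReal.ofReal (3 * Real.pi * s ^ 2) := by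
  have h1 : {x | T.d x ≤ s} ⊆ ⋃ j, Metric.closedBall (T.v j) s := fun x hx => by
    obtain ⟨j, hj⟩ := T.exists_d x
    refine mem_iUnion.2 ⟨j, ?_⟩
    rw [Metric.mem_closedBall, dist_eq_norm, ← hj]
    exact hx
  refine (measure_mono h1).trans ((measure_iUnion_fintype_le _ _).trans (le_of_eq ?_))
  simp only [Complex.volume_closedBall, Finset.sum_const, Finset.card_univ, Fintype.card_fin,
    nsmul_eq_mul]
  rw [ENNReal.ofReal_mul (by positivity), ENNReal.ofReal_mul (by positivity),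
    ENNReal.ofReal_pow hs, ← NNReal.coe_real_pi, ENNReal.ofReal_coe_nnreal]
  simp
  ring
theorem integral_fderiv_zeta : ∃ K : ℝ, ∀ ρ : ℝ, 0 < ρ →
    ∫ x in T.Int, ‖fderiv ℝ (T.zeta ρ) x‖ ^ 2 ≤ K := by
  obtain ⟨C, hC⟩ := T.fderiv_zeta_bound
  refine ⟨C ^ 2 * (27 * Real.pi), fun ρ hρ => ?_⟩
  have hS : MeasurableSet {x | T.d x ≤ 3 * ρ} :=
    (isClosed_le T.continuous_d continuous_const).measurableSet
  have hv := T.volume_d_le (s := 3 * ρ) (by positivity)
  have hfin : volume {x | T.d x ≤ 3 * ρ} ≠ ⊤ := ne_top_of_le_ne_top ENNReal.ofReal_ne_top hv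
  have hi : Integrable ({x | T.d x ≤ 3 * ρ}.indicator fun _ => (C / ρ) ^ 2) :=
    (integrable_indicator_iff hS).2 (integrableOn_const hfin)
  calc ∫ x in T.Int, ‖fderiv ℝ (T.zeta ρ) x‖ ^ 2
      ≤ ∫ x in T.Int, {x | T.d x ≤ 3 * ρ}.indicator (fun _ => (C / ρ) ^ 2) x := by
        refine integral_mono_of_nonneg (ae_of_all _ fun x => sq_nonneg _) hi.integrableOn
          (ae_of_all _ fun x => ?_)
        by_cases hx : x ∈ {x | T.d x ≤ 3 * ρ}
        · rw [indicator_of_mem hx]
          have := hC ρ hρ x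
          show _ ^ 2 ≤ _
          gcongr
        · rw [indicator_of_notMem hx]
          show _ ^ 2 ≤ _
          rw [T.fderiv_zeta_eq_zero hρ fun h => hx h.2]
          simp
    _ ≤ ∫ x, {x | T.d x ≤ 3 * ρ}.indicator (fun _ => (C / ρ) ^ 2) x :=
        setIntegral_le_integral hi
          (ae_of_all _ fun x => indicator_nonneg (fun _ _ => sq_nonneg _) x)
    _ = volume.real {x | T.d x ≤ 3 * ρ} * (C / ρ) ^ 2 := by
        rw [integral_indicator hS, setIntegral_const, smul_eq_mul]
    _ ≤ (3 * Real.pi * (3 * ρ) ^ 2) * (C / ρ) ^ 2 := by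
        gcongr
        exact ENNReal.toReal_le_of_le_ofReal (by positivity) hv
    _ = C ^ 2 * (27 * Real.pi) := by field_simp; ring

end Tri

end Crest.Agent.R103
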