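import Crest.Agent.R103.EnergyC
import Crest.Agent.R103.Kernel
import Crest.Agent.R103.Flow

/-! Row 103: the Fourier modes of the mollified function. -/

set_option autoImplicit false
set_option linter.unusedSectionVars false

namespace Crest.Agent.R103.EnergyAux

open MeasureTheory Set Filter Topology
open scoped ENNReal ComplexConjugate InnerProductSpace ContDiff Convolution

variable {E : Type} [NormedAddCommGroup E] [InnerProductSpace ℂ E] [CompleteSpace E]

/-! ### linearity of the modes -/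

theorem integrable_fs {g : Ang → E} (hg : Integrable g) (m : ℤ) :
    Integrable fun θ => (fourier m θ : ℂ) • g θ :=
  hg.bdd_smul 1 (map_continuous (fourier m)).aestronglyMeasurable
    (Eventually.of_forall fun θ => (SeqAux.norm_fourier m θ).le)

theorem md_add {g g' : Ang → E} (hg : Integrable g) (hg' : Integrable g') (m : ℤ) :
    md m (fun θ => g θ + g' θ) = md m g + md m g' := by
  simp only [md, smul_add]
  exact integral_add (integrable_fs hg _) (integrable_fs hg' _)

theorem md_sub {g g' : Ang → E} (hg : Integrable g) (hg' : Integrable g') (m : ℤ) :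
    md m (fun θ => g θ - g' θ) = md m g - md m g' := by
  simp only [md, smul_sub]
  exact integral_sub (integrable_fs hg _) (integrable_fs hg' _)

theorem md_smul (c : ℂ) (g : Ang → E) (m : ℤ) : md m (fun θ => c • g θ) = c • md m g := by
  simp only [md, smul_comm _ c]
  exact integral_smul _ _

theorem integrable_e_smul {g : Ang → E} (hg : Integrable g) : Integrable fun θ => e θ • g θ :=
  hg.bdd_smul 1 continuous_e.aestronglyMeasurable (Eventually.of_forall fun θ => (norm_e θ).le)

theorem integrable_conj_e_smul {g : Ang → E} (hg : Integrable g) :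
    Integrable fun θ => conj (e θ) • g θ :=
  hg.bdd_smul 1 (Complex.continuous_conj.comp continuous_e).aestronglyMeasurable
    (Eventually.of_forall fun θ => by simp)

theorem integrable_slice {G : Phase → E} {M : ℝ} (hG : StronglyMeasurable G)
    (hM : ∀ y, ‖G y‖ ≤ M) (x : ℂ) : Integrable fun θ => G (x, θ) :=
  SeqAux.integrable_of_bdd (hG.comp_measurable measurable_prodMk_left).aestronglyMeasurable
    fun _ => hM _

theorem bessel_slice {G : Phase → E} {M : ℝ} (hG : StronglyMeasurable G)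
    (hM : ∀ y, ‖G y‖ ≤ M) (x : ℂ) (s : Finset ℤ) :
    ∑ m ∈ s, ‖md m fun θ => G (x, θ)‖ ^ 2 ≤ 2 * Real.pi * ∫ θ, ‖G (x, θ)‖ ^ 2 :=
  bessel (hG.comp_measurable measurable_prodMk_left).aestronglyMeasurable (fun _ => hM _) s

theorem integrable_sq_slice {G : Phase → E} {M : ℝ} (hG : StronglyMeasurable G)
    (hM : ∀ y, ‖G y‖ ≤ M) (x : ℂ) : Integrable fun θ => ‖G (x, θ)‖ ^ 2 :=
  SeqAux.integrable_of_bdd (c := M ^ 2)
    ((hG.comp_measurable measurable_prodMk_left).norm.pow 2).aestronglyMeasurable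
    fun θ => by
      rw [norm_pow, norm_norm]
      exact pow_le_pow_left₀ (norm_nonneg _) (hM _) 2

theorem bessel_bdd {G : Phase → E} {M : ℝ} (hG : StronglyMeasurable G)
    (hM : ∀ y, ‖G y‖ ≤ M) (x : ℂ) (s : Finset ℤ) :
    ∑ m ∈ s, ‖md m fun θ => G (x, θ)‖ ^ 2 ≤ (2 * Real.pi * M) ^ 2 := by
  refine (bessel_slice hG hM x s).trans ?_
  have h1 : ∫ θ, ‖G (x, θ)‖ ^ 2 ≤ ∫ _ : Ang, M ^ 2 :=
    integral_mono (integrable_sq_slice hG hM x) (integrable_const _) fun θ =>
      pow_le_pow_left₀ (norm_nonneg _) (hM _) 2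
  rw [integral_const, measureReal_def, AddCircle.measure_univ,
    ENNReal.toReal_ofReal Real.two_pi_pos.le, smul_eq_mul] at h1
  have := mul_le_mul_of_nonneg_left h1 Real.two_pi_pos.le
  linarith

/-! ### averages -/

/-- average in the position against the kernel `k` -/
noncomputable def av (k : ℂ → ℝ) (F : Phase → E) (y : Phase) : E :=
  ∫ z, ((k (y.1 - z) : ℝ) : ℂ) • F (z, y.2)

variable {F H : Phase → E} {M : ℝ} {κ : ℂ → ℝ} {ε : ℝ}

theorem stronglyMeasurable_md (hF : StronglyMeasurable F) (m : ℤ) :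
    StronglyMeasurable fun z => md m fun θ => F (z, θ) := by
  apply StronglyMeasurable.integral_prod_right'
    (f := fun p : Phase => (fourier (-m) p.2 : ℂ) • F p)
  exact (((map_continuous (fourier (-m))).comp continuous_snd).stronglyMeasurable).smul hF

theorem md_av (hF : StronglyMeasurable F) (hM : ∀ y, ‖F y‖ ≤ M) {k : ℂ → ℝ} (hk : Integrable k)
    (m : ℤ) (x : ℂ) :
    md m (fun θ => av k F (x, θ)) = ∫ z, ((k (x - z) : ℝ) : ℂ) • md m fun θ => F (z, θ) := by
  have h1 := hk.comp_sub_left x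
  have hi : Integrable (Function.uncurry fun (θ : Ang) (z : ℂ) =>
      (fourier (-m) θ : ℂ) • (((k (x - z) : ℝ) : ℂ) • F (z, θ))) (volume.prod volume) := by
    refine Integrable.mono' ((h1.norm.mul_const M).comp_snd volume) ?_
      (Eventually.of_forall fun p => ?_)
    · exact ((map_continuous (fourier (-m))).comp continuous_fst).aestronglyMeasurable.smul
        ((Complex.continuous_ofReal.comp_aestronglyMeasurable h1.1.comp_snd).smul
          (hF.comp_measurable measurable_swap).aestronglyMeasurable)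
    · simp only [Function.uncurry, norm_smul, SeqAux.norm_fourier, one_mul, Complex.norm_real]
      exact mul_le_mul_of_nonneg_left (hM _) (norm_nonneg _)
  have h2 := integral_integral_swap hi
  simp only [md, av, ← integral_smul]
  rw [h2]
  simp only [smul_comm (fourier (-m) _ : ℂ)]

theorem contDiff_md_sm (h : IsKer κ ε) (hF : StronglyMeasurable F) (hM : ∀ y, ‖F y‖ ≤ M)
    (m : ℤ) : ContDiff ℝ ∞ fun x => md m fun θ => sm κ F (x, θ) := by
  have h1 : LocallyIntegrable (fun z => md m fun θ => F (z, θ)) volume := by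
    refine (locallyIntegrable_const (2 * Real.pi * M)).mono
      (stronglyMeasurable_md hF m).aestronglyMeasurable (Eventually.of_forall fun z => ?_)
    exact (norm_md_le (fun _ => hM _) m).trans (le_abs_self _)
  have h2 := h.hasCompactSupport.contDiff_convolution_left (ContinuousLinearMap.lsmul ℝ ℝ)
    h.smooth h1
  convert h2 using 1
  funext x
  rw [convolution_lsmul_swap]
  simp only [← Complex.coe_smul]
  exact md_av hF hM h.integrable m x

theorem fderiv_md_sm (h : IsKer κ ε) (hF : StronglyMeasurable F) (hM : ∀ y, ‖F y‖ ≤ M)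
    (m : ℤ) (x u : ℂ) :
    fderiv ℝ (fun x => md m fun θ => sm κ F (x, θ)) x u = md m fun θ => smD κ F u (x, θ) := by
  have h1 := h.hasDerivAt_sm (F := fun y : Phase => md m fun θ => F (y.1, θ))
    ((stronglyMeasurable_md hF m).comp_measurable measurable_fst)
    (fun y => norm_md_le (fun _ => hM _) m) x u 0 0
  have h2 : HasDerivAt (fun s : ℝ => x + s • u) u 0 := by
    simpa using ((hasDerivAt_id (0 : ℝ)).smul_const u).const_add x
  have h3 := (diff (contDiff_md_sm h hF hM m) (x + (0 : ℝ) • u)).hasFDerivAt.comp_hasDerivAt 0 h2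
  have h4 : (fun s : ℝ => sm κ (fun y : Phase => md m fun θ => F (y.1, θ)) (x + s • u, 0)) =
      (fun x => md m fun θ => sm κ F (x, θ)) ∘ fun s : ℝ => x + s • u :=
    funext fun s => (md_av hF hM h.integrable m _).symm
  rw [h4] at h1
  have h5 := h3.unique h1
  rw [zero_smul, add_zero] at h5
  rw [h5]
  exact (md_av hF hM (h.integrable_fderiv_apply u) m x).symm

/-! ### skewness -/

theorem skew_symm {f h f' h' : E} (hs : ⟪f, h'⟫_ℂ = -⟪h, f'⟫_ℂ) : ⟪f', h⟫_ℂ = -⟪h', f⟫_ℂ := by
  rw [← inner_conj_symm f' h, ← inner_conj_symm h' f, hs, map_neg, neg_neg]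

theorem skew_integral {X : Type} [MeasurableSpace X] {ν : Measure X} {f h : E} {f' h' : X → E}
    {c : X → ℂ} (hs : ∀ a, ⟪f, h' a⟫_ℂ = -⟪h, f' a⟫_ℂ) (i1 : Integrable (fun a => c a • f' a) ν)
    (i2 : Integrable (fun a => c a • h' a) ν) :
    ⟪f, ∫ a, c a • h' a ∂ν⟫_ℂ = -⟪h, ∫ a, c a • f' a ∂ν⟫_ℂ := by
  rw [← integral_inner i1, ← integral_inner i2, ← integral_neg]
  simp only [inner_smul_right, hs, mul_neg]

theorem skew_md_av (hF : StronglyMeasurable F) (hH : StronglyMeasurable H)
    (hM : ∀ y, ‖F y‖ ≤ M) (hM' : ∀ y, ‖H y‖ ≤ M) {k : ℂ → ℝ} (hk : Integrable k) {f h : E}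
    (hs : ∀ y, ⟪f, H y⟫_ℂ = -⟪h, F y⟫_ℂ) (m : ℤ) (x : ℂ) :
    ⟪f, md m fun θ => av k H (x, θ)⟫_ℂ = -⟪h, md m fun θ => av k F (x, θ)⟫_ℂ := by
  rw [md_av hF hM hk, md_av hH hM' hk]
  refine skew_integral (fun z => skew_integral (fun θ => hs _)
    (integrable_fs (integrable_slice hF hM z) _) (integrable_fs (integrable_slice hH hM' z) _))
    ?_ ?_
  · exact IsKer.integrable_smul_of_integrable (F := fun y : Phase => md m fun θ => F (y.1, θ))
      ((stronglyMeasurable_md hF m).comp_measurable measurable_fst)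
      (fun y => norm_md_le (fun _ => hM _) m) hk x 0
  · exact IsKer.integrable_smul_of_integrable (F := fun y : Phase => md m fun θ => H (y.1, θ))
      ((stronglyMeasurable_md hH m).comp_measurable measurable_fst)
      (fun y => norm_md_le (fun _ => hM' _) m) hk x 0

/-! ### symmetry -/

theorem av_reflect (T : Tri) {j : Fin 3} {x : ℂ} (hx : T.ell j x = 0) {k : ℂ → ℝ}
    (hk : ∀ w, k ((T.σ j).lin w) = k w) (hk0 : ∀ w, ε ≤ ‖w‖ → k w = 0)
    (hs : ∀ z, ‖z - x‖ < ε → ∀ θ, F (T.σ j • ((z, θ) : Phase)) = F (z, θ)) (θ : Ang) :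
    av k F (x, (T.σ j).β - θ) = av k F (x, θ) := by
  have hemb : MeasurableEmbedding fun z : ℂ => T.σ j • z :=
    (T.σ j).continuous_smul_pt.measurableEmbedding (MulAction.injective _)
  unfold av
  rw [← (measurePreserving_smul_pt (T.σ j)).integral_comp hemb]
  congr 1
  funext z
  have h1 : x - T.σ j • z = (T.σ j).lin (x - z) := by
    rw [← Iso.smul_sub_smul, T.σ_fix hx]
  dsimp only
  rw [h1, hk]
  by_cases hz : ‖z - x‖ < ε
  · exact congrArg _ (hs z hz θ)
  · rw [hk0 _ (by rw [norm_sub_rev]; exact not_lt.1 hz)]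
    simp

theorem σ_lin_tangent (T : Tri) (j : Fin 3) :
    (T.σ j).lin (Complex.I * T.ν j) = Complex.I * T.ν j := by
  have : ⟪T.ν j, Complex.I * T.ν j⟫_ℝ = 0 := by
    simp only [Complex.inner, Complex.mul_re, Complex.mul_im, Complex.I_re, Complex.I_im,
      Complex.conj_re, Complex.conj_im]
    ring
  rw [T.σ_lin, this]
  simp

/-! ### the defect -/

theorem smD_e (h : IsKer κ ε) (hF : StronglyMeasurable F) (hM : ∀ y, ‖F y‖ ≤ M) (u : ℂ)
    (y : Phase) : smD κ F u y =
      u • ((1 / 2 : ℂ) • (smD κ F 1 y - Complex.I • smD κ F Complex.I y)) +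
      conj u • ((1 / 2 : ℂ) • (smD κ F 1 y + Complex.I • smD κ F Complex.I y)) := by
  rw [h.smD_eq hF hM u y]
  have h1 : ((u.re : ℝ) : ℂ) = u * (1 / 2) + conj u * (1 / 2) := by
    apply Complex.ext <;> simp
    ring
  have h2 : ((u.im : ℝ) : ℂ) = -(u * (1 / 2 * Complex.I)) + conj u * (1 / 2 * Complex.I) := by
    apply Complex.ext <;> simp
    ring
  rw [h1, h2]
  module

theorem md_sig (h : IsKer κ ε) (hF : StronglyMeasurable F) (hH : StronglyMeasurable H)
    (hM : ∀ y, ‖F y‖ ≤ M) (hM' : ∀ y, ‖H y‖ ≤ M) (n : ℤ) (x : ℂ) :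
    md n (fun θ => sig κ F H (x, θ)) =
      dz (fun x => md (n - 1) fun θ => sm κ F (x, θ)) x +
      db (fun x => md (n + 1) fun θ => sm κ F (x, θ)) x - md n fun θ => sm κ H (x, θ) := by
  have i1 := integrable_slice (h.stronglyMeasurable_smD hF 1) (h.norm_smD_le hM 1) x
  have i2 := integrable_slice (h.stronglyMeasurable_smD hF Complex.I)
    (h.norm_smD_le hM Complex.I) x
  have i3 := integrable_slice (h.stronglyMeasurable_sm hH) (h.norm_sm_le hM') x
  have i4 : Integrable fun θ => Complex.I • smD κ F Complex.I (x, θ) := i2.smul Complex.I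
  have i5 : Integrable fun θ => (1 / 2 : ℂ) • (smD κ F 1 (x, θ) -
    Complex.I • smD κ F Complex.I (x, θ)) := (i1.sub i4).smul (1 / 2 : ℂ)
  have i6 : Integrable fun θ => (1 / 2 : ℂ) • (smD κ F 1 (x, θ) +
    Complex.I • smD κ F Complex.I (x, θ)) := (i1.add i4).smul (1 / 2 : ℂ)
  have i7 := integrable_e_smul i5
  have i8 := integrable_conj_e_smul i6
  simp only [sig]
  simp only [smD_e h hF hM (e _)]
  rw [md_sub (i7.fun_add i8) i3, md_add i7 i8, md_e_smul, md_conj_e_smul, md_smul, md_smul,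
    md_sub i1 i4, md_add i1 i4, md_smul, md_smul, dz, db]
  simp only [fderiv_md_sm h hF hM]

end Crest.Agent.R103.EnergyAux
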