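import Crest.Agent.R103.Basic

/-! Row 103: the divergence theorem on the triangle for tangent vector fields. -/

set_option autoImplicit false

namespace Crest.Agent.R103

open MeasureTheory Set Filter Topology
open scoped ENNReal ComplexConjugate InnerProductSpace ContDiff

namespace GreenAux

open Real

theorem exists_deriv_bound : ∃ K : ℝ, 0 ≤ K ∧ ∀ x : ℝ, 0 ≤ x → |x * deriv smoothTransition x| ≤ K := by
  have hc : Continuous fun x : ℝ => x * deriv smoothTransition x :=
    continuous_id.mul ((smoothTransition.contDiff (n := 1)).continuous_deriv le_rfl)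
  obtain ⟨K, hK⟩ := (isCompact_Icc (a := (0 : ℝ)) (b := 1)).exists_bound_of_continuousOn
    hc.continuousOn
  have hK0 : 0 ≤ K := (norm_nonneg _).trans (hK 0 ⟨le_rfl, zero_le_one⟩)
  refine ⟨K, hK0, fun x hx => ?_⟩
  by_cases h : x ≤ 1
  · exact hK x ⟨hx, h⟩
  · have h1 : IsLocalMax smoothTransition x := Eventually.of_forall fun y => by
      rw [smoothTransition.one_of_one_le (not_le.1 h).le]
      exact smoothTransition.le_one y
    rw [h1.deriv_eq_zero, mul_zero, abs_zero]
    exact hK0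

variable (T : Tri)

/-- smooth approximation of the indicator of the triangle -/
noncomputable def psi (n : ℕ) (z : ℂ) : ℝ := ∏ j, smoothTransition (n * T.ell j z)

theorem hasFDerivAt_ell (j : Fin 3) (z : ℂ) : HasFDerivAt (T.ell j) (innerSL ℝ (T.ν j)) z := by
  have h : T.ell j = fun z => innerSL ℝ (T.ν j) z - ⟪T.ν j, T.v (j + 1)⟫_ℝ := by
    ext z
    simp only [Tri.ell, inner_sub_right, innerSL_apply_apply]
  rw [h]
  exact (innerSL ℝ (T.ν j)).hasFDerivAt.sub_const _

theorem contDiff_ell (j : Fin 3) : ContDiff ℝ 1 (T.ell j) :=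
  contDiff_const.inner ℝ (contDiff_id.sub contDiff_const)

theorem contDiff_psi (n : ℕ) : ContDiff ℝ 1 (psi T n) :=
  contDiff_prod fun j _ =>
    (smoothTransition.contDiff (n := 1)).comp (contDiff_const.mul (contDiff_ell T j))

theorem psi_nonneg (n : ℕ) (z : ℂ) : 0 ≤ psi T n z :=
  Finset.prod_nonneg fun _ _ => smoothTransition.nonneg _

theorem psi_le_one (n : ℕ) (z : ℂ) : psi T n z ≤ 1 :=
  Finset.prod_le_one (fun _ _ => smoothTransition.nonneg _) fun _ _ => smoothTransition.le_one _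

theorem psi_eq_zero (n : ℕ) {z : ℂ} (hz : z ∉ T.Int) : psi T n z = 0 := by
  simp only [Tri.Int, mem_ofPred_eq, not_forall, not_lt] at hz
  obtain ⟨j, hj⟩ := hz
  exact Finset.prod_eq_zero (Finset.mem_univ j) (smoothTransition.zero_of_nonpos
    (mul_nonpos_of_nonneg_of_nonpos (Nat.cast_nonneg _) hj))

theorem eventually_psi_eq_one {z : ℂ} (hz : z ∈ T.Int) : ∀ᶠ n in atTop, psi T n z = 1 := by
  have h : ∀ᶠ n : ℕ in atTop, ∀ j, 1 ≤ (n : ℝ) * T.ell j z :=
    eventually_all.2 fun j =>
      (tendsto_natCast_atTop_atTop.atTop_mul_const (hz j)).eventually_ge_atTop 1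
  exact h.mono fun n hn => Finset.prod_eq_one fun j _ => smoothTransition.one_of_one_le (hn j)

theorem isCompact_Δ : IsCompact T.Δ := Metric.isCompact_of_isClosed_isBounded T.isClosed_Δ T.isBounded_Δ

theorem hasCompactSupport_psi (n : ℕ) : HasCompactSupport (psi T n) :=
  HasCompactSupport.intro (isCompact_Δ T) fun _ hz =>
    psi_eq_zero T n fun h => hz (T.Int_subset_Δ h)

theorem fderiv_psi_of_notMem (n : ℕ) {z : ℂ} (hz : z ∉ T.Int) : fderiv ℝ (psi T n) z = 0 :=
  IsLocalMin.fderiv_eq_zero (Eventually.of_forall fun w => by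
    rw [psi_eq_zero T n hz]; exact psi_nonneg T n w)

theorem eventually_fderiv_psi (z : ℂ) : ∀ᶠ n in atTop, fderiv ℝ (psi T n) z = 0 := by
  by_cases hz : z ∈ T.Int
  · exact (eventually_psi_eq_one T hz).mono fun n hn =>
      IsLocalMax.fderiv_eq_zero (Eventually.of_forall fun w => by rw [hn]; exact psi_le_one T n w)
  · exact Eventually.of_forall fun n => fderiv_psi_of_notMem T n hz

theorem fderiv_psi_apply (n : ℕ) (z u : ℂ) : fderiv ℝ (psi T n) z u =
    ∑ j, (∏ i ∈ Finset.univ.erase j, smoothTransition (n * T.ell i z)) *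
      (deriv smoothTransition (n * T.ell j z) * (n * ⟪T.ν j, u⟫_ℝ)) := by
  have h1 : ∀ j ∈ (Finset.univ : Finset (Fin 3)), HasFDerivAt
      (fun z => smoothTransition (n * T.ell j z))
      (deriv smoothTransition (n * T.ell j z) • ((n : ℝ) • innerSL ℝ (T.ν j))) z := fun j _ =>
    (((smoothTransition.contDiff (n := 1)).differentiable one_ne_zero _).hasDerivAt).comp_hasFDerivAt
      z ((hasFDerivAt_ell T j z).const_mul _)
  have h2 := (HasFDerivAt.finsetProd h1).fderiv
  unfold psi
  rw [h2]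
  simp only [ContinuousLinearMap.sum_apply, ContinuousLinearMap.smul_apply, smul_eq_mul,
    innerSL_apply_apply]

theorem exists_normal_bound {W : ℂ → ℂ} (hW : ContDiff ℝ 1 W)
    (ht : ∀ j, ∀ z ∈ T.Δ, T.ell j z = 0 → ⟪T.ν j, W z⟫_ℝ = 0) :
    ∃ L : ℝ, 0 ≤ L ∧ ∀ j, ∀ z ∈ T.Δ, |⟪T.ν j, W z⟫_ℝ| ≤ L * T.ell j z := by
  obtain ⟨C, hC⟩ := (isCompact_Δ T).exists_bound_of_continuousOn
    (hW.continuous_fderiv one_ne_zero).continuousOn
  have hr := T.r0_pos
  have hp := T.per_pos
  refine ⟨max C 0 * T.per / (10 * T.r0), by positivity, fun j z hz => ?_⟩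
  have hh := T.h_pos j
  have hl : 0 ≤ T.ell j z / T.h j := div_nonneg (hz j) hh.le
  set z' := z + (T.ell j z / T.h j) • (T.v (j + 1) - T.v j) with hz'
  have hj : j ≠ j + 1 := by
    fin_cases j <;> decide
  have h1 : ∀ i, T.ell i z' = T.ell i z + T.ell j z / T.h j *
      ((if i = j + 1 then T.h i else 0) - if i = j then T.h i else 0) := fun i => by
    rw [hz', T.ell_add, inner_smul_right, ← T.ell_sub, T.ell_v, T.ell_v]
  have h2 : T.ell j z' = 0 := by
    rw [h1, if_neg hj, if_pos rfl]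
    field_simp
    ring
  have h3 : z' ∈ T.Δ := fun i => by
    by_cases hi : i = j
    · rw [hi, h2]
    · rw [h1, if_neg hi, sub_zero]
      have := hz i
      have := T.h_pos i
      split_ifs <;> positivity
  have h4 := T.convex_Δ.norm_image_sub_le_of_norm_fderiv_le (𝕜 := ℝ) (f := W) (C := max C 0)
    (fun x _ => hW.differentiable one_ne_zero x) (fun x hx => (hC x hx).trans (le_max_left _ _))
    h3 hz
  have h5 : ‖z - z'‖ ≤ T.ell j z / T.h j * T.per := by
    rw [hz', sub_add_cancel_left, norm_neg, norm_smul, Real.norm_of_nonneg hl]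
    exact mul_le_mul_of_nonneg_left (T.norm_v_sub_le _ _) hl
  have h6 : T.ell j z / T.h j ≤ T.ell j z / (10 * T.r0) :=
    div_le_div_of_nonneg_left (hz j) (by positivity) (T.r0_le j)
  calc |⟪T.ν j, W z⟫_ℝ| = |⟪T.ν j, W z - W z'⟫_ℝ| := by rw [inner_sub_right, ht j z' h3 h2, sub_zero]
    _ ≤ ‖T.ν j‖ * ‖W z - W z'‖ := abs_real_inner_le_norm _ _
    _ ≤ max C 0 * (T.ell j z / (10 * T.r0) * T.per) := by
        rw [T.norm_ν, one_mul]
        refine h4.trans (mul_le_mul_of_nonneg_left (h5.trans ?_) (le_max_right _ _))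
        exact mul_le_mul_of_nonneg_right h6 hp.le
    _ = _ := by ring

theorem exists_flux_bound {W : ℂ → ℂ} (hW : ContDiff ℝ 1 W)
    (ht : ∀ j, ∀ z ∈ T.Δ, T.ell j z = 0 → ⟪T.ν j, W z⟫_ℝ = 0) :
    ∃ B : ℝ, ∀ n, ∀ z ∈ T.Δ, |fderiv ℝ (psi T n) z (W z)| ≤ B := by
  obtain ⟨K, hK0, hK⟩ := exists_deriv_bound
  obtain ⟨L, hL0, hL⟩ := exists_normal_bound T hW ht
  refine ⟨∑ _j : Fin 3, K * L, fun n z hz => ?_⟩
  rw [fderiv_psi_apply]
  refine (Finset.abs_sum_le_sum_abs _ _).trans (Finset.sum_le_sum fun j _ => ?_)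
  have h1 : |∏ i ∈ Finset.univ.erase j, smoothTransition (n * T.ell i z)| ≤ 1 := by
    rw [abs_of_nonneg (Finset.prod_nonneg fun _ _ => smoothTransition.nonneg _)]
    exact Finset.prod_le_one (fun _ _ => smoothTransition.nonneg _)
      fun _ _ => smoothTransition.le_one _
  have h0 : 0 ≤ (n : ℝ) * T.ell j z := mul_nonneg (Nat.cast_nonneg _) (hz j)
  have h2 := hK _ h0
  rw [abs_mul, abs_of_nonneg h0] at h2
  have h3 := hL j z hz
  rw [abs_mul]
  refine (mul_le_of_le_one_left (abs_nonneg _) h1).trans ?_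
  rw [abs_mul, abs_mul, Nat.abs_cast]
  calc |deriv smoothTransition (n * T.ell j z)| * (n * |⟪T.ν j, W z⟫_ℝ|)
      ≤ |deriv smoothTransition (n * T.ell j z)| * (n * (L * T.ell j z)) := by gcongr
    _ = n * T.ell j z * |deriv smoothTransition (n * T.ell j z)| * L := by ring
    _ ≤ K * L := by gcongr

theorem by_parts {ψ : ℂ → ℝ} (hψ : ContDiff ℝ 1 ψ) (hc : HasCompactSupport ψ) {W : ℂ → ℂ}
    (hW : ContDiff ℝ 1 W) :
    ∫ z, ψ z * ((fderiv ℝ W z 1).re + (fderiv ℝ W z Complex.I).im) =
      - ∫ z, fderiv ℝ ψ z (W z) := by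
  have key : ∀ (ℓ : ℂ →L[ℝ] ℝ) (v : ℂ), Integrable (fun z => fderiv ℝ ψ z v * ℓ (W z)) ∧
      Integrable (fun z => ψ z * ℓ (fderiv ℝ W z v)) ∧
      ∫ z, ψ z * ℓ (fderiv ℝ W z v) = - ∫ z, fderiv ℝ ψ z v * ℓ (W z) := by
    intro ℓ v
    have c1 := hψ.continuous
    have c2 := hψ.continuous_fderiv one_ne_zero
    have c3 := hW.continuous
    have c4 := hW.continuous_fderiv one_ne_zero
    have i1 : Integrable (fun z => fderiv ℝ ψ z v * ℓ (W z)) :=
      Continuous.integrable_of_hasCompactSupport (by fun_prop) (hc.fderiv_apply ℝ v).mul_right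
    have i2 : Integrable (fun z => ψ z * ℓ (fderiv ℝ W z v)) :=
      Continuous.integrable_of_hasCompactSupport (by fun_prop) hc.mul_right
    have i3 : Integrable (fun z => ψ z * ℓ (W z)) :=
      Continuous.integrable_of_hasCompactSupport (by fun_prop) hc.mul_right
    refine ⟨i1, i2, ?_⟩
    exact integral_bilinear_hasFDerivAt_right_eq_neg_left_of_integrable
      (B := ContinuousLinearMap.mul ℝ ℝ) (f := ψ) (f' := fderiv ℝ ψ) (g := fun z => ℓ (W z))
      (g' := fun z => ℓ.comp (fderiv ℝ W z)) (v := v) i1 i2 i3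
      (fun x _ => (hψ.differentiable one_ne_zero x).hasFDerivAt)
      (fun x _ => ℓ.hasFDerivAt.comp x (hW.differentiable one_ne_zero x).hasFDerivAt)
  obtain ⟨a1, a2, a3⟩ := key Complex.reCLM 1
  obtain ⟨b1, b2, b3⟩ := key Complex.imCLM Complex.I
  simp only [Complex.reCLM_apply, Complex.imCLM_apply] at a1 a2 a3 b1 b2 b3
  simp_rw [mul_add]
  rw [integral_add a2 b2, a3, b3, ← neg_add, ← integral_add a1 b1]
  congr 2
  ext z
  have h : W z = (W z).re • (1 : ℂ) + (W z).im • Complex.I := by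
    simp [Complex.re_add_im]
  conv_rhs => rw [h, map_add, map_smul, map_smul, smul_eq_mul, smul_eq_mul]
  ring

end GreenAux

open GreenAux

theorem Tri.green (T : Tri) {W : ℂ → ℂ} (hW : ContDiff ℝ 1 W)
    (ht : ∀ j, ∀ z ∈ T.Δ, T.ell j z = 0 → ⟪T.ν j, W z⟫_ℝ = 0) :
    ∫ z in T.Int, ((fderiv ℝ W z 1).re + (fderiv ℝ W z Complex.I).im) = 0 := by
  set D : ℂ → ℝ := fun z => (fderiv ℝ W z 1).re + (fderiv ℝ W z Complex.I).im with hD
  have c3 := hW.continuous
  have c4 := hW.continuous_fderiv one_ne_zero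
  have hDc : Continuous D := by
    rw [hD]
    fun_prop
  have hK := isCompact_Δ T
  have hKm := hK.measurableSet
  have h1 : Tendsto (fun n => ∫ z, psi T n z * D z) atTop (𝓝 (∫ z, T.Int.indicator D z)) := by
    refine tendsto_integral_of_dominated_convergence (T.Δ.indicator fun z => ‖D z‖)
      (fun n => ((contDiff_psi T n).continuous.mul hDc).aestronglyMeasurable)
      ((integrable_indicator_iff hKm).2 (hDc.norm.continuousOn.integrableOn_compact hK))
      (fun n => Eventually.of_forall fun z => ?_) (Eventually.of_forall fun z => ?_)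
    · by_cases hz : z ∈ T.Δ
      · rw [indicator_of_mem hz, norm_mul, Real.norm_of_nonneg (psi_nonneg T n z)]
        exact mul_le_of_le_one_left (norm_nonneg _) (psi_le_one T n z)
      · rw [indicator_of_notMem hz, psi_eq_zero T n fun h => hz (T.Int_subset_Δ h)]
        simp
    · by_cases hz : z ∈ T.Int
      · rw [indicator_of_mem hz]
        exact tendsto_const_nhds.congr' ((eventually_psi_eq_one T hz).mono fun n hn => by
          simp only [hn, one_mul])
      · rw [indicator_of_notMem hz]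
        simp only [psi_eq_zero T _ hz, zero_mul]
        exact tendsto_const_nhds
  obtain ⟨B, hB⟩ := exists_flux_bound T hW ht
  have h2 : Tendsto (fun n => ∫ z, fderiv ℝ (psi T n) z (W z)) atTop (𝓝 (∫ _z : ℂ, (0 : ℝ))) := by
    refine tendsto_integral_of_dominated_convergence (T.Δ.indicator fun _ => B)
      (fun n => Continuous.aestronglyMeasurable ?_)
      ((integrable_indicator_iff hKm).2 (continuousOn_const.integrableOn_compact hK))
      (fun n => Eventually.of_forall fun z => ?_) (Eventually.of_forall fun z => ?_)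
    · exact ((contDiff_psi T n).continuous_fderiv one_ne_zero).clm_apply c3
    · by_cases hz : z ∈ T.Δ
      · rw [indicator_of_mem hz]
        exact hB n z hz
      · rw [indicator_of_notMem hz, fderiv_psi_of_notMem T n fun h => hz (T.Int_subset_Δ h)]
        simp
    · exact tendsto_const_nhds.congr' ((eventually_fderiv_psi T z).mono fun n hn => by
        simp only [hn, ContinuousLinearMap.zero_apply])
  rw [integral_indicator T.isOpen_Int.measurableSet] at h1
  rw [integral_zero] at h2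
  have h3 := h2.neg
  rw [neg_zero] at h3
  refine tendsto_nhds_unique h1 (h3.congr fun n => ?_)
  exact (by_parts (contDiff_psi T n) (hasCompactSupport_psi T n) hW).symm

end Crest.Agent.R103
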