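import Crest.Agent.R103.Kernel
import Crest.Agent.R103.Green
import Crest.Agent.R103.Seq
import Crest.Agent.R103.Flow
import Crest.Agent.R103.EnergyD

/-! Row 103: the energy estimate for the Fourier modes of the mollified function. -/

set_option autoImplicit false
set_option linter.unusedSectionVars false

namespace Crest.Agent.R103

open MeasureTheory Set Filter Topology
open scoped ENNReal ComplexConjugate InnerProductSpace ContDiff

variable {E : Type} [NormedAddCommGroup E] [InnerProductSpace ℂ E] [CompleteSpace E]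

namespace EnergyAux

theorem integrable_sq_μ (T : Tri) {G : Phase → E} {M : ℝ} (hG : StronglyMeasurable G)
    (hM : ∀ y, ‖G y‖ ≤ M) : Integrable (fun y => ‖G y‖ ^ 2) T.μ :=
  Integrable.of_bound (hG.norm.pow 2).aestronglyMeasurable (M ^ 2)
    (Eventually.of_forall fun y => by
      rw [norm_pow, norm_norm]
      exact pow_le_pow_left₀ (norm_nonneg _) (hM _) 2)

theorem setIntegral_slice (T : Tri) {f : Phase → ℝ} (hf : Integrable f T.μ) (U : Set ℂ) :
    ∫ x in U, 2 * Real.pi * ∫ θ, f (x, θ) ∂volume ∂(volume.restrict T.Int) =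
      2 * Real.pi * ∫ y in {y | y.1 ∈ U}, f y ∂T.μ := by
  have h1 : {y : Phase | y.1 ∈ U} = U ×ˢ univ := by
    ext y
    simp
  rw [integral_const_mul, h1, Tri.μ, setIntegral_prod _ hf.integrableOn, Measure.restrict_univ]

theorem le_of_forall_sqrt {I a b α : ℝ} (hα : 0 ≤ α)
    (h : ∀ t, 0 < t → α ≤ t ^ 2 → I ≤ a + b * t) : I ≤ a + b * Real.sqrt α := by
  have h1 : Tendsto (fun t => a + b * t) (𝓝[>] (Real.sqrt α)) (𝓝 (a + b * Real.sqrt α)) :=
    (Continuous.tendsto (by fun_prop) _).mono_left nhdsWithin_le_nhds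
  refine ge_of_tendsto h1 (eventually_nhdsWithin_of_forall fun t ht => h t ?_ ?_)
  · exact (Real.sqrt_nonneg α).trans_lt ht
  · rw [← Real.sq_sqrt hα]
    exact pow_le_pow_left₀ (Real.sqrt_nonneg α) (le_of_lt ht) 2

end EnergyAux

open EnergyAux in
theorem Tri.energy (T : Tri) (K M : ℝ) : ∃ C : ℝ, ∀ (F H : Phase → E) (κ ζ : ℂ → ℝ) (ε α : ℝ)
    (U U' : Set ℂ), StronglyMeasurable F → StronglyMeasurable H →
    (∀ y, ‖F y‖ ≤ M) → (∀ y, ‖H y‖ ≤ M) → (∀ a b, ⟪H a, F b⟫_ℂ = -⟪F a, H b⟫_ℂ) →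
    IsKer κ ε → ContDiff ℝ ∞ ζ → (∀ x, 0 ≤ ζ x) → (∀ x, ζ x ≤ 1) →
    (∀ j, ∀ x ∈ T.Δ, T.ell j x = 0 → ζ x ≠ 0 → ∀ z, ‖z - x‖ < ε → ∀ θ,
      F (T.σ j • ((z, θ) : Phase)) = F (z, θ) ∧ H (T.σ j • ((z, θ) : Phase)) = H (z, θ)) →
    MeasurableSet U → MeasurableSet U' → α ≤ 1 →
    (∀ x, x ∉ U → fderiv ℝ ζ x = 0) → (∫ x in T.Int, ‖fderiv ℝ ζ x‖ ^ 2 ≤ K) →
    volume U ≤ ENNReal.ofReal α → (∫ y in {y | y.1 ∈ U}, gsq κ F y ∂T.μ ≤ α) →
    (∀ᵐ y ∂T.μ, y.1 ∉ U' → sig κ F H y = 0) → (∫ y in {y | y.1 ∈ U'}, gsq κ F y ∂T.μ ≤ K) →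
    (∫ y, ζ y.1 * ‖sig κ F H y‖ ^ 2 ∂T.μ ≤ α) →
    ∀ (m : ℤ) (N : ℕ), 1 ≤ N →
      ∫ x in T.Int, ζ x * msq κ F m x ≤ C / N + C * (N : ℝ) ^ 2 * Real.sqrt α := by
  set M' := (2 * Real.pi * M) ^ 2 with hM'
  set a := 4 * M' * (volume.restrict T.Int).real univ + 28 with ha
  set b := 2 * M' * K + M' + 7 * K + 14 with hb
  refine ⟨4 * a + 80 * b, ?_⟩
  intro F H κ ζ ε α U U' hF hH bF bH hsk h hζ ζ0 ζ1 hsym mU mU' α1 hU hK vU gU sU' gU' sα m N hN
  have hπ : 2 * Real.pi ≤ 7 := by linarith [Real.pi_lt_d2]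
  have hπ0 := Real.two_pi_pos
  let D : Fam T E :=
    { g := fun m x => md m fun θ => sm κ F (x, θ)
      h := fun m x => md m fun θ => sm κ H (x, θ)
      ζ := ζ
      hg := contDiff_md_sm h hF bF
      hh := contDiff_md_sm h hH bH
      hζ := hζ
      ζ0 := ζ0
      ζ1 := ζ1
      skew := fun m n x u => by
        rw [fderiv_md_sm h hF bF, fderiv_md_sm h hH bH]
        refine skew_md_av hF hH bF bH (h.integrable_fderiv_apply u) (fun y => skew_symm ?_) n x
        refine skew_md_av hF hH bF bH h.integrable (fun y' => ?_) m x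
        rw [hsk, neg_neg]
      sym := fun j x hx hj hz m => by
        have k1 : ∀ w, κ ((T.σ j).lin w) = κ w := fun w => h.radial _ _ (Iso.norm_lin _ _)
        have k2 : ∀ w, fderiv ℝ κ ((T.σ j).lin w) (Complex.I * T.ν j) =
            fderiv ℝ κ w (Complex.I * T.ν j) := fun w => by
          conv_lhs => rw [← σ_lin_tangent T j]
          exact h.fderiv_lin _ _ _
        refine ⟨md_reflect _ (av_reflect T hj k1 h.supp fun z hz' θ =>
          (hsym j x hx hj hz z hz' θ).1) m, md_reflect _ (av_reflect T hj k1 h.supp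
            fun z hz' θ => (hsym j x hx hj hz z hz' θ).2) m, ?_⟩
        rw [fderiv_md_sm h hF bF, fderiv_md_sm h hF bF]
        exact md_reflect _ (av_reflect (k := fun w => fderiv ℝ κ w (Complex.I * T.ν j)) T hj k2
          (fun w hw => by simp [h.fderiv_eq_zero hw]) fun z hz' θ =>
            (hsym j x hx hj hz z hz' θ).1) m }
  have hgr : ∀ m x, gr (D.g m) x = msq κ F m x := fun m x => by
    simp only [gr, msq, D, fderiv_md_sm h hF bF]
  have hs : ∀ n x, D.s n x = md n fun θ => sig κ F H (x, θ) := fun n x =>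
    (md_sig h hF hH bF bH n x).symm
  have m1 := h.stronglyMeasurable_smD hF 1
  have m2 := h.stronglyMeasurable_smD hF Complex.I
  have b1 := h.norm_smD_le bF 1
  have b2 := h.norm_smD_le bF Complex.I
  have m3 := h.stronglyMeasurable_sig hF hH
  have b3 : ∀ y, ‖sig κ F H y‖ ≤ (∫ z, ‖fderiv ℝ κ z‖) * M + M := fun y =>
    (norm_sub_le _ _).trans (add_le_add (by simpa using h.norm_smD_le bF (e y.2) y)
      (h.norm_sm_le bH y))
  have i1 : Integrable (gsq κ F) T.μ := (integrable_sq_μ T m1 b1).add (integrable_sq_μ T m2 b2)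
  have i2 : Integrable (fun y => ζ y.1 * ‖sig κ F H y‖ ^ 2) T.μ :=
    (integrable_sq_μ T m3 b3).bdd_mul (c := 1)
      (hζ.continuous.comp continuous_fst).aestronglyMeasurable
      (Eventually.of_forall fun y => by
        rw [Real.norm_eq_abs, abs_of_nonneg (ζ0 _)]
        exact ζ1 _)
  have e2 : (fun x => ζ x * (2 * Real.pi * ∫ θ, ‖sig κ F H (x, θ)‖ ^ 2)) =
      fun x => 2 * Real.pi * ∫ θ, ζ x * ‖sig κ F H (x, θ)‖ ^ 2 := by
    funext x
    rw [integral_const_mul, mul_left_comm]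
  have e3 : ∫ x in T.Int, ζ x * (2 * Real.pi * ∫ θ, ‖sig κ F H (x, θ)‖ ^ 2) =
      2 * Real.pi * ∫ y, ζ y.1 * ‖sig κ F H y‖ ^ 2 ∂T.μ := by
    rw [e2, integral_const_mul, Tri.μ, integral_prod _ i2]
  have α0 : 0 ≤ α := (integral_nonneg fun y => mul_nonneg (ζ0 _) (sq_nonneg _)).trans sα
  have K0 : 0 ≤ K := (integral_nonneg fun _ => sq_nonneg _).trans hK
  have a0 : 0 ≤ a := by positivity
  have b0 : 0 ≤ b := by positivity
  have key : ∀ t, 0 < t → α ≤ t ^ 2 →
      ∫ x in T.Int, ζ x * msq κ F m x ≤ 4 * a / N + 80 * b * (N : ℝ) ^ 2 * t := fun t ht hαt => by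
    let B : Bnd D M' K t :=
      { Φ := fun x => 2 * Real.pi * ∫ θ, gsq κ F (x, θ)
        Ψ := fun x => 2 * Real.pi * ∫ θ, ‖sig κ F H (x, θ)‖ ^ 2
        U := U
        U' := U'
        t_pos := ht
        bg := bessel_bdd (h.stronglyMeasurable_sm hF) (h.norm_sm_le bF)
        bh := bessel_bdd (h.stronglyMeasurable_sm hH) (h.norm_sm_le bH)
        bΦ := fun x s => by
          simp only [hgr, msq, gsq, Finset.sum_add_distrib]
          rw [integral_add (integrable_sq_slice m1 b1 x) (integrable_sq_slice m2 b2 x), mul_add]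
          exact add_le_add (bessel_slice m1 b1 x s) (bessel_slice m2 b2 x s)
        bΨ := fun x s => by
          simp only [hs]
          exact bessel_slice m3 b3 x s
        iΦ := (Integrable.integral_prod_left i1).const_mul _
        iΨ := by
          change Integrable (fun x => ζ x * _) _
          rw [e2]
          exact (Integrable.integral_prod_left i2).const_mul _
        mU := mU
        mU' := mU'
        hU := hU
        hK := hK
        vU := vU.trans (ENNReal.ofReal_le_ofReal hαt)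
        ΦU := by
          rw [setIntegral_slice T i1]
          nlinarith [mul_le_mul_of_nonneg_left gU hπ0.le]
        sU' := by
          filter_upwards [Measure.ae_ae_of_ae_prod sU'] with x hx hxU n
          rw [hs, md]
          refine integral_eq_zero_of_ae ?_
          filter_upwards [hx] with θ hθ
          simp [hθ hxU]
        ΦU' := by
          rw [setIntegral_slice T i1]
          nlinarith [mul_le_mul_of_nonneg_left gU' hπ0.le]
        Ψt := by
          change ∫ x in T.Int, ζ x * _ ≤ _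
          rw [e3]
          nlinarith [mul_le_mul_of_nonneg_left sα hπ0.le]
        Ψ1 := by
          change ∫ x in T.Int, ζ x * _ ≤ _
          rw [e3]
          nlinarith [mul_le_mul_of_nonneg_left sα hπ0.le] }
    have := B.gr_le m N hN
    simp only [Fam.I, hgr] at this
    refine this.trans (le_of_eq ?_)
    rw [← ha, ← hb]
    ring
  refine (le_of_forall_sqrt α0 key).trans (add_le_add ?_ ?_)
  · gcongr
    linarith
  · gcongr
    linarith

end Crest.Agent.R103
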