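import Crest.Agent.R103.Green

/-! Row 103: calculus identities behind the energy estimate. -/

set_option autoImplicit false

namespace Crest.Agent.R103.EnergyAux

open MeasureTheory Set Filter Topology
open scoped ENNReal ComplexConjugate InnerProductSpace ContDiff

theorem integrable_of_continuous (T : Tri) {X : Type} [NormedAddCommGroup X] {f : ℂ → X}
    (hf : Continuous f) : Integrable f (volume.restrict T.Int) :=
  (hf.continuousOn.integrableOn_compact
    (Metric.isCompact_of_isClosed_isBounded T.isClosed_Δ T.isBounded_Δ)).mono_set T.Int_subset_Δ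

theorem finite_int (T : Tri) : IsFiniteMeasure (volume.restrict T.Int) :=
  ⟨by
    rw [Measure.restrict_apply_univ]
    exact (T.isBounded_Δ.subset T.Int_subset_Δ).measure_lt_top⟩

theorem fderiv_re {w : ℂ → ℂ} {x : ℂ} (hw : DifferentiableAt ℝ w x) (u : ℂ) :
    fderiv ℝ (fun z => (w z).re) x u = (fderiv ℝ w x u).re := by
  have := (Complex.reCLM.hasFDerivAt.comp x hw.hasFDerivAt).fderiv
  exact congrArg (fun L : ℂ →L[ℝ] ℝ => L u) this

theorem fderiv_im {w : ℂ → ℂ} {x : ℂ} (hw : DifferentiableAt ℝ w x) (u : ℂ) :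
    fderiv ℝ (fun z => (w z).im) x u = (fderiv ℝ w x u).im := by
  have := (Complex.imCLM.hasFDerivAt.comp x hw.hasFDerivAt).fderiv
  exact congrArg (fun L : ℂ →L[ℝ] ℝ => L u) this

theorem contDiff_re {w : ℂ → ℂ} (hw : ContDiff ℝ ∞ w) : ContDiff ℝ ∞ fun z => (w z).re :=
  Complex.reCLM.contDiff.comp hw

theorem contDiff_im {w : ℂ → ℂ} (hw : ContDiff ℝ ∞ w) : ContDiff ℝ ∞ fun z => (w z).im :=
  Complex.imCLM.contDiff.comp hw

theorem contDiff_fderiv_apply {X : Type} [NormedAddCommGroup X] [NormedSpace ℝ X] {g : ℂ → X}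
    (hg : ContDiff ℝ ∞ g) (u : ℂ) : ContDiff ℝ ∞ fun z => fderiv ℝ g z u :=
  (hg.fderiv_right (m := ∞) le_rfl).clm_apply contDiff_const

theorem diff {X : Type} [NormedAddCommGroup X] [NormedSpace ℝ X] {g : ℂ → X}
    (hg : ContDiff ℝ ∞ g) (x : ℂ) : DifferentiableAt ℝ g x :=
  hg.differentiable (by simp) x

/-- The weighted divergence theorem, as an estimate. -/
theorem green_bound (T : Tri) {ζ P Q : ℂ → ℝ} (hζ : ContDiff ℝ ∞ ζ) (hP : ContDiff ℝ ∞ P)
    (hQ : ContDiff ℝ ∞ Q)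
    (ht : ∀ j, ∀ z ∈ T.Δ, T.ell j z = 0 → ζ z ≠ 0 → (T.ν j).re * P z + (T.ν j).im * Q z = 0) :
    |∫ z in T.Int, ζ z * (fderiv ℝ P z 1 + fderiv ℝ Q z Complex.I)| ≤
      ∫ z in T.Int, ‖fderiv ℝ ζ z‖ * (|P z| + |Q z|) := by
  have hW : ContDiff ℝ ∞ fun z => ((ζ z * P z : ℝ) : ℂ) + ((ζ z * Q z : ℝ) : ℂ) * Complex.I :=
    (Complex.ofRealCLM.contDiff.comp (hζ.mul hP)).add
      ((Complex.ofRealCLM.contDiff.comp (hζ.mul hQ)).mul contDiff_const)
  have h := T.green (hW.of_le (by simp)) fun j z hz hj => by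
    by_cases h0 : ζ z = 0
    · simp [h0]
    · have := ht j z hz hj h0
      rw [Complex.inner]
      simp only [Complex.mul_re, Complex.add_re, Complex.add_im, Complex.ofReal_re,
        Complex.ofReal_im, Complex.I_re, Complex.I_im, Complex.mul_im, Complex.conj_re,
        Complex.conj_im]
      linear_combination ζ z * this
  have e : ∀ z, (fderiv ℝ (fun z => ((ζ z * P z : ℝ) : ℂ) + ((ζ z * Q z : ℝ) : ℂ) * Complex.I)
      z 1).re + (fderiv ℝ (fun z => ((ζ z * P z : ℝ) : ℂ) + ((ζ z * Q z : ℝ) : ℂ) * Complex.I)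
      z Complex.I).im = ζ z * (fderiv ℝ P z 1 + fderiv ℝ Q z Complex.I) +
        (fderiv ℝ ζ z 1 * P z + fderiv ℝ ζ z Complex.I * Q z) := by
    intro z
    rw [← fderiv_re (diff hW z), ← fderiv_im (diff hW z)]
    simp only [Complex.mul_re, Complex.add_re, Complex.add_im, Complex.ofReal_re,
      Complex.ofReal_im, Complex.I_re, Complex.I_im, Complex.mul_im, mul_zero, mul_one, sub_zero,
      add_zero, zero_add]
    rw [fderiv_fun_mul (diff hζ z) (diff hP z), fderiv_fun_mul (diff hζ z) (diff hQ z)]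
    simp only [add_apply, smul_apply, smul_eq_mul]
    ring
  simp only [e] at h
  have c1 : Continuous fun z => ζ z * (fderiv ℝ P z 1 + fderiv ℝ Q z Complex.I) :=
    hζ.continuous.mul ((contDiff_fderiv_apply hP 1).continuous.add
      (contDiff_fderiv_apply hQ _).continuous)
  have c2 : Continuous fun z => fderiv ℝ ζ z 1 * P z + fderiv ℝ ζ z Complex.I * Q z :=
    ((contDiff_fderiv_apply hζ 1).continuous.mul hP.continuous).add
      ((contDiff_fderiv_apply hζ _).continuous.mul hQ.continuous)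
  rw [integral_add (integrable_of_continuous T c1) (integrable_of_continuous T c2),
    add_eq_zero_iff_eq_neg] at h
  rw [h, abs_neg]
  refine (abs_integral_le_integral_abs).trans (integral_mono (integrable_of_continuous T c2.abs)
    (integrable_of_continuous T ((hζ.continuous_fderiv (by simp)).norm.mul
      (hP.continuous.abs.add hQ.continuous.abs))) fun z => ?_)
  have h1 : |fderiv ℝ ζ z 1| ≤ ‖fderiv ℝ ζ z‖ := by
    simpa using (fderiv ℝ ζ z).le_opNorm 1
  have h2 : |fderiv ℝ ζ z Complex.I| ≤ ‖fderiv ℝ ζ z‖ := by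
    simpa using (fderiv ℝ ζ z).le_opNorm Complex.I
  dsimp only
  rw [mul_add]
  refine (abs_add_le _ _).trans (add_le_add ?_ ?_)
  · rw [abs_mul]
    exact mul_le_mul_of_nonneg_right h1 (abs_nonneg _)
  · rw [abs_mul]
    exact mul_le_mul_of_nonneg_right h2 (abs_nonneg _)

variable {E : Type} [NormedAddCommGroup E] [InnerProductSpace ℂ E]

/-- `∂ g` -/
noncomputable def dz (g : ℂ → E) (x : ℂ) : E :=
  (1 / 2 : ℂ) • (fderiv ℝ g x 1 - Complex.I • fderiv ℝ g x Complex.I)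

/-- `∂̄ g` -/
noncomputable def db (g : ℂ → E) (x : ℂ) : E :=
  (1 / 2 : ℂ) • (fderiv ℝ g x 1 + Complex.I • fderiv ℝ g x Complex.I)

/-- squared gradient -/
noncomputable def gr (g : ℂ → E) (x : ℂ) : ℝ :=
  ‖fderiv ℝ g x 1‖ ^ 2 + ‖fderiv ℝ g x Complex.I‖ ^ 2

theorem continuous_dz {g : ℂ → E} (hg : ContDiff ℝ ∞ g) : Continuous (dz g) :=
  ((contDiff_fderiv_apply hg 1).continuous.sub
    ((contDiff_fderiv_apply hg _).continuous.const_smul _)).const_smul _

theorem continuous_db {g : ℂ → E} (hg : ContDiff ℝ ∞ g) : Continuous (db g) :=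
  ((contDiff_fderiv_apply hg 1).continuous.add
    ((contDiff_fderiv_apply hg _).continuous.const_smul _)).const_smul _

theorem continuous_gr {g : ℂ → E} (hg : ContDiff ℝ ∞ g) : Continuous (gr g) :=
  ((contDiff_fderiv_apply hg 1).continuous.norm.pow 2).add
    ((contDiff_fderiv_apply hg _).continuous.norm.pow 2)

theorem norm_dz_sq (g : ℂ → E) (x : ℂ) : ‖dz g x‖ ^ 2 =
    gr g x / 4 + (⟪fderiv ℝ g x 1, fderiv ℝ g x Complex.I⟫_ℂ).im / 2 := by
  rw [dz, gr, norm_smul, mul_pow, @norm_sub_sq ℂ, inner_smul_right, norm_smul]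
  simp
  ring

theorem norm_db_sq (g : ℂ → E) (x : ℂ) : ‖db g x‖ ^ 2 =
    gr g x / 4 - (⟪fderiv ℝ g x 1, fderiv ℝ g x Complex.I⟫_ℂ).im / 2 := by
  rw [db, gr, norm_smul, mul_pow, @norm_add_sq ℂ, inner_smul_right, norm_smul]
  simp
  ring

theorem gr_eq (g : ℂ → E) (x : ℂ) : gr g x = 2 * (‖dz g x‖ ^ 2 + ‖db g x‖ ^ 2) := by
  rw [norm_dz_sq, norm_db_sq]
  ring

theorem gr_nonneg (g : ℂ → E) (x : ℂ) : 0 ≤ gr g x := by
  unfold gr
  positivity

theorem norm_dz_sq_le (g : ℂ → E) (x : ℂ) : ‖dz g x‖ ^ 2 ≤ gr g x / 2 := by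
  rw [gr_eq]
  nlinarith [sq_nonneg ‖db g x‖]

theorem norm_db_sq_le (g : ℂ → E) (x : ℂ) : ‖db g x‖ ^ 2 ≤ gr g x / 2 := by
  rw [gr_eq]
  nlinarith [sq_nonneg ‖dz g x‖]

theorem fderiv_fderiv_symm {g : ℂ → E} (hg : ContDiff ℝ ∞ g) (x u v : ℂ) :
    fderiv ℝ (fun z => fderiv ℝ g z u) x v = fderiv ℝ (fun z => fderiv ℝ g z v) x u := by
  have hd : DifferentiableAt ℝ (fderiv ℝ g) x :=
    (hg.fderiv_right (m := ∞) le_rfl).differentiable (by simp) x
  rw [fderiv_clm_apply hd (differentiableAt_const _), fderiv_clm_apply hd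
    (differentiableAt_const _)]
  have := (hg.contDiffAt (x := x)).isSymmSndFDerivAt
    (by rw [minSmoothness_of_isRCLikeNormedField]; exact WithTop.coe_le_coe.2 le_top) v u
  simpa using this

/-- Divergence of the current of `g`. -/
theorem div_current {g : ℂ → E} (hg : ContDiff ℝ ∞ g) (x : ℂ) :
    fderiv ℝ (fun z => (⟪g z, fderiv ℝ g z Complex.I⟫_ℂ).im) x 1 -
      fderiv ℝ (fun z => (⟪g z, fderiv ℝ g z 1⟫_ℂ).im) x Complex.I =
      2 * (‖dz g x‖ ^ 2 - ‖db g x‖ ^ 2) := by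
  have h1 := contDiff_fderiv_apply hg 1
  have hI := contDiff_fderiv_apply hg Complex.I
  rw [fderiv_im (diff (hg.inner ℂ hI) x), fderiv_im (diff (hg.inner ℂ h1) x),
    fderiv_inner_apply ℂ (diff hg x) (diff hI x), fderiv_inner_apply ℂ (diff hg x) (diff h1 x),
    fderiv_fderiv_symm hg x 1 Complex.I, norm_dz_sq, norm_db_sq,
    ← inner_conj_symm (fderiv ℝ g x Complex.I) (fderiv ℝ g x 1)]
  simp only [Complex.add_im, Complex.conj_im]
  ring

/-- `2 Re ∂ ⟪g, h⟫`. -/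
theorem div_pair {g h : ℂ → E} (hg : ContDiff ℝ ∞ g) (hh : ContDiff ℝ ∞ h) (x : ℂ) :
    fderiv ℝ (fun z => (⟪g z, h z⟫_ℂ).re) x 1 +
      fderiv ℝ (fun z => (⟪g z, h z⟫_ℂ).im) x Complex.I =
      2 * ((⟪db g x, h x⟫_ℂ).re + (⟪g x, dz h x⟫_ℂ).re) := by
  rw [fderiv_re (diff (hg.inner ℂ hh) x), fderiv_im (diff (hg.inner ℂ hh) x),
    fderiv_inner_apply ℂ (diff hg x) (diff hh x), fderiv_inner_apply ℂ (diff hg x) (diff hh x)]
  simp only [dz, db, inner_smul_left, inner_smul_right, inner_add_left, inner_sub_right]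
  simp
  ring

/-- `2 Re ∂̄ ⟪g, h⟫`. -/
theorem div_pair' {g h : ℂ → E} (hg : ContDiff ℝ ∞ g) (hh : ContDiff ℝ ∞ h) (x : ℂ) :
    fderiv ℝ (fun z => (⟪g z, h z⟫_ℂ).re) x 1 -
      fderiv ℝ (fun z => (⟪g z, h z⟫_ℂ).im) x Complex.I =
      2 * ((⟪dz g x, h x⟫_ℂ).re + (⟪g x, db h x⟫_ℂ).re) := by
  rw [fderiv_re (diff (hg.inner ℂ hh) x), fderiv_im (diff (hg.inner ℂ hh) x),
    fderiv_inner_apply ℂ (diff hg x) (diff hh x), fderiv_inner_apply ℂ (diff hg x) (diff hh x)]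
  simp only [dz, db, inner_smul_left, inner_smul_right, inner_sub_left, inner_add_right]
  simp
  ring

end Crest.Agent.R103.EnergyAux
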