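import Crest.Agent.R103.EnergyA
import Crest.Agent.R103.Seq

/-! Row 103: the energy estimate for an abstract family of smooth modes. -/

set_option autoImplicit false

namespace Crest.Agent.R103.EnergyAux

open MeasureTheory Set Filter Topology
open scoped ENNReal ComplexConjugate InnerProductSpace ContDiff

/-- Smooth modes with the skewness and the boundary symmetry. -/
structure Fam (T : Tri) (E : Type) [NormedAddCommGroup E] [InnerProductSpace ℂ E] where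
  g : ℤ → ℂ → E
  h : ℤ → ℂ → E
  ζ : ℂ → ℝ
  hg : ∀ m, ContDiff ℝ ∞ (g m)
  hh : ∀ m, ContDiff ℝ ∞ (h m)
  hζ : ContDiff ℝ ∞ ζ
  ζ0 : ∀ x, 0 ≤ ζ x
  ζ1 : ∀ x, ζ x ≤ 1
  skew : ∀ m n x u, ⟪g m x, fderiv ℝ (h n) x u⟫_ℂ = -⟪h m x, fderiv ℝ (g n) x u⟫_ℂ
  sym : ∀ j, ∀ x ∈ T.Δ, T.ell j x = 0 → ζ x ≠ 0 → ∀ m : ℤ,
    g (-m) x = (fourier m (T.σ j).β : ℂ) • g m x ∧ h (-m) x = (fourier m (T.σ j).β : ℂ) • h m x ∧
    fderiv ℝ (g (-m)) x (Complex.I * T.ν j) =
      (fourier m (T.σ j).β : ℂ) • fderiv ℝ (g m) x (Complex.I * T.ν j)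

theorem amgm {t : ℝ} (ht : 0 < t) (a b : ℝ) : a * b ≤ t * a ^ 2 / 2 + b ^ 2 / (2 * t) := by
  have h : t * a ^ 2 / 2 + b ^ 2 / (2 * t) - a * b = (t * a - b) ^ 2 / (2 * t) := by
    field_simp
    ring
  have : 0 ≤ (t * a - b) ^ 2 / (2 * t) := by positivity
  linarith

theorem sum_shift {f : ℤ → ℝ} {B : ℝ} (h : ∀ s : Finset ℤ, ∑ m ∈ s, f m ≤ B) {φ : ℤ → ℤ}
    (hφ : Function.Injective φ) (s : Finset ℤ) : ∑ n ∈ s, f (φ n) ≤ B := by
  have := h (s.map ⟨φ, hφ⟩)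
  rwa [Finset.sum_map] at this

theorem sum_le_integral {ν : Measure ℂ} {e : ℤ → ℝ} {f : ℤ → ℂ → ℝ} {B : ℂ → ℝ}
    (hf : ∀ n, Integrable (f n) ν) (he : ∀ n, e n ≤ ∫ x, f n x ∂ν) (hB : Integrable B ν)
    (h : ∀ s : Finset ℤ, ∀ᵐ x ∂ν, ∑ n ∈ s, f n x ≤ B x) (s : Finset ℤ) :
    ∑ n ∈ s, e n ≤ ∫ x, B x ∂ν := by
  refine (Finset.sum_le_sum fun n _ => he n).trans ?_
  rw [← integral_finsetSum _ fun n _ => hf n]
  exact integral_mono_ae (integrable_finsetSum _ fun n _ => hf n) hB (h s)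

theorem tendsto_of_sum_le {e : ℤ → ℝ} {B : ℝ} (h : ∀ s : Finset ℤ, ∑ n ∈ s, |e n| ≤ B) :
    Tendsto e atBot (𝓝 0) := by
  have h1 : Summable fun n => |e n| := summable_of_sum_le (fun _ => abs_nonneg _) h
  refine (h1.of_abs.tendsto_cofinite_zero).mono_left ?_
  rw [Int.cofinite_eq]
  exact le_sup_left

variable {T : Tri} {E : Type} [NormedAddCommGroup E] [InnerProductSpace ℂ E]

theorem re_inner_symm (a b : E) : (⟪a, b⟫_ℂ).re = (⟪b, a⟫_ℂ).re := by
  rw [← inner_conj_symm, Complex.conj_re]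

theorem abs_re_inner_le (a b : E) : |(⟪a, b⟫_ℂ).re| ≤ ‖a‖ * ‖b‖ :=
  (Complex.abs_re_le_norm _).trans (norm_inner_le_norm a b)

theorem abs_im_inner_le (a b : E) : |(⟪a, b⟫_ℂ).im| ≤ ‖a‖ * ‖b‖ :=
  (Complex.abs_im_le_norm _).trans (norm_inner_le_norm a b)

theorem re_inner_self (a : E) : (⟪a, a⟫_ℂ).re = ‖a‖ ^ 2 := inner_self_eq_norm_sq (𝕜 := ℂ) a

theorem re_inner_sub_add (a b : E) : (⟪a - b, a + b⟫_ℂ).re = ‖a‖ ^ 2 - ‖b‖ ^ 2 := by
  rw [inner_sub_left, inner_add_right, inner_add_right]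
  simp only [Complex.sub_re, Complex.add_re, re_inner_self, re_inner_symm b a]
  ring

namespace Fam

variable (D : Fam T E)

/-- weighted integral -/
noncomputable def I (f : ℂ → ℝ) : ℝ := ∫ x in T.Int, D.ζ x * f x

theorem integrable {f : ℂ → ℝ} (hf : Continuous f) :
    Integrable (fun x => D.ζ x * f x) (volume.restrict T.Int) :=
  integrable_of_continuous T (D.hζ.continuous.mul hf)

theorem I_add {f f' : ℂ → ℝ} (hf : Continuous f) (hf' : Continuous f') :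
    D.I f + D.I f' = D.I fun x => f x + f' x := by
  simp only [I, mul_add]
  exact (integral_add (D.integrable hf) (D.integrable hf')).symm

theorem I_sub {f f' : ℂ → ℝ} (hf : Continuous f) (hf' : Continuous f') :
    D.I f - D.I f' = D.I fun x => f x - f' x := by
  simp only [I, mul_sub]
  exact (integral_sub (D.integrable hf) (D.integrable hf')).symm

theorem I_mul (c : ℝ) (f : ℂ → ℝ) : c * D.I f = D.I fun x => c * f x := by
  simp only [I, mul_left_comm _ c]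
  exact (integral_const_mul _ _).symm

theorem I_nonneg {f : ℂ → ℝ} (hf : ∀ x, 0 ≤ f x) : 0 ≤ D.I f :=
  integral_nonneg fun x => mul_nonneg (D.ζ0 x) (hf x)

theorem I_mono {f f' : ℂ → ℝ} (hf : Continuous f) (hf' : Continuous f') (h : ∀ x, f x ≤ f' x) :
    D.I f ≤ D.I f' :=
  integral_mono (D.integrable hf) (D.integrable hf') fun x =>
    mul_le_mul_of_nonneg_left (h x) (D.ζ0 x)

theorem abs_I_le {f f' : ℂ → ℝ} (hf : Continuous f) (hf' : Continuous f')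
    (h : ∀ x, |f x| ≤ f' x) : |D.I f| ≤ D.I f' := by
  rw [abs_le]
  refine ⟨?_, D.I_mono hf hf' fun x => (le_abs_self _).trans (h x)⟩
  rw [← neg_one_mul, I_mul]
  refine D.I_mono (continuous_const.mul hf') hf fun x => ?_
  have := (abs_le.1 (h x)).1
  linarith

theorem cz (m : ℤ) : Continuous (dz (D.g m)) := continuous_dz (D.hg m)
theorem cb (m : ℤ) : Continuous (db (D.g m)) := continuous_db (D.hg m)
theorem cg (m : ℤ) : Continuous (D.g m) := (D.hg m).continuous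
theorem ch (m : ℤ) : Continuous (D.h m) := (D.hh m).continuous
theorem cd (m : ℤ) (u : ℂ) : Continuous fun x => fderiv ℝ (D.g m) x u :=
  (contDiff_fderiv_apply (D.hg m) u).continuous
theorem cζ : Continuous fun x => ‖fderiv ℝ D.ζ x‖ := (D.hζ.continuous_fderiv (by simp)).norm

/-- the defect in the transport equation -/
noncomputable def s (n : ℤ) (x : ℂ) : E := dz (D.g (n - 1)) x + db (D.g (n + 1)) x - D.h n x

theorem cs (n : ℤ) : Continuous (D.s n) := ((D.cz _).add (D.cb _)).sub (D.ch _)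

noncomputable def P (m : ℤ) (x : ℂ) : ℝ := ‖dz (D.g m) x‖ ^ 2 + ‖db (D.g (-m)) x‖ ^ 2
noncomputable def Q (m : ℤ) (x : ℂ) : ℝ := ‖db (D.g m) x‖ ^ 2 + ‖dz (D.g (-m)) x‖ ^ 2
noncomputable def Y (n : ℤ) (x : ℂ) : ℝ :=
  (⟪dz (D.g n) x, D.h (n + 1) x⟫_ℂ).re + (⟪db (D.g (-n)) x, D.h (-(n + 1)) x⟫_ℂ).re
noncomputable def Z (n : ℤ) (x : ℂ) : ℝ :=
  (⟪db (D.g (n + 1)) x, D.h n x⟫_ℂ).re + (⟪dz (D.g (-(n + 1))) x, D.h (-n) x⟫_ℂ).re
noncomputable def A (n : ℤ) (x : ℂ) : ℝ :=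
  ‖D.h n x + D.s n x‖ ^ 2 + ‖D.h (-n) x + D.s (-n) x‖ ^ 2
noncomputable def R (n : ℤ) (x : ℂ) : ℝ :=
  (‖dz (D.g (n - 1)) x‖ + ‖db (D.g (n + 1)) x‖) * ‖D.s n x‖

theorem cP (m : ℤ) : Continuous (D.P m) := ((D.cz _).norm.pow 2).add ((D.cb _).norm.pow 2)
theorem cQ (m : ℤ) : Continuous (D.Q m) := ((D.cb _).norm.pow 2).add ((D.cz _).norm.pow 2)
theorem cY (m : ℤ) : Continuous (D.Y m) :=
  (Complex.continuous_re.comp ((D.cz _).inner (D.ch _))).add
    (Complex.continuous_re.comp ((D.cb _).inner (D.ch _)))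
theorem cZ (m : ℤ) : Continuous (D.Z m) :=
  (Complex.continuous_re.comp ((D.cb _).inner (D.ch _))).add
    (Complex.continuous_re.comp ((D.cz _).inner (D.ch _)))
theorem cA (m : ℤ) : Continuous (D.A m) :=
  (((D.ch _).add (D.cs _)).norm.pow 2).add (((D.ch _).add (D.cs _)).norm.pow 2)
theorem cR (m : ℤ) : Continuous (D.R m) := ((D.cz _).norm.add (D.cb _).norm).mul (D.cs _).norm

theorem h_add_s (n : ℤ) (x : ℂ) :
    D.h n x + D.s n x = dz (D.g (n - 1)) x + db (D.g (n + 1)) x := by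
  rw [s, add_sub_cancel]

theorem skew_dz (m n : ℤ) (x : ℂ) : ⟪D.g m x, dz (D.h n) x⟫_ℂ = -⟪D.h m x, dz (D.g n) x⟫_ℂ := by
  simp only [dz, inner_smul_right, inner_sub_right, D.skew]
  ring

theorem skew_db (m n : ℤ) (x : ℂ) : ⟪D.g m x, db (D.h n) x⟫_ℂ = -⟪D.h m x, db (D.g n) x⟫_ℂ := by
  simp only [db, inner_smul_right, inner_add_right, D.skew]
  ring

theorem fourier_conj_mul (m : ℤ) (β : Ang) : conj (fourier m β : ℂ) * fourier m β = 1 := by
  rw [← fourier_neg, ← fourier_add, neg_add_cancel, fourier_zero]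

theorem first (m : ℤ) : |D.I (D.P m) - D.I (D.Q m)| ≤ ∫ x in T.Int, ‖fderiv ℝ D.ζ x‖ *
    (‖D.g m x‖ * (‖fderiv ℝ (D.g m) x 1‖ + ‖fderiv ℝ (D.g m) x Complex.I‖) +
      ‖D.g (-m) x‖ * (‖fderiv ℝ (D.g (-m)) x 1‖ + ‖fderiv ℝ (D.g (-m)) x Complex.I‖)) := by
  have c : ∀ (m : ℤ) (u : ℂ), ContDiff ℝ ∞ fun z => (⟪D.g m z, fderiv ℝ (D.g m) z u⟫_ℂ).im :=
    fun m u => contDiff_im ((D.hg m).inner ℂ (contDiff_fderiv_apply (D.hg m) u))
  have h := green_bound T D.hζ ((c m Complex.I).sub (c (-m) Complex.I)) ((c (-m) 1).sub (c m 1))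
    fun j z hz hj h0 => by
      obtain ⟨h1, -, h3⟩ := D.sym j z hz hj h0 m
      have e : ∀ m, (⟪D.g m z, fderiv ℝ (D.g m) z (Complex.I * T.ν j)⟫_ℂ).im =
          (T.ν j).re * (⟪D.g m z, fderiv ℝ (D.g m) z Complex.I⟫_ℂ).im -
          (T.ν j).im * (⟪D.g m z, fderiv ℝ (D.g m) z 1⟫_ℂ).im := fun m => by
        have : Complex.I * T.ν j = (T.ν j).re • Complex.I - (T.ν j).im • (1 : ℂ) := by
          apply Complex.ext <;> simp
        rw [this, map_sub, map_smul, map_smul, ← Complex.coe_smul, ← Complex.coe_smul,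
          inner_sub_right, inner_smul_right, inner_smul_right]
        simp
      have e3 := e m
      have e4 : ⟪D.g (-m) z, fderiv ℝ (D.g (-m)) z (Complex.I * T.ν j)⟫_ℂ =
          ⟪D.g m z, fderiv ℝ (D.g m) z (Complex.I * T.ν j)⟫_ℂ := by
        rw [h1, h3, inner_smul_left, inner_smul_right, ← mul_assoc, fourier_conj_mul, one_mul]
      have e5 := e (-m)
      rw [e4, e3] at e5
      linear_combination e5
  have e : ∀ z, fderiv ℝ (fun z => (⟪D.g m z, fderiv ℝ (D.g m) z Complex.I⟫_ℂ).im -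
      (⟪D.g (-m) z, fderiv ℝ (D.g (-m)) z Complex.I⟫_ℂ).im) z 1 +
      fderiv ℝ (fun z => (⟪D.g (-m) z, fderiv ℝ (D.g (-m)) z 1⟫_ℂ).im -
        (⟪D.g m z, fderiv ℝ (D.g m) z 1⟫_ℂ).im) z Complex.I = 2 * (D.P m z - D.Q m z) := by
    intro z
    rw [fderiv_fun_sub (diff (c _ _) z) (diff (c _ _) z), fderiv_fun_sub (diff (c _ _) z)
      (diff (c _ _) z), sub_apply, sub_apply, P, Q]
    linear_combination div_current (D.hg m) z - div_current (D.hg (-m)) z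
  simp only [e] at h
  change |D.I fun z => 2 * (D.P m z - D.Q m z)| ≤ _ at h
  rw [← I_mul, ← I_sub _ (D.cP m) (D.cQ m), abs_mul, abs_two] at h
  refine (le_mul_of_one_le_left (abs_nonneg _) one_le_two).trans (h.trans (integral_mono
    (integrable_of_continuous T (D.cζ.mul (((c _ _).sub (c _ _)).continuous.abs.add
      ((c _ _).sub (c _ _)).continuous.abs)))
    (integrable_of_continuous T (D.cζ.mul (((D.cg _).norm.mul ((D.cd _ _).norm.add
      (D.cd _ _).norm)).add ((D.cg _).norm.mul ((D.cd _ _).norm.add (D.cd _ _).norm)))))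
    fun z => mul_le_mul_of_nonneg_left ?_ (norm_nonneg _)))
  have a1 := abs_im_inner_le (D.g m z) (fderiv ℝ (D.g m) z 1)
  have a2 := abs_im_inner_le (D.g m z) (fderiv ℝ (D.g m) z Complex.I)
  have a3 := abs_im_inner_le (D.g (-m) z) (fderiv ℝ (D.g (-m)) z 1)
  have a4 := abs_im_inner_le (D.g (-m) z) (fderiv ℝ (D.g (-m)) z Complex.I)
  refine (add_le_add (abs_sub _ _) (abs_sub _ _)).trans ?_
  linarith

theorem second (n : ℤ) : |D.I (D.Z n) - D.I (D.Y n)| ≤ ∫ x in T.Int, ‖fderiv ℝ D.ζ x‖ *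
    (‖D.g (n + 1) x‖ * ‖D.h n x‖ + ‖D.g (-(n + 1)) x‖ * ‖D.h (-n) x‖) := by
  have c : ∀ m k : ℤ, ContDiff ℝ ∞ fun z => (⟪D.g m z, D.h k z⟫_ℂ).re :=
    fun m k => contDiff_re ((D.hg m).inner ℂ (D.hh k))
  have c' : ∀ m k : ℤ, ContDiff ℝ ∞ fun z => (⟪D.g m z, D.h k z⟫_ℂ).im :=
    fun m k => contDiff_im ((D.hg m).inner ℂ (D.hh k))
  have h := green_bound T D.hζ ((c (n + 1) n).add (c (-(n + 1)) (-n)))
    ((c' (n + 1) n).sub (c' (-(n + 1)) (-n))) fun j z hz hj h0 => by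
      have h1 := (D.sym j z hz hj h0 (n + 1)).1
      have h2 := (D.sym j z hz hj h0 n).2.1
      have e1 : conj (fourier (n + 1) (T.σ j).β : ℂ) * fourier n (T.σ j).β =
          -(conj (T.ν j) * conj (T.ν j)) := by
        rw [fourier_add, map_mul, mul_right_comm, fourier_conj_mul, one_mul, ← e_eq_fourier,
          T.e_σβ, map_neg, map_mul]
      have e2 : (T.ν j).re * (T.ν j).re + (T.ν j).im * (T.ν j).im = 1 := by
        rw [← Complex.normSq_apply, Complex.normSq_eq_norm_sq, T.norm_ν, one_pow]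
      rw [h1, h2, inner_smul_left, inner_smul_right, ← mul_assoc, e1]
      simp only [Complex.mul_re, Complex.mul_im, Complex.neg_re, Complex.neg_im, Complex.conj_re,
        Complex.conj_im]
      linear_combination (-(T.ν j).re * (⟪D.g (n + 1) z, D.h n z⟫_ℂ).re -
        (T.ν j).im * (⟪D.g (n + 1) z, D.h n z⟫_ℂ).im) * e2
  have e : ∀ z, fderiv ℝ (fun z => (⟪D.g (n + 1) z, D.h n z⟫_ℂ).re +
      (⟪D.g (-(n + 1)) z, D.h (-n) z⟫_ℂ).re) z 1 +
      fderiv ℝ (fun z => (⟪D.g (n + 1) z, D.h n z⟫_ℂ).im -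
        (⟪D.g (-(n + 1)) z, D.h (-n) z⟫_ℂ).im) z Complex.I = 2 * (D.Z n z - D.Y n z) := by
    intro z
    rw [fderiv_fun_add (diff (c _ _) z) (diff (c _ _) z), fderiv_fun_sub (diff (c' _ _) z)
      (diff (c' _ _) z), add_apply, sub_apply, Z, Y]
    have a1 := div_pair (D.hg (n + 1)) (D.hh n) z
    have a2 := div_pair' (D.hg (-(n + 1))) (D.hh (-n)) z
    rw [skew_dz, Complex.neg_re, re_inner_symm (D.h _ z)] at a1
    rw [skew_db, Complex.neg_re, re_inner_symm (D.h _ z)] at a2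
    linear_combination a1 + a2
  simp only [e] at h
  change |D.I fun z => 2 * (D.Z n z - D.Y n z)| ≤ _ at h
  rw [← I_mul, ← I_sub _ (D.cZ n) (D.cY n), abs_mul, abs_two] at h
  refine le_of_mul_le_mul_left (h.trans ?_) two_pos
  rw [← integral_const_mul]
  refine integral_mono
    (integrable_of_continuous T (D.cζ.mul (((c _ _).add (c _ _)).continuous.abs.add
      ((c' _ _).sub (c' _ _)).continuous.abs)))
    (integrable_of_continuous T (continuous_const.mul (D.cζ.mul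
      (((D.cg _).norm.mul (D.ch _).norm).add ((D.cg _).norm.mul (D.ch _).norm)))))
    fun z => ?_
  have a1 := abs_re_inner_le (D.g (n + 1) z) (D.h n z)
  have a2 := abs_im_inner_le (D.g (n + 1) z) (D.h n z)
  have a3 := abs_re_inner_le (D.g (-(n + 1)) z) (D.h (-n) z)
  have a4 := abs_im_inner_le (D.g (-(n + 1)) z) (D.h (-n) z)
  dsimp only
  rw [mul_left_comm]
  refine mul_le_mul_of_nonneg_left ((add_le_add (abs_add_le _ _) (abs_sub _ _)).trans ?_)
    (norm_nonneg _)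
  linarith

theorem third (n : ℤ) (x : ℂ) :
    |D.P (n - 1) x - D.Q (n + 1) x - D.Y (n - 1) x + D.Z n x| ≤ D.R n x + D.R (-n) x := by
  have e1 := re_inner_sub_add (dz (D.g (n - 1)) x) (db (D.g (n + 1)) x)
  have e2 := re_inner_sub_add (dz (D.g (-n - 1)) x) (db (D.g (-n + 1)) x)
  rw [← h_add_s, inner_add_right, Complex.add_re, inner_sub_left _ _ (D.h _ x), Complex.sub_re]
    at e1 e2
  have a1 := (abs_re_inner_le _ (D.s n x)).trans (mul_le_mul_of_nonneg_right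
    (norm_sub_le (dz (D.g (n - 1)) x) (db (D.g (n + 1)) x)) (norm_nonneg _))
  have a2 := (abs_re_inner_le _ (D.s (-n) x)).trans (mul_le_mul_of_nonneg_right
    (norm_sub_le (dz (D.g (-n - 1)) x) (db (D.g (-n + 1)) x)) (norm_nonneg _))
  refine le_trans (le_of_eq ?_) ((abs_sub _ _).trans (add_le_add a1 a2))
  congr 1
  simp only [P, Q, Y, Z, sub_add_cancel, show -(n - 1) = -n + 1 by ring,
    show -(n + 1) = -n - 1 by ring]
  linarith

theorem fourth (n : ℤ) (x : ℂ) :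
    |D.A n x - D.Y (n - 1) x - D.Z n x| ≤ D.R n x + D.R (-n) x := by
  have e : ∀ n, ‖D.h n x + D.s n x‖ ^ 2 = (⟪dz (D.g (n - 1)) x, D.h n x⟫_ℂ).re +
      (⟪db (D.g (n + 1)) x, D.h n x⟫_ℂ).re +
      (⟪dz (D.g (n - 1)) x + db (D.g (n + 1)) x, D.s n x⟫_ℂ).re := fun n => by
    rw [← re_inner_self, inner_add_right, h_add_s, inner_add_left _ _ (D.h _ x), Complex.add_re,
      Complex.add_re]
  have a1 := (abs_re_inner_le _ (D.s n x)).trans (mul_le_mul_of_nonneg_right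
    (norm_add_le (dz (D.g (n - 1)) x) (db (D.g (n + 1)) x)) (norm_nonneg _))
  have a2 := (abs_re_inner_le _ (D.s (-n) x)).trans (mul_le_mul_of_nonneg_right
    (norm_add_le (dz (D.g (-n - 1)) x) (db (D.g (-n + 1)) x)) (norm_nonneg _))
  refine le_trans (le_of_eq ?_) ((abs_add_le _ _).trans (add_le_add a1 a2))
  congr 1
  simp only [A, Y, Z, e, sub_add_cancel, show -(n - 1) = -n + 1 by ring,
    show -(n + 1) = -n - 1 by ring]
  ring

theorem A_le (n : ℤ) (x : ℂ) : D.A n x ≤ 2 * D.P (n - 1) x + 2 * D.Q (n + 1) x := by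
  have e : ∀ a b : E, ‖a + b‖ ^ 2 ≤ 2 * ‖a‖ ^ 2 + 2 * ‖b‖ ^ 2 := fun a b => by
    have := pow_le_pow_left₀ (norm_nonneg _) (norm_add_le a b) 2
    nlinarith [sq_nonneg (‖a‖ - ‖b‖)]
  have a1 := e (dz (D.g (n - 1)) x) (db (D.g (n + 1)) x)
  have a2 := e (dz (D.g (-n - 1)) x) (db (D.g (-n + 1)) x)
  simp only [A, P, Q, h_add_s, show -(n - 1) = -n + 1 by ring, show -(n + 1) = -n - 1 by ring]
  linarith

end Fam

end Crest.Agent.R103.EnergyAux
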