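import Crest.Agent.R103.EnergyB

/-! Row 103: summation of the error terms of the energy estimate. -/

set_option autoImplicit false
set_option linter.unusedSectionVars false

namespace Crest.Agent.R103.EnergyAux

open MeasureTheory Set Filter Topology
open scoped ENNReal ComplexConjugate InnerProductSpace ContDiff

variable {T : Tri} {E : Type} [NormedAddCommGroup E] [InnerProductSpace ℂ E]

/-- The quantitative hypotheses. -/
structure Bnd (D : Fam T E) (M K t : ℝ) where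
  Φ : ℂ → ℝ
  Ψ : ℂ → ℝ
  U : Set ℂ
  U' : Set ℂ
  t_pos : 0 < t
  bg : ∀ x (s : Finset ℤ), ∑ m ∈ s, ‖D.g m x‖ ^ 2 ≤ M
  bh : ∀ x (s : Finset ℤ), ∑ m ∈ s, ‖D.h m x‖ ^ 2 ≤ M
  bΦ : ∀ x (s : Finset ℤ), ∑ m ∈ s, gr (D.g m) x ≤ Φ x
  bΨ : ∀ x (s : Finset ℤ), ∑ m ∈ s, ‖D.s m x‖ ^ 2 ≤ Ψ x
  iΦ : Integrable Φ (volume.restrict T.Int)
  iΨ : Integrable (fun x => D.ζ x * Ψ x) (volume.restrict T.Int)
  mU : MeasurableSet U
  mU' : MeasurableSet U'
  hU : ∀ x, x ∉ U → fderiv ℝ D.ζ x = 0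
  hK : ∫ x in T.Int, ‖fderiv ℝ D.ζ x‖ ^ 2 ≤ K
  vU : volume U ≤ ENNReal.ofReal (t ^ 2)
  ΦU : ∫ x in U, Φ x ∂(volume.restrict T.Int) ≤ 7 * t ^ 2
  sU' : ∀ᵐ x ∂(volume.restrict T.Int), x ∉ U' → ∀ n, D.s n x = 0
  ΦU' : ∫ x in U', Φ x ∂(volume.restrict T.Int) ≤ 7 * K
  Ψt : ∫ x in T.Int, D.ζ x * Ψ x ≤ 7 * t ^ 2
  Ψ1 : ∫ x in T.Int, D.ζ x * Ψ x ≤ 7

theorem inj_neg : Function.Injective fun n : ℤ => -n := neg_injective
theorem inj_add : Function.Injective fun n : ℤ => n + 1 := fun _ _ h => by simpa using h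
theorem inj_sub : Function.Injective fun n : ℤ => n - 1 := fun _ _ h => by simpa using h
theorem inj_neg_add : Function.Injective fun n : ℤ => -(n + 1) := fun _ _ h => by simpa using h

namespace Bnd

variable {D : Fam T E} {M K t : ℝ} (B : Bnd D M K t)
include B

theorem M_nonneg : 0 ≤ M := by simpa using B.bg 0 ∅

theorem K_nonneg : 0 ≤ K := (integral_nonneg fun _ => sq_nonneg _).trans B.hK

theorem iζ : Integrable (fun x => ‖fderiv ℝ D.ζ x‖ ^ 2) (volume.restrict T.Int) :=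
  integrable_of_continuous T (D.cζ.pow 2)

theorem sum_first (s : Finset ℤ) :
    ∑ m ∈ s, |D.I (D.P m) - D.I (D.Q m)| ≤ t * (2 * M * K + 7) := by
  have ht := B.t_pos
  refine (sum_le_integral (B := fun x => 2 * t * M * ‖fderiv ℝ D.ζ x‖ ^ 2 +
    t⁻¹ * B.U.indicator B.Φ x) (fun m => integrable_of_continuous T (D.cζ.mul
      (((D.cg _).norm.mul ((D.cd _ _).norm.add (D.cd _ _).norm)).add
      ((D.cg _).norm.mul ((D.cd _ _).norm.add (D.cd _ _).norm))))) D.first
    ((B.iζ.const_mul _).add ((B.iΦ.indicator B.mU).const_mul _))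
    (fun s => Eventually.of_forall fun x => ?_) s).trans ?_
  · by_cases hx : x ∈ B.U
    · have key : ∀ m, ‖fderiv ℝ D.ζ x‖ * (‖D.g m x‖ * (‖fderiv ℝ (D.g m) x 1‖ +
          ‖fderiv ℝ (D.g m) x Complex.I‖)) ≤ t * ‖fderiv ℝ D.ζ x‖ ^ 2 * ‖D.g m x‖ ^ 2 +
          (2 * t)⁻¹ * gr (D.g m) x := fun m => by
        have a1 := amgm ht (‖fderiv ℝ D.ζ x‖ * ‖D.g m x‖) ‖fderiv ℝ (D.g m) x 1‖
        have a2 := amgm ht (‖fderiv ℝ D.ζ x‖ * ‖D.g m x‖) ‖fderiv ℝ (D.g m) x Complex.I‖
        rw [gr]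
        rw [div_eq_inv_mul _ (2 * t)] at a1 a2
        linarith
      have key2 : ∀ s : Finset ℤ, ∑ m ∈ s, ‖fderiv ℝ D.ζ x‖ * (‖D.g m x‖ *
          (‖fderiv ℝ (D.g m) x 1‖ + ‖fderiv ℝ (D.g m) x Complex.I‖)) ≤
          t * ‖fderiv ℝ D.ζ x‖ ^ 2 * M + (2 * t)⁻¹ * B.Φ x := fun s => by
        refine (Finset.sum_le_sum fun m _ => key m).trans ?_
        rw [Finset.sum_add_distrib, ← Finset.mul_sum, ← Finset.mul_sum]
        exact add_le_add (mul_le_mul_of_nonneg_left (B.bg x s) (by positivity))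
          (mul_le_mul_of_nonneg_left (B.bΦ x s) (by positivity))
      have a1 := key2 s
      have a2 := sum_shift key2 inj_neg s
      dsimp only [Pi.mul_apply, Pi.add_apply]
      simp only [mul_add ‖fderiv ℝ D.ζ x‖, Finset.sum_add_distrib, indicator_of_mem hx]
      rw [mul_inv] at a1 a2
      linarith
    · simp [B.hU x hx, indicator_of_notMem hx]
  · rw [integral_add (B.iζ.const_mul _) ((B.iΦ.indicator B.mU).const_mul _), integral_const_mul,
      integral_const_mul, integral_indicator B.mU]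
    have a1 := mul_le_mul_of_nonneg_left B.hK (show 0 ≤ 2 * t * M by
      have := B.M_nonneg; positivity)
    have a2 := mul_le_mul_of_nonneg_left B.ΦU (show 0 ≤ t⁻¹ by positivity)
    have a3 : t⁻¹ * (7 * t ^ 2) = 7 * t := by field_simp
    linarith

theorem sum_second (s : Finset ℤ) :
    ∑ n ∈ s, |D.I (D.Z n) - D.I (D.Y n)| ≤ t * (M * K + M) := by
  have ht := B.t_pos
  have hM := B.M_nonneg
  have := finite_int T
  have i1 : Integrable (B.U.indicator fun _ => (1 : ℝ)) (volume.restrict T.Int) :=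
    (integrable_const _).indicator B.mU
  refine (sum_le_integral (B := fun x => t * M * ‖fderiv ℝ D.ζ x‖ ^ 2 +
    t⁻¹ * M * B.U.indicator (fun _ => (1 : ℝ)) x) (fun m => integrable_of_continuous T (D.cζ.mul
      (((D.cg _).norm.mul (D.ch _).norm).add ((D.cg _).norm.mul (D.ch _).norm)))) D.second
    ((B.iζ.const_mul _).add (i1.const_mul _))
    (fun s => Eventually.of_forall fun x => ?_) s).trans ?_
  · by_cases hx : x ∈ B.U
    · have key : ∀ n, ‖D.g (n + 1) x‖ * ‖D.h n x‖ + ‖D.g (-(n + 1)) x‖ * ‖D.h (-n) x‖ ≤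
          (‖D.g (n + 1) x‖ ^ 2 + ‖D.h n x‖ ^ 2 + ‖D.g (-(n + 1)) x‖ ^ 2 + ‖D.h (-n) x‖ ^ 2) / 2 :=
        fun n => by
          nlinarith [sq_nonneg (‖D.g (n + 1) x‖ - ‖D.h n x‖),
            sq_nonneg (‖D.g (-(n + 1)) x‖ - ‖D.h (-n) x‖)]
      have a1 := sum_shift (B.bg x) inj_add s
      have a2 := B.bh x s
      have a3 := sum_shift (B.bg x) inj_neg_add s
      have a4 := sum_shift (B.bh x) inj_neg s
      have a5 := Finset.sum_le_sum fun n (_ : n ∈ s) => key n
      rw [← Finset.sum_div] at a5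
      simp only [Finset.sum_add_distrib] at a5
      dsimp only [Pi.mul_apply, Pi.add_apply]
      rw [← Finset.mul_sum, Finset.sum_add_distrib, indicator_of_mem hx]
      have a6 := mul_le_mul_of_nonneg_left (a5.trans (show _ ≤ 2 * M by linarith))
        (norm_nonneg (fderiv ℝ D.ζ x))
      have a7 := mul_le_mul_of_nonneg_left (amgm ht ‖fderiv ℝ D.ζ x‖ 1) hM
      rw [div_eq_inv_mul _ (2 * t), mul_inv] at a7
      linarith
    · simp [B.hU x hx, indicator_of_notMem hx]
  · rw [integral_add (B.iζ.const_mul _) (i1.const_mul _), integral_const_mul,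
      integral_const_mul, integral_indicator B.mU, integral_const, smul_eq_mul, mul_one]
    have a1 := mul_le_mul_of_nonneg_left B.hK (show 0 ≤ t * M by positivity)
    have a0 : ((volume.restrict T.Int).restrict B.U).real univ ≤ t ^ 2 := by
      rw [measureReal_def, Measure.restrict_apply_univ]
      exact ENNReal.toReal_le_of_le_ofReal (by positivity)
        ((Measure.restrict_apply_le _ _).trans B.vU)
    have a2 := mul_le_mul_of_nonneg_left a0 (show 0 ≤ t⁻¹ * M by positivity)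
    have a3 : t⁻¹ * M * t ^ 2 = t * M := by field_simp
    linarith

theorem sum_R (s : Finset ℤ) :
    ∑ n ∈ s, D.I (fun x => D.R n x + D.R (-n) x) ≤ t * (7 * K + 14) := by
  have ht := B.t_pos
  refine (sum_le_integral (B := fun x => t * B.U'.indicator B.Φ x + 2 * t⁻¹ * (D.ζ x * B.Ψ x))
    (f := fun n x => D.ζ x * (D.R n x + D.R (-n) x))
    (fun m => D.integrable ((D.cR m).add (D.cR (-m)))) (fun _ => le_rfl)
    (((B.iΦ.indicator B.mU').const_mul _).add (B.iΨ.const_mul _))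
    (fun s => B.sU'.mono fun x hs => ?_) s).trans ?_
  · by_cases hx : x ∈ B.U'
    · have key : ∀ n, D.ζ x * D.R n x ≤ t / 4 * (gr (D.g (n - 1)) x + gr (D.g (n + 1)) x) +
          t⁻¹ * D.ζ x * ‖D.s n x‖ ^ 2 := fun n => by
        have a1 := amgm ht ‖dz (D.g (n - 1)) x‖ ‖D.s n x‖
        have a2 := amgm ht ‖db (D.g (n + 1)) x‖ ‖D.s n x‖
        have a3 := mul_le_mul_of_nonneg_left (norm_dz_sq_le (D.g (n - 1)) x) ht.le
        have a4 := mul_le_mul_of_nonneg_left (norm_db_sq_le (D.g (n + 1)) x) ht.le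
        rw [div_eq_inv_mul _ (2 * t), mul_inv] at a1 a2
        have a5 : D.R n x ≤ t / 4 * (gr (D.g (n - 1)) x + gr (D.g (n + 1)) x) +
            t⁻¹ * ‖D.s n x‖ ^ 2 := by
          rw [Fam.R]
          linarith
        have a6 := mul_le_mul_of_nonneg_left a5 (D.ζ0 x)
        have a7 := mul_le_of_le_one_left (show 0 ≤ t / 4 * (gr (D.g (n - 1)) x +
          gr (D.g (n + 1)) x) from mul_nonneg (by positivity)
            (add_nonneg (gr_nonneg _ _) (gr_nonneg _ _))) (D.ζ1 x)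
        linarith
      have key2 : ∀ s : Finset ℤ, ∑ n ∈ s, D.ζ x * D.R n x ≤
          t / 4 * (B.Φ x + B.Φ x) + t⁻¹ * D.ζ x * B.Ψ x := fun s => by
        refine (Finset.sum_le_sum fun m _ => key m).trans ?_
        rw [Finset.sum_add_distrib, ← Finset.mul_sum, ← Finset.mul_sum, Finset.sum_add_distrib]
        exact add_le_add (mul_le_mul_of_nonneg_left (add_le_add (sum_shift (B.bΦ x) inj_sub s)
          (sum_shift (B.bΦ x) inj_add s)) (by positivity))
          (mul_le_mul_of_nonneg_left (B.bΨ x s) (mul_nonneg (by positivity) (D.ζ0 x)))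
      have a1 := key2 s
      have a2 := sum_shift key2 inj_neg s
      simp only [mul_add (D.ζ x), Finset.sum_add_distrib, indicator_of_mem hx]
      linarith
    · have a1 : 0 ≤ B.Ψ x := by simpa using B.bΨ x ∅
      have a2 := D.ζ0 x
      simp only [Fam.R, hs hx, indicator_of_notMem hx, norm_zero, mul_zero, add_zero,
        Finset.sum_const_zero, zero_add]
      positivity
  · rw [integral_add ((B.iΦ.indicator B.mU').const_mul _) (B.iΨ.const_mul _), integral_const_mul,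
      integral_const_mul, integral_indicator B.mU']
    have a1 := mul_le_mul_of_nonneg_left B.ΦU' ht.le
    have a2 := mul_le_mul_of_nonneg_left B.Ψt (show 0 ≤ 2 * t⁻¹ by positivity)
    have a3 : 2 * t⁻¹ * (7 * t ^ 2) = 14 * t := by field_simp; ring
    linarith

theorem sum_A (s : Finset ℤ) :
    ∑ n ∈ s, D.I (D.A n) ≤ 4 * M * (volume.restrict T.Int).real univ + 28 := by
  have := finite_int T
  refine (sum_le_integral (B := fun x => 4 * M + 4 * (D.ζ x * B.Ψ x))
    (fun m => D.integrable (D.cA m)) (fun _ => le_rfl)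
    ((integrable_const _).add (B.iΨ.const_mul _))
    (fun s => Eventually.of_forall fun x => ?_) s).trans ?_
  · have key : ∀ n, D.ζ x * ‖D.h n x + D.s n x‖ ^ 2 ≤
        2 * ‖D.h n x‖ ^ 2 + 2 * D.ζ x * ‖D.s n x‖ ^ 2 := fun n => by
      have a1 := pow_le_pow_left₀ (norm_nonneg _) (norm_add_le (D.h n x) (D.s n x)) 2
      have a2 : ‖D.h n x + D.s n x‖ ^ 2 ≤ 2 * ‖D.h n x‖ ^ 2 + 2 * ‖D.s n x‖ ^ 2 := by
        nlinarith [sq_nonneg (‖D.h n x‖ - ‖D.s n x‖)]
      have a3 := mul_le_mul_of_nonneg_left a2 (D.ζ0 x)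
      have a4 := mul_le_of_le_one_left (sq_nonneg ‖D.h n x‖) (D.ζ1 x)
      linarith
    have key2 : ∀ s : Finset ℤ, ∑ n ∈ s, D.ζ x * ‖D.h n x + D.s n x‖ ^ 2 ≤
        2 * M + 2 * D.ζ x * B.Ψ x := fun s => by
      refine (Finset.sum_le_sum fun m _ => key m).trans ?_
      rw [Finset.sum_add_distrib, ← Finset.mul_sum, ← Finset.mul_sum]
      exact add_le_add (mul_le_mul_of_nonneg_left (B.bh x s) (by positivity))
        (mul_le_mul_of_nonneg_left (B.bΨ x s) (mul_nonneg (by positivity) (D.ζ0 x)))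
    have a1 := key2 s
    have a2 := sum_shift key2 inj_neg s
    simp only [Fam.A, mul_add (D.ζ x), Finset.sum_add_distrib]
    linarith
  · rw [integral_add (integrable_const _) (B.iΨ.const_mul _), integral_const, integral_const_mul,
      smul_eq_mul]
    have := B.Ψ1
    linarith

theorem tendsto_Q : Tendsto (fun m => D.I (D.Q m)) atBot (𝓝 0) := by
  refine tendsto_of_sum_le (sum_le_integral (B := B.Φ) (f := fun m x => D.ζ x * D.Q m x)
    (fun m => D.integrable (D.cQ m))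
    (fun m => (abs_of_nonneg (D.I_nonneg fun x => by unfold Fam.Q; positivity)).le) B.iΦ
    fun s => Eventually.of_forall fun x => ?_)
  have key : ∀ m, D.ζ x * D.Q m x ≤ (gr (D.g m) x + gr (D.g (-m)) x) / 2 := fun m => by
    have a1 := norm_db_sq_le (D.g m) x
    have a2 := norm_dz_sq_le (D.g (-m)) x
    have a3 := mul_le_of_le_one_left (show 0 ≤ D.Q m x by unfold Fam.Q; positivity) (D.ζ1 x)
    rw [Fam.Q] at a3 ⊢
    linarith
  refine (Finset.sum_le_sum fun m _ => key m).trans ?_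
  rw [← Finset.sum_div, Finset.sum_add_distrib]
  have a1 := B.bΦ x s
  have a2 := sum_shift (B.bΦ x) inj_neg s
  linarith

theorem tendsto_Y : Tendsto (fun m => D.I (D.Y m)) atBot (𝓝 0) := by
  have := finite_int T
  refine tendsto_of_sum_le (sum_le_integral (B := fun x => B.Φ x + M)
    (f := fun m x => D.ζ x * |D.Y m x|) (fun m => D.integrable (D.cY m).abs)
    (fun m => D.abs_I_le (D.cY m) (D.cY m).abs fun _ => le_rfl) (B.iΦ.add (integrable_const _))
    fun s => Eventually.of_forall fun x => ?_)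
  have key : ∀ m, D.ζ x * |D.Y m x| ≤ (gr (D.g m) x + gr (D.g (-m)) x + ‖D.h (m + 1) x‖ ^ 2 +
      ‖D.h (-(m + 1)) x‖ ^ 2) / 2 := fun m => by
    have a1 := norm_dz_sq_le (D.g m) x
    have a2 := norm_db_sq_le (D.g (-m)) x
    have a3 := mul_le_of_le_one_left (abs_nonneg (D.Y m x)) (D.ζ1 x)
    have a4 : |D.Y m x| ≤ _ := (abs_add_le _ _).trans (add_le_add (abs_re_inner_le _ _)
      (abs_re_inner_le _ _))
    nlinarith [sq_nonneg (‖dz (D.g m) x‖ - ‖D.h (m + 1) x‖),
      sq_nonneg (‖db (D.g (-m)) x‖ - ‖D.h (-(m + 1)) x‖), gr_nonneg (D.g m) x,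
      gr_nonneg (D.g (-m)) x]
  refine (Finset.sum_le_sum fun m _ => key m).trans ?_
  rw [← Finset.sum_div]
  simp only [Finset.sum_add_distrib]
  have a1 := B.bΦ x s
  have a2 := sum_shift (B.bΦ x) inj_neg s
  have a3 := sum_shift (B.bh x) inj_add s
  have a4 := sum_shift (B.bh x) inj_neg_add s
  linarith

theorem Q_le (m : ℤ) (N : ℕ) (hN : 1 ≤ N) : D.I (D.Q m) ≤
    (4 * M * (volume.restrict T.Int).real univ + 28) / N +
      20 * (N : ℝ) ^ 2 * (t * (2 * M * K + M + 7 * K + 14)) := by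
  have ht := B.t_pos
  have hM := B.M_nonneg
  have hK := B.K_nonneg
  have hMK := mul_nonneg hM hK
  refine seq_bound (fun m => D.I (D.P m)) (fun m => D.I (D.Q m)) (fun m => D.I (D.Y m))
    (fun m => D.I (D.A m)) (fun m => D.I (D.P m) - D.I (D.Q m))
    (fun n => D.I (D.P (n - 1)) - D.I (D.Q (n + 1)) - D.I (D.Y (n - 1)) + D.I (D.Y n))
    (fun n => D.I (D.A n) - D.I (D.Y (n - 1)) - D.I (D.Y n)) _ _
    (fun m => D.I_nonneg fun x => by unfold Fam.Q; positivity)
    (fun m => D.I_nonneg fun x => by unfold Fam.A; positivity) (fun _ => rfl)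
    (fun _ => by ring) (fun _ => by ring) (fun n => ?_) (fun s => (B.sum_first s).trans ?_)
    (fun s => ?_) (fun s => ?_) B.sum_A B.tendsto_Q B.tendsto_Y m N hN
  · rw [D.I_mul, D.I_mul,
      D.I_add (continuous_const.fun_mul (D.cP _)) (continuous_const.fun_mul (D.cQ _))]
    exact D.I_mono (D.cA n) ((continuous_const.mul (D.cP _)).add (continuous_const.mul (D.cQ _)))
      (D.A_le n)
  · exact mul_le_mul_of_nonneg_left (by linarith) ht.le
  · have key : ∀ n, |D.I (D.P (n - 1)) - D.I (D.Q (n + 1)) - D.I (D.Y (n - 1)) + D.I (D.Y n)| ≤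
        D.I (fun x => D.R n x + D.R (-n) x) + |D.I (D.Z n) - D.I (D.Y n)| := fun n => by
      have c1 := (D.cP (n - 1)).fun_sub (D.cQ (n + 1))
      have c2 := c1.fun_sub (D.cY (n - 1))
      have a1 := D.abs_I_le (c2.fun_add (D.cZ n)) ((D.cR n).fun_add (D.cR (-n))) (D.third n)
      rw [← D.I_add c2 (D.cZ n), ← D.I_sub c1 (D.cY _), ← D.I_sub (D.cP _) (D.cQ _)] at a1
      refine le_trans (le_of_eq ?_) ((abs_sub _ _).trans (add_le_add a1 le_rfl))
      congr 1
      ring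
    refine (Finset.sum_le_sum fun n _ => key n).trans ?_
    rw [Finset.sum_add_distrib]
    have a1 := B.sum_R s
    have a2 := B.sum_second s
    have a3 := mul_nonneg ht.le hMK
    linarith
  · have key : ∀ n, |D.I (D.A n) - D.I (D.Y (n - 1)) - D.I (D.Y n)| ≤
        D.I (fun x => D.R n x + D.R (-n) x) + |D.I (D.Z n) - D.I (D.Y n)| := fun n => by
      have c1 := (D.cA n).fun_sub (D.cY (n - 1))
      have a1 := D.abs_I_le (c1.fun_sub (D.cZ n)) ((D.cR n).fun_add (D.cR (-n))) (D.fourth n)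
      rw [← D.I_sub c1 (D.cZ n), ← D.I_sub (D.cA _) (D.cY _)] at a1
      refine le_trans (le_of_eq ?_) ((abs_add_le _ _).trans (add_le_add a1 le_rfl))
      congr 1
      ring
    refine (Finset.sum_le_sum fun n _ => key n).trans ?_
    rw [Finset.sum_add_distrib]
    have a1 := B.sum_R s
    have a2 := B.sum_second s
    have a3 := mul_nonneg ht.le hMK
    linarith

theorem gr_le (m : ℤ) (N : ℕ) (hN : 1 ≤ N) : D.I (gr (D.g m)) ≤
    4 * ((4 * M * (volume.restrict T.Int).real univ + 28) / N +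
      20 * (N : ℝ) ^ 2 * (t * (2 * M * K + M + 7 * K + 14))) := by
  have a1 := B.Q_le m N hN
  have a2 := B.Q_le (-m) N hN
  have a3 : D.I (gr (D.g m)) ≤ 2 * (D.I (D.Q m) + D.I (D.Q (-m))) := by
    rw [D.I_add (D.cQ _) (D.cQ _), D.I_mul]
    refine D.I_mono (continuous_gr (D.hg m)) (continuous_const.mul ((D.cQ _).add (D.cQ _)))
      fun x => ?_
    rw [gr_eq, Fam.Q, Fam.Q, neg_neg]
    nlinarith [sq_nonneg ‖dz (D.g (-m)) x‖, sq_nonneg ‖db (D.g (-m)) x‖]
  linarith

end Bnd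

end Crest.Agent.R103.EnergyAux
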