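import Crest.Agent.R103.BDefs
import Crest.Agent.R103.Flow

/-! Row 103: the model triangle and the comparison of the measures. -/

set_option autoImplicit false

namespace Crest.Agent.R103

open MeasureTheory Set Filter Topology
open scoped ENNReal ComplexConjugate InnerProductSpace ContDiff

open Crest.AnalysisR

namespace ModelAux

/-- twice the signed area -/
def det (v : Fin 3 → ℂ) : ℝ :=
  ((v 1).re - (v 0).re) * ((v 2).im - (v 0).im) - ((v 1).im - (v 0).im) * ((v 2).re - (v 0).re)

theorem det_ne_zero {v : Fin 3 → ℂ} (hv : AffineIndependent ℝ v) : det v ≠ 0 := by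
  intro h
  unfold det at h
  rw [affineIndependent_iff] at hv
  have key : ∀ a b : ℝ, a * ((v 1).re - (v 0).re) + b * ((v 2).re - (v 0).re) = 0 →
      a * ((v 1).im - (v 0).im) + b * ((v 2).im - (v 0).im) = 0 → a = 0 ∧ b = 0 := by
    intro a b h1 h2
    have := hv Finset.univ ![-a - b, a, b] (by simp [Fin.sum_univ_three]; ring) (by
      apply Complex.ext
      · simp [Fin.sum_univ_three]; linarith
      · simp [Fin.sum_univ_three]; linarith)
    exact ⟨by simpa using this 1 (Finset.mem_univ _), by simpa using this 2 (Finset.mem_univ _)⟩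
  have h1 := (key ((v 2).re - (v 0).re) (-((v 1).re - (v 0).re)) (by ring) (by linarith)).2
  have h2 := (key ((v 2).im - (v 0).im) (-((v 1).im - (v 0).im)) (by linarith) (by ring)).2
  have h3 := (key 1 0 (by linarith) (by linarith)).1
  exact one_ne_zero h3

/-- unnormalised inner normal -/
noncomputable def nor (v : Fin 3 → ℂ) (j : Fin 3) : ℂ :=
  det v • (Complex.I * (v (j + 2) - v (j + 1)))

theorem inner_nor (v : Fin 3 → ℂ) (j : Fin 3) (u : ℂ) : ⟪nor v j, u⟫_ℝ =
    det v * (((v (j + 2)).re - (v (j + 1)).re) * u.im -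
      ((v (j + 2)).im - (v (j + 1)).im) * u.re) := by
  rw [nor, real_inner_smul_left, Complex.inner]
  simp
  left; ring

theorem inner_nor_v (v : Fin 3 → ℂ) (i j : Fin 3) :
    ⟪nor v i, v j - v (i + 1)⟫_ℝ = if i = j then det v ^ 2 else 0 := by
  rw [inner_nor]
  fin_cases i <;> fin_cases j <;> simp [det] <;> first | ring1 | (right; ring1)

theorem sq_normal {ν b : ℂ} (hν : ‖ν‖ = 1) (h : ⟪ν, b⟫_ℝ = 0) :
    ν * ν * conj b = -b := by
  have h1 : ν * conj ν = 1 := by
    rw [Complex.mul_conj, Complex.normSq_eq_norm_sq, hν]; simp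
  have h2 : b * conj ν + conj b * ν = 0 := by
    rw [Complex.inner] at h
    have := Complex.add_conj (b * conj ν)
    rw [h] at this
    simpa using this
  linear_combination ν * h2 - b * h1

theorem fin_a : ∀ i : Fin 3, i + 1 + 1 = i + 2 ∧ i + 2 + 1 = i ∧ i + 1 ≠ i ∧ i + 2 ≠ i ∧
    i + 2 ≠ i + 1 := by decide

/-- the identification of the circles -/
noncomputable def embA (θ : Ang) : Metric.sphere (0 : Billiard.Plane) 1 := ⟨toP (e θ), by simp⟩

theorem continuous_embA : Continuous embA :=
  (toP.continuous.comp continuous_e).subtype_mk _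

theorem injective_embA : Function.Injective embA := fun _ _ h =>
  e_injective (toP.injective (congrArg Subtype.val h))

theorem surjective_embA : Function.Surjective embA := by
  intro u
  obtain ⟨θ, hθ⟩ := exists_e (u := toP.symm u) (by simp)
  exact ⟨θ, Subtype.ext (by simp [embA, hθ])⟩

theorem measurableEmbedding_embA : MeasurableEmbedding embA :=
  continuous_embA.measurableEmbedding injective_embA

open scoped Pointwise in
theorem toSphere_mp (R : Billiard.Plane ≃ₗᵢ[ℝ] Billiard.Plane) :
    MeasurePreserving (fun v : Metric.sphere (0 : Billiard.Plane) 1 =>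
      (⟨R v, by simp⟩ : Metric.sphere (0 : Billiard.Plane) 1))
      (volume : Measure Billiard.Plane).toSphere (volume : Measure Billiard.Plane).toSphere := by
  have hc : Continuous fun v : Metric.sphere (0 : Billiard.Plane) 1 =>
      (⟨R v, by simp⟩ : Metric.sphere (0 : Billiard.Plane) 1) :=
    Continuous.subtype_mk (by fun_prop) _
  refine ⟨hc.measurable, ?_⟩
  ext s hs
  rw [Measure.map_apply hc.measurable hs, Measure.toSphere_apply' _ hs,
    Measure.toSphere_apply' _ (hc.measurable hs),
    ← R.measurePreserving.measure_preimage_emb R.toHomeomorph.measurableEmbedding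
      (Set.Ioo (0 : ℝ) 1 • (Subtype.val '' s))]
  congr 2
  ext x
  simp only [Set.mem_smul, Set.mem_image, Set.mem_preimage]
  constructor
  · rintro ⟨r, hr, _, ⟨v, hv, rfl⟩, rfl⟩
    exact ⟨r, hr, _, ⟨_, hv, rfl⟩, by simp⟩
  · rintro ⟨r, hr, _, ⟨v, hv, rfl⟩, h⟩
    refine ⟨r, hr, _, ⟨⟨R.symm v, by simp⟩, by simpa using hv, rfl⟩, R.injective ?_⟩
    simpa using h

theorem toSphere_eq : ∃ c : ℝ≥0∞, c ≠ 0 ∧ c ≠ ⊤ ∧
    (volume : Measure Billiard.Plane).toSphere = c • (volume : Measure Ang).map embA := by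
  set ρ : Measure Ang := (volume : Measure Billiard.Plane).toSphere.comap embA with hρ
  have hmap : ρ.map embA = (volume : Measure Billiard.Plane).toSphere := by
    rw [hρ, measurableEmbedding_embA.map_comap, surjective_embA.range_eq, Measure.restrict_univ]
  have hinv : ρ.IsAddLeftInvariant := by
    refine ⟨fun φ => ?_⟩
    apply measurableEmbedding_embA.map_injective
    set R : Billiard.Plane ≃ₗᵢ[ℝ] Billiard.Plane :=
      (toP.symm.trans (rotation (AddCircle.toCircle φ))).trans toP
    have hR := toSphere_mp R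
    have e1 : embA ∘ (fun θ => φ + θ) = (fun v : Metric.sphere (0 : Billiard.Plane) 1 =>
        (⟨R v, by simp⟩ : Metric.sphere (0 : Billiard.Plane) 1)) ∘ embA := by
      funext θ
      apply Subtype.ext
      simp only [Function.comp, embA, R, LinearIsometryEquiv.trans_apply,
        LinearIsometryEquiv.symm_apply_apply, rotation_apply, e_add]
      rfl
    rw [Measure.map_map measurableEmbedding_embA.measurable (measurable_const_add φ), e1,
      ← Measure.map_map hR.measurable measurableEmbedding_embA.measurable, hmap, hR.map_eq]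
  have hfin : IsFiniteMeasure ρ := by
    refine ⟨?_⟩
    rw [hρ, measurableEmbedding_embA.comap_apply]
    exact measure_lt_top _ _
  have h := Measure.isAddInvariant_eq_smul_of_compactSpace ρ (volume : Measure Ang)
  refine ⟨Measure.addHaarScalarFactor ρ volume, ?_, ENNReal.coe_ne_top, ?_⟩
  · intro h0
    rw [ENNReal.coe_eq_zero] at h0
    rw [h0, zero_smul] at h
    rw [h, Measure.map_zero] at hmap
    exact Measure.toSphere_ne_zero _ hmap.symm
  · rw [← hmap]
    conv_lhs => rw [h]
    rw [Measure.map_smul]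
    rfl

end ModelAux

open ModelAux

theorem exists_tri (A : Fin 3 → Billiard.Plane) (hA : AffineIndependent ℝ A) :
    ∃ T : Tri, T.Models A := by
  set v : Fin 3 → ℂ := fun j => toP.symm (A j) with hv
  have hvi : AffineIndependent ℝ v :=
    hA.map' toP.symm.toLinearEquiv.toLinearMap.toAffineMap toP.symm.injective
  have hD := det_ne_zero hvi
  have hD2 : 0 < det v ^ 2 := by positivity
  have hN : ∀ j, 0 < ‖nor v j‖ := by
    intro j
    rw [norm_pos_iff]
    intro h
    have := inner_nor_v v j j
    rw [h, inner_zero_left, if_pos rfl] at this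
    exact hD2.ne this
  have hn : ∀ j, ∃ θ, e θ = ‖nor v j‖⁻¹ • nor v j := fun j =>
    exists_e (by rw [norm_smul, norm_inv, norm_norm, inv_mul_cancel₀ (hN j).ne'])
  choose n hn using hn
  have hq : ∀ j u, ⟪e (n j), u⟫_ℝ / (‖nor v j‖⁻¹ * det v ^ 2) =
      (((v (j + 2)).re - (v (j + 1)).re) * u.im -
        ((v (j + 2)).im - (v (j + 1)).im) * u.re) / det v := by
    intro j u
    have := (hN j).ne'
    rw [hn, real_inner_smul_left, inner_nor]
    field_simp
  refine ⟨⟨v, n, fun j => ‖nor v j‖⁻¹ * det v ^ 2, fun j => ?_, fun i j => ?_, fun z => ?_,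
    fun z => ?_⟩, fun j => by simp [hv]⟩
  · have := hN j
    positivity
  · rw [hn, real_inner_smul_left, inner_nor_v]
    split_ifs <;> simp
  · simp only [hq, Fin.sum_univ_three]
    field_simp
    simp [det]
    ring
  · simp only [hq, Fin.sum_univ_three]
    apply Complex.ext
    · simp only [Complex.add_re, Complex.smul_re, smul_eq_mul]
      field_simp
      simp [det]
      ring
    · simp only [Complex.add_im, Complex.smul_im, smul_eq_mul]
      field_simp
      simp [det]
      ring

namespace Tri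

variable (T : Tri) {A : Fin 3 → Billiard.Plane}

theorem irr_of (hA : T.Models A) (hirr : ∃ i : Fin 3,
      Irrational (EuclideanGeometry.angle (A (i + 1)) (A i) (A (i + 2)) / Real.pi)) : T.Irr := by
  obtain ⟨i, hi⟩ := hirr
  obtain ⟨f1, f2, f3, f4, f5⟩ := fin_a i
  set a := T.v (i + 1) - T.v i with ha
  set b := T.v (i + 2) - T.v i with hb
  have hr := T.r0_pos
  have ha0 : a ≠ 0 := by
    have := T.v_sep f3
    rw [← norm_pos_iff]; linarith
  have hb0 : b ≠ 0 := by
    have := T.v_sep f4
    rw [← norm_pos_iff]; linarith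
  have hang : EuclideanGeometry.angle (A (i + 1)) (A i) (A (i + 2)) = |(a / b).arg| := by
    rw [EuclideanGeometry.angle, hA, hA, hA, vsub_eq_sub, vsub_eq_sub, ← map_sub, ← map_sub,
      ← Complex.angle_eq_abs_arg ha0 hb0]
    exact toP.toLinearIsometry.angle_map _ _
  have h1 : ⟪T.ν (i + 2), a⟫_ℝ = 0 := by
    rw [ha, ← T.ell_sub, T.ell_v, T.ell_v, if_neg f5, if_neg f4, sub_zero]
  have h2 : ⟪T.ν (i + 1), b⟫_ℝ = 0 := by
    rw [hb, ← T.ell_sub, T.ell_v, T.ell_v, if_neg f5.symm, if_neg f3, sub_zero]
  have h3 := sq_normal (T.norm_ν _) h1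
  have h4 := congrArg conj (sq_normal (T.norm_ν _) h2)
  simp only [map_mul, Complex.conj_conj, map_neg] at h4
  have hab : a / b ≠ 0 := div_ne_zero ha0 hb0
  have h5 : (T.σ (i + 2)).β - (T.σ (i + 1)).β = ((2 * (a / b).arg : ℝ) : Ang) := by
    apply e_injective
    rw [e_sub, T.e_σβ, T.e_σβ, e_coe]
    have h6 := Complex.norm_mul_exp_arg_mul_I (a / b)
    have h7 : Complex.exp (((2 * (a / b).arg : ℝ) : ℂ) * Complex.I) =
        Complex.exp ((a / b).arg * Complex.I) * Complex.exp ((a / b).arg * Complex.I) := by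
      rw [← Complex.exp_add]; push_cast; ring_nf
    have h8 : (a / b) * conj (a / b) = (‖a / b‖ : ℂ) * ‖a / b‖ := by
      rw [Complex.mul_conj, Complex.normSq_eq_norm_sq]; push_cast; ring
    have h9 : (‖a / b‖ : ℂ) ≠ 0 := by exact_mod_cast norm_ne_zero_iff.2 hab
    have hca : conj a ≠ 0 := by simpa using ha0
    have hcb : conj b ≠ 0 := by simpa using hb0
    rw [h7]
    generalize Complex.exp ((a / b).arg * Complex.I) = E at *
    generalize (‖a / b‖ : ℂ) = N at *
    simp only [map_neg, map_mul]
    have e1 : T.ν (i + 2) * T.ν (i + 2) = -a / conj a := by rw [eq_div_iff hca, h3]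
    have e2 : conj (T.ν (i + 1)) * conj (T.ν (i + 1)) = -conj b / b := by
      rw [eq_div_iff hb0, h4]
    have e3 : E = a / b / N := by rw [eq_div_iff h9, mul_comm, h6]
    rw [e1, e2, e3, div_mul_div_comm _ N, ← h8, map_div₀]
    field_simp
  refine ⟨i + 2, i + 1, ?_⟩
  rw [h5, addOrderOf_eq_zero_iff, AddCircle.isOfFinAddOrder_iff_exists_rat_eq_div]
  rintro ⟨q, hq⟩
  refine hi ⟨|q|, ?_⟩
  rw [hang, Rat.cast_abs, hq, mul_div_mul_left _ _ two_ne_zero, abs_div, abs_of_pos Real.pi_pos]

theorem hull_eq : convexHull ℝ (range T.v) = T.Δ := by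
  apply Subset.antisymm
  · refine convexHull_min ?_ T.convex_Δ
    rintro _ ⟨j, rfl⟩ i
    rw [T.ell_v]
    split_ifs
    exacts [(T.h_pos i).le, le_rfl]
  · intro z hz
    rw [← T.bary z]
    exact (convex_convexHull ℝ _).sum_mem (fun j _ => div_nonneg (hz j) (T.h_pos j).le)
      (T.sum_one z) fun j _ => subset_convexHull ℝ _ ⟨j, rfl⟩

theorem interior_Δ : interior T.Δ = T.Int := by
  refine Subset.antisymm (fun z hz j => ?_) (interior_maximal T.Int_subset_Δ T.isOpen_Int)
  obtain ⟨ε, hε, hb⟩ := Metric.isOpen_iff.1 isOpen_interior z hz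
  have h1 : z + (-(ε / 2)) • T.ν j ∈ Metric.ball z ε := by
    rw [mem_ball_iff_norm, add_sub_cancel_left, norm_smul, T.norm_ν, norm_neg, Real.norm_eq_abs,
      abs_of_pos (half_pos hε)]
    linarith
  have h2 := interior_subset (hb h1) j
  rw [T.ell_add, real_inner_smul_right, real_inner_self_eq_norm_sq, T.norm_ν] at h2
  linarith

theorem interior_hull (hA : T.Models A) : interior (convexHull ℝ (range A)) = toP '' T.Int := by
  have h1 : range A = toP.toLinearEquiv.toLinearMap '' range T.v := by
    rw [← range_comp]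
    congr 1
    funext j
    exact hA j
  rw [h1, ← LinearMap.image_convexHull, T.hull_eq, ← T.interior_Δ]
  exact (toP.toHomeomorph.image_interior _).symm

theorem ae_dir : ∀ᵐ y ∂T.μ, ∀ B ∈ T.Γ, ∀ j, ⟪T.ν j, B.lin (e y.2)⟫_ℝ ≠ 0 := by
  have key : ∀ᵐ θ : Ang, ∀ B ∈ T.Γ, ∀ j, ⟪T.ν j, B.lin (e θ)⟫_ℝ ≠ 0 := by
    refine (ae_ball_iff T.countable_Γ).2 fun B _ => ae_all_iff.2 fun j => ?_
    have hfin : {θ : Ang | ⟪T.ν j, B.lin (e θ)⟫_ℝ = 0}.Finite := by
      refine Finite.subset (Finite.preimage (f := fun θ : Ang => e (B • θ))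
        (s := {Complex.I * T.ν j, -(Complex.I * T.ν j)})
        (e_injective.comp (MulAction.injective B)).injOn (toFinite _)) fun θ hθ => ?_
      have h1 := sq_normal (T.norm_ν j) hθ
      rw [← Iso.e_smul] at h1
      have h2 := e_mul_conj (B • θ)
      have h3 : e (B • θ) ^ 2 = (Complex.I * T.ν j) ^ 2 := by
        rw [mul_pow, Complex.I_sq]
        linear_combination e (B • θ) * h1 - T.ν j * T.ν j * h2
      simpa only [mem_preimage, mem_insert_iff, mem_singleton_iff] using
        sq_eq_sq_iff_eq_or_eq_neg.1 h3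
    have : NullSingletonClass (volume : Measure Ang) := ⟨fun x => by
      rw [← Metric.closedBall_zero, AddCircle.volume_closedBall]; simp [Real.pi_pos.le]⟩
    rw [ae_iff]
    simpa only [not_not] using hfin.measure_zero volume
  exact Measure.quasiMeasurePreserving_snd.ae key

end Tri

theorem measurableEmbedding_emb : MeasurableEmbedding emb :=
  toP.toHomeomorph.measurableEmbedding.prodMap measurableEmbedding_embA

theorem surjective_emb : Function.Surjective emb :=
  toP.surjective.prodMap surjective_embA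

theorem Tri.phaseMeasure_eq (T : Tri) {A : Fin 3 → Billiard.Plane} (hA : T.Models A) :
    ∃ c : ℝ≥0∞, c ≠ 0 ∧ c ≠ ⊤ ∧ Billiard.phaseMeasure A = c • T.μ.map emb := by
  obtain ⟨c, h0, h1, h⟩ := toSphere_eq
  refine ⟨c, h0, h1, ?_⟩
  have h2 := (toP.measurePreserving.restrict_image_emb toP.toHomeomorph.measurableEmbedding
    T.Int).map_eq
  rw [Billiard.phaseMeasure, T.interior_hull hA, h, ← h2, Measure.prod_smul_right,
    Measure.map_prod_map _ _ toP.continuous.measurable continuous_embA.measurable]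
  rfl

end Crest.Agent.R103
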