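import Crest.Agent.R103.Main
import Crest.Agent.R103.ChainEx
import Crest.Agent.R103.ChainSt
import Crest.Agent.R103.Model

/-! Row 103: transfer to the definitions of the statement. -/

set_option autoImplicit false

namespace Crest.Agent.R103

open MeasureTheory Set Filter Topology
open scoped ENNReal symmDiff
open Crest.AnalysisR

namespace FinalAux

variable (T : Tri) {A : Fin 3 → Billiard.Plane}

theorem state_unique (hA : T.Models A) {y : Phase} (hy : y.1 ∈ T.Int) (c c' : Billiard.Chain A)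
    (hc : c.Through (emb y)) (hc' : c'.Through (emb y)) (τ : ℝ) (p p' : Billiard.Phase)
    (hp : c.IsStateAt τ p) (hp' : c'.IsStateAt τ p') : p = p' := by
  obtain ⟨B, δ, hδ, rfl, hB⟩ := T.chain_state hA hy c hc hp
  obtain ⟨B', δ', hδ', rfl, hB'⟩ := T.chain_state hA hy c' hc' hp'
  have h0 : 0 < min δ δ' := lt_min hδ hδ'
  have h1 := hB (τ + min δ δ' / 2) ⟨by linarith, by linarith [min_le_left δ δ']⟩
  have h2 := hB' (τ + min δ δ' / 2) ⟨by linarith, by linarith [min_le_right δ δ']⟩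
  rw [h1.unique h2.1]

theorem state_flow (hA : T.Models A) {y : Phase} (c : Billiard.Chain A)
    (hc : c.Through (emb y)) {τ : ℝ} {p : Billiard.Phase} (hp : c.IsStateAt τ p) {C : Iso}
    (hC : T.Rch τ y C) : p = emb (T.flow τ y) := by
  obtain ⟨B, δ, hδ, rfl, hB⟩ := T.chain_state hA hC.1.int c hc hp
  have ho : IsOpen {t : ℝ | T.Rch t y C} :=
    (T.isOpen_rch C).preimage (f := fun t : ℝ => (t, y)) (by fun_prop)
  have h1 : ∀ᶠ t in 𝓝[>] τ, T.Rch t y C := mem_nhdsWithin_of_mem_nhds (ho.mem_nhds hC)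
  have h2 : ∀ᶠ t in 𝓝[>] τ, t ∈ Ioo τ (τ + δ) := Ioo_mem_nhdsGT (by linarith)
  obtain ⟨t, ht1, ht2⟩ := (h1.and h2).exists
  rw [ht1.unique (hB t ht2).1, hC.flow_eq]

theorem prod_null_iff {k : ℝ≥0∞} (hk : k ≠ 0) (t : Set (Billiard.Phase × Billiard.Phase)) :
    ((k • T.μ.map emb).prod (k • T.μ.map emb)) t = 0 ↔
      (T.μ.prod T.μ) (Prod.map emb emb ⁻¹' t) = 0 := by
  have hm := measurableEmbedding_emb
  rw [Measure.prod_smul_left, Measure.prod_smul_right,
    Measure.map_prod_map _ _ hm.measurable hm.measurable, Measure.smul_apply, Measure.smul_apply,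
    (hm.prodMap hm).map_apply, smul_eq_mul, smul_eq_mul, mul_eq_zero, mul_eq_zero]
  simp [hk]

end FinalAux

theorem final (A : Fin 3 → Billiard.Plane) (hA : AffineIndependent ℝ A)
    (hirr : ∃ i : Fin 3,
      Irrational (EuclideanGeometry.angle (A (i + 1)) (A i) (A (i + 2)) / Real.pi)) :
    (∀ᵐ p ∂(Billiard.phaseMeasure A), (∃ c : Billiard.Chain A, c.Through p) ∧
        ∀ c c' : Billiard.Chain A, c.Through p → c'.Through p →
          ∀ (τ : ℝ) (y y' : Billiard.Phase), c.IsStateAt τ y → c'.IsStateAt τ y' → y = y') ∧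
    ∀ Φ : ℝ → Billiard.Phase → Billiard.Phase,
      (∀ᵐ p ∂(Billiard.phaseMeasure A), ∃ c : Billiard.Chain A, c.Through p ∧
        ∀ τ : ℝ, c.IsStateAt τ (Φ τ p)) →
      ∀ s : Set (Billiard.Phase × Billiard.Phase), MeasurableSet s →
        (∀ τ : ℝ, ((Billiard.phaseMeasure A).prod (Billiard.phaseMeasure A))
            (((fun z : Billiard.Phase × Billiard.Phase => (Φ τ z.1, Φ τ z.2)) ⁻¹' s) ∆ s) = 0) →
        ((Billiard.phaseMeasure A).prod (Billiard.phaseMeasure A)) s = 0 ∨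
          ((Billiard.phaseMeasure A).prod (Billiard.phaseMeasure A)) sᶜ = 0 := by
  obtain ⟨T, hT⟩ := exists_tri A hA
  have hI := T.irr_of hT hirr
  obtain ⟨k, hk0, -, hk⟩ := T.phaseMeasure_eq hT
  have hm := measurableEmbedding_emb
  rw [hk]
  refine ⟨?_, fun Φ hΦ s hs hinv => ?_⟩
  · rw [Measure.ae_ennreal_smul_measure_iff hk0, hm.ae_map_iff]
    filter_upwards [T.ae_int, T.ae_good, T.ae_dir] with y hy hg hd
    exact ⟨T.chain_exists hT hg hd, fun c c' hc hc' τ p p' hp hp' =>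
      FinalAux.state_unique T hT hy c c' hc hc' τ p p' hp hp'⟩
  · rw [Measure.ae_ennreal_smul_measure_iff hk0, hm.ae_map_iff] at hΦ
    have h1 : ∀ τ, ∀ᵐ y ∂T.μ, Φ τ (emb y) = emb (T.flow τ y) := by
      intro τ
      filter_upwards [hΦ, T.ae_rch τ] with y ⟨c, hc, hst⟩ ⟨C, hC⟩
      exact FinalAux.state_flow T hT c hc (hst τ) hC
    rw [FinalAux.prod_null_iff T hk0, FinalAux.prod_null_iff T hk0, preimage_compl]
    refine T.prod_ergodic hI _ ((hm.prodMap hm).measurable hs) fun τ => ?_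
    have h2 := (FinalAux.prod_null_iff T hk0 _).1 (hinv τ)
    rw [← h2]
    refine measure_congr ?_
    rw [eventuallyEq_set]
    filter_upwards [(Measure.quasiMeasurePreserving_fst (μ := T.μ) (ν := T.μ)).ae (h1 τ),
      (Measure.quasiMeasurePreserving_snd (μ := T.μ) (ν := T.μ)).ae (h1 τ)] with z hz1 hz2
    simp only [mem_symmDiff, mem_preimage, Prod.map, hz1, hz2]

end Crest.Agent.R103
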