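import Crest.Agent.R103.Prong

/-! Row 103: most points near a vertex are robustly long or robustly short. -/

set_option autoImplicit false

namespace Crest.Agent.R103

open MeasureTheory Set Filter Topology
open scoped ENNReal ComplexConjugate InnerProductSpace ContDiff

/-- deterministic core of G1: comparison of the orbit with the separatrix in its outgoing
direction -/
theorem Tri.g1_det (T : Tri) {s₁ ρ L : ℝ} (hρ : 0 < ρ) (h1 : 6 * ρ ≤ T.r0)
    (h2 : 4 * ρ ≤ s₁ * T.r0) (hL : 24 * ρ ≤ L) (hL' : L ≤ 1 / (2 * ρ)) {j : Fin 3} {y : Phase}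
    {A : Iso} (hj : ‖y.1 - T.v j‖ < 4 * ρ) (hA : T.Rch (2 * T.r0) y A)
    (hθ : (T.flow (2 * T.r0) y).2 ∉ T.Exc s₁)
    (hB : L < T.tt (15 * ρ) j (T.flow (2 * T.r0) y).2 / 2 ∨
      3 * T.tt (5 * ρ) j (T.flow (2 * T.r0) y).2 < L) : T.RL ρ L y ∨ T.RS ρ L y := by
  have hr := T.r0_pos
  obtain ⟨hre, him⟩ := T.prong (j := j) (by linarith) hA
  set y' := T.flow (2 * T.r0) y with hy'
  have hint : y'.1 ∈ T.Int := hA.flow_int
  have hc : ‖crd (T.v j) y‖ < 4 * ρ := by rwa [norm_crd]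
  have hre0 := abs_lt.1 ((Complex.abs_re_le_norm (crd (T.v j) y)).trans_lt hc)
  have hp : |(crd (T.v j) y').im| < 4 * ρ := by
    rw [him]; exact (Complex.abs_im_le_norm _).trans_lt hc
  set r := (crd (T.v j) y').re with hr'
  have hr1 : 2 * T.r0 - 4 * ρ < r := by linarith [hre0.1]
  have hr2 : r < 2 * T.r0 + 4 * ρ := by linarith [hre0.2]
  have hs₁ : 0 ≤ s₁ := by
    by_contra hs
    have : s₁ * T.r0 < 0 := mul_neg_of_neg_of_pos (not_le.1 hs) hr
    linarith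
  have hreal : ∀ t : ℝ, 0 < t → t < 10 * T.r0 → T.v j + t • e y'.2 ∈ T.Int := fun t ht ht' => by
    have := T.sep_int (s := s₁) (j := j) hint hθ (by linarith) (by linarith) (ζ := (t : ℂ))
      (by simpa using ht) (by simpa using mul_nonneg hs₁ ht.le)
      (by rwa [Complex.norm_real, Real.norm_eq_abs, abs_of_pos ht])
    rwa [Complex.real_smul]
  set z := T.sep j y'.2 with hz
  have hz0 : z.1 ∈ T.Int := hreal T.r0 hr (by linarith)
  have hz1 : line z (r - T.r0) ∈ T.Int := by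
    rw [hz, T.line_sep]; exact hreal r (by linarith) (by linarith)
  have hdist : ∀ τ : ℝ, ‖line y' (0 + 1 * τ) - line z (r - T.r0 + τ)‖ = |(crd (T.v j) y').im| :=
    fun τ => by
      have e1 : r - T.r0 + τ = (r + τ) - T.r0 := by ring
      have e2 : line y' (0 + 1 * τ) - line z (r - T.r0 + τ) =
          ((crd (T.v j) y').im * Complex.I) * e y'.2 := by
        rw [e1, hz, T.line_sep, zero_add, one_mul, ← sub_sub, line_sub, Complex.real_smul,
          ← sub_mul]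
        congr 1
        conv_lhs => rw [← Complex.re_add_im (crd (T.v j) y')]
        push_cast; ring
      rw [e2, norm_mul, norm_mul, norm_e, Complex.norm_I, Complex.norm_real, Real.norm_eq_abs,
        mul_one, mul_one]
  -- the tube comparison
  have htube : ∀ T₀ : ℝ, 0 ≤ T₀ → (∀ τ ∈ Icc 0 T₀, 4 * ρ ≤ T.dst z (r + τ - T.r0)) →
      ∀ τ ∈ Icc 0 T₀, |T.dst y (2 * T.r0 + τ) - T.dst z (r + τ - T.r0)| < 4 * ρ := by
    intro T₀ hT₀ hw τ hτ
    have e1 : ∀ τ, r - T.r0 + τ = r + τ - T.r0 := fun τ => by ring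
    have := (Tri.tube (T := T) (y := z) (y₂ := y') (t₀ := r - T.r0) (g₀ := 0) (lam := 1) (T₀ := T₀)
      hz0 hz1 hint (by rwa [line_zero]) (fun τ hτ => by
        rw [hdist, e1]
        exact hp.trans_le (hw τ (by rwa [uIcc_of_le hT₀] at hτ)))
      (τ := τ) (by rwa [uIcc_of_le hT₀])).1
    rw [hdist, zero_add, one_mul, e1, hy', hA.dst_flow] at this
    exact this.trans_lt hp
  rcases hB with hB | hB
  · left
    intro τ hτ
    have hw : ∀ τ' ∈ Icc 0 (τ - 2 * T.r0), 15 * ρ ≤ T.dst z (r + τ' - T.r0) := fun τ' hτ' =>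
      T.le_dst_of_lt_tt (by linarith) (by linarith [hτ'.1]) (by linarith [hτ'.2, hτ.2])
    have h0 : 0 ≤ τ - 2 * T.r0 := by linarith [hτ.1]
    have h3 := htube _ h0 (fun τ' hτ' => by linarith [hw τ' hτ']) _ ⟨h0, le_rfl⟩
    have h4 := hw _ ⟨h0, le_rfl⟩
    rw [add_sub_cancel] at h3
    linarith [(abs_lt.1 h3).1]
  · right
    set t := T.tt (5 * ρ) j y'.2 with ht
    have ht1 : t < 1 / (5 * ρ) := by
      have e1 : 1 / (2 * ρ) = 5 / 2 * (1 / (5 * ρ)) := by field_simp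
      have e2 : 0 < 1 / (5 * ρ) := by positivity
      linarith
    obtain ⟨ht2, ht3⟩ := T.dst_tt_le (s := 5 * ρ) (by linarith) ht1
    rw [← ht] at ht2 ht3
    have ht4 : 4 * T.r0 ≤ t := by
      by_contra hlt
      rw [T.dst_sep hz0 (by linarith) (not_le.1 hlt)] at ht3
      linarith
    have hw : ∀ u ∈ Icc T.r0 t, 5 * ρ ≤ T.dst z (u - T.r0) := fun u hu => by
      rcases hu.2.lt_or_eq with h | h
      · exact T.le_dst_of_lt_tt (by linarith) hu.1 h
      · refine le_of_forall_pos_le_add fun ε hε => ?_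
        have h5 : 5 * ρ ≤ T.dst z (u - min ε T.r0 - T.r0) :=
          T.le_dst_of_lt_tt (by linarith) (by linarith [min_le_right ε T.r0])
            (by linarith [lt_min hε hr])
        have h6 := (abs_le.1 (T.abs_dst_sub_le z (u - min ε T.r0 - T.r0) (u - T.r0))).2
        rw [abs_of_neg (by linarith [lt_min hε hr])] at h6
        linarith [min_le_left ε T.r0]
    have h0 : 0 ≤ t - r := by linarith
    have hw' : ∀ τ ∈ Icc 0 (t - r), 5 * ρ ≤ T.dst z (r + τ - T.r0) := fun τ hτ =>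
      hw _ ⟨by linarith [hτ.1], by linarith [hτ.2]⟩
    have h3 := htube _ h0 fun τ' hτ' => by linarith [hw' τ' hτ']
    refine ⟨2 * T.r0 + (t - r), ⟨by linarith, by linarith⟩, ?_, fun τ' hτ' => ?_⟩
    · have h4 := (abs_lt.1 (h3 _ ⟨h0, le_rfl⟩)).2
      rw [add_sub_cancel] at h4
      linarith
    · have hm : τ' - 2 * T.r0 ∈ Icc 0 (t - r) := ⟨by linarith [hτ'.1], by linarith [hτ'.2]⟩
      have h4 := (abs_lt.1 (h3 _ hm)).1
      rw [add_sub_cancel] at h4
      linarith [hw' _ hm]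

theorem Tri.g1 (T : Tri) {s₁ : ℝ} (hs : 0 < s₁) : ∃ ρ₁ : ℝ, 0 < ρ₁ ∧ ∀ ρ L : ℝ, 0 < ρ → ρ < ρ₁ →
    24 * ρ ≤ L → L ≤ 1 / (2 * ρ) →
    T.μ {y | T.d y.1 < 4 * ρ ∧ ¬ T.RL ρ L y ∧ ¬ T.RS ρ L y} ≤
      ∑ j, ENNReal.ofReal (16 * Real.pi * ρ ^ 2) * (volume (T.Exc s₁) +
        volume {θ | T.tt (15 * ρ) j θ / 2 ≤ L ∧ L ≤ 3 * T.tt (5 * ρ) j θ}) := by
  have hr := T.r0_pos
  refine ⟨min (T.r0 / 6) (s₁ * T.r0 / 4), by positivity, fun ρ L hρ hρ₁ hL hL' => ?_⟩
  have h1 : 6 * ρ ≤ T.r0 := by linarith [hρ₁.trans_le (min_le_left _ _)]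
  have h2 : 4 * ρ ≤ s₁ * T.r0 := by linarith [hρ₁.trans_le (min_le_right _ _)]
  let Bad : Fin 3 → Set Ang := fun j =>
    {θ | T.tt (15 * ρ) j θ / 2 ≤ L ∧ L ≤ 3 * T.tt (5 * ρ) j θ}
  have hBad : ∀ j, MeasurableSet (Bad j) := fun j =>
    (measurableSet_le ((T.measurable_tt (by linarith) j).div_const _) measurable_const).inter
      (measurableSet_le measurable_const ((T.measurable_tt (by linarith) j).const_mul _))
  have hsub : ∀ᵐ y ∂T.μ, y ∈ {y : Phase | T.d y.1 < 4 * ρ ∧ ¬ T.RL ρ L y ∧ ¬ T.RS ρ L y} →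
      y ∈ {y : Phase | ∃ j, ‖y.1 - T.v j‖ < 4 * ρ ∧
        (T.flow (2 * T.r0) y).2 ∈ T.Exc s₁ ∪ Bad j} := by
    filter_upwards [T.ae_rch (2 * T.r0)] with y ⟨A, hA⟩ ⟨hd, hRL, hRS⟩
    obtain ⟨j, hj⟩ := T.exists_d y.1
    rw [hj] at hd
    refine ⟨j, hd, ?_⟩
    by_contra hn
    rw [mem_union, not_or] at hn
    have hB : L < T.tt (15 * ρ) j (T.flow (2 * T.r0) y).2 / 2 ∨
        3 * T.tt (5 * ρ) j (T.flow (2 * T.r0) y).2 < L := by
      by_contra hc
      rw [not_or, not_lt, not_lt] at hc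
      exact hn.2 hc
    rcases T.g1_det hρ h1 h2 hL hL' hd hA hn.1 hB with h | h
    · exact hRL h
    · exact hRS h
  refine (measure_mono_ae hsub).trans ((T.prong_le
    (fun j => (T.measurableSet_Exc s₁).union (hBad j)) (by linarith) (by linarith)).trans ?_)
  refine Finset.sum_le_sum fun j _ => ?_
  have e1 : Real.pi * (4 * ρ) ^ 2 = 16 * Real.pi * ρ ^ 2 := by ring
  rw [e1]
  exact mul_le_mul_right (measure_union_le _ _) _

end Crest.Agent.R103
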