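import Crest.Agent.R103.Prong

/-! Row 103: a long gap after a short one is typically very long and wide. -/

set_option autoImplicit false

namespace Crest.Agent.R103

open MeasureTheory Set Filter Topology
open scoped ENNReal ComplexConjugate InnerProductSpace ContDiff

theorem Tri.g2a_det (T : Tri) {s₁ a A ρ L : ℝ} (hs₁ : 0 < s₁) (ha : 0 < a) (ha1 : a ≤ 1)
    (hA : 1 ≤ A) (hρ : 0 < ρ) (hρ1 : 20 * ρ ≤ T.r0) (hρ2 : 10 * ρ ≤ s₁ * T.r0)
    (hL : 24 * ρ ≤ L) (hL' : L ≤ 1 / ρ) {y : Phase} (hg : T.Good y) {B : Iso}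
    (hB : T.Rch (2 * T.r0) y B) {j : Fin 3} (hj : ‖y.1 - T.v j‖ < 14 * ρ)
    (hW : T.Wp (10 * ρ) L y)
    (h1 : |(crd (T.v j) y).im| < 10 * ρ →
      a * ρ ≤ |(crd (T.v j) y).im| ∧ |(crd (T.v j) y).im| ≤ (10 - a) * ρ)
    (h2 : (T.flow (2 * T.r0) y).2 ∉ T.Exc s₁)
    (h3 : L ≤ 3 * T.tt (a * ρ) j (T.flow (2 * T.r0) y).2 →
      L < T.tt ((41 + 10 * A) * ρ) j (T.flow (2 * T.r0) y).2 / (2 * A)) : T.S3 ρ L a A y := by
  obtain ⟨τ₀, hτ₀, hev, ⟨τ₁, hτ₁, hτ₁a, hτ₁b⟩, hnext⟩ := hW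
  have hr0 := T.r0_pos
  have hj' : ‖y.1 - T.v j‖ < T.r0 := by linarith
  obtain ⟨e1, e2, -⟩ := hev.own (by linarith) (by linarith) hj'
  have e3 := hev.dst_lt
  rw [e2] at e3
  obtain ⟨h1a, h1b⟩ := h1 e3
  have e4 : |τ₀| < 14 * ρ := by
    rw [e1, abs_neg]
    exact (Complex.abs_re_le_norm _).trans_lt (by rwa [norm_crd])
  obtain ⟨e4a, e4b⟩ := abs_lt.1 e4
  obtain ⟨p1, p2⟩ := T.prong hj' hB
  have hd := hB.dst_flow
  have hi := hB.flow_int
  set y' := T.flow (2 * T.r0) y with hy'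
  set r := (crd (T.v j) y').re with hr
  set P := |(crd (T.v j) y).im| with hP
  have hr' : r = 2 * T.r0 - τ₀ := by linarith
  have hint : ∀ t : ℝ, 0 < t → t < 10 * T.r0 → line (T.sep j y'.2) (t - T.r0) ∈ T.Int := by
    intro t h0 h10
    rw [T.line_sep, Complex.real_smul]
    refine T.sep_int hi h2 (by linarith) (by linarith) (by simpa using h0) ?_ ?_
    · simp only [Complex.ofReal_im, abs_zero, Complex.ofReal_re]
      positivity
    · rwa [Complex.norm_real, Real.norm_of_nonneg h0.le]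
  have hz : (T.sep j y'.2).1 ∈ T.Int := by
    have := hint T.r0 hr0 (by linarith)
    rwa [sub_self, line_zero] at this
  have hzr := hint r (by linarith) (by linarith)
  have hi0 : line y' 0 ∈ T.Int := by rwa [line_zero]
  have hdist : ∀ t : ℝ, ‖line y' t - line (T.sep j y'.2) (r + t - T.r0)‖ = P := by
    intro t
    have : line y' t - line (T.sep j y'.2) (r + t - T.r0) =
        ((crd (T.v j) y').im * Complex.I) * e y'.2 := by
      rw [T.line_sep, ← sub_sub, line_sub, Complex.real_smul, ← sub_mul]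
      congr 1
      conv_lhs => rw [← Complex.re_add_im (crd (T.v j) y')]
      push_cast
      ring
    rw [this, norm_mul, norm_mul, norm_e, Complex.norm_I, Complex.norm_real, Real.norm_eq_abs, p2,
      mul_one, mul_one]
  have hfar : ∀ τ, 2 * T.r0 ≤ τ → τ ≤ τ₀ + L - 10 * ρ → 10 * ρ ≤ T.dst y τ := by
    intro τ ha' hb'
    by_contra h
    obtain ⟨s, hs, hs'⟩ := Tri.ev_of_dst_lt hg (by linarith) (not_le.1 h)
    obtain ⟨h4, h5⟩ := abs_lt.1 (hs.trans_lt (not_le.1 h))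
    exact hnext ⟨s, hs', by linarith, by linarith⟩
  have haρ : 0 < a * ρ := by positivity
  have haρ' : a * ρ ≤ ρ := by nlinarith
  have hL3 : L / 3 ≤ T.tt (a * ρ) j y'.2 := by
    refine T.le_tt_of_dst haρ ?_ fun τ h4 h5 => ?_
    · have := one_div_le_one_div_of_le haρ haρ'
      linarith
    · rcases lt_or_ge τ (4 * T.r0) with h6 | h6
      · rw [T.dst_sep hz (by linarith) h6]
        linarith
      · have h7 : ∀ t ∈ uIcc 0 (τ - r), 10 * ρ ≤ T.dst y' (0 + t) := by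
          intro t ht
          rw [uIcc_of_le (by linarith)] at ht
          rw [zero_add, hd]
          exact hfar _ (by linarith [ht.1]) (by linarith [ht.2])
        have h8 : ∀ t, ‖line (T.sep j y'.2) (r - T.r0 + 1 * t) - line y' (0 + t)‖ = P := by
          intro t
          rw [norm_sub_rev, zero_add, ← hdist t]
          congr 3
          ring
        have h9 := (Tri.tube (lam := 1) (T₀ := τ - r) hi hi0 hz hzr
          (fun t ht => by rw [h8]; linarith [h7 t ht]) right_mem_uIcc).1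
        rw [h8, show r - T.r0 + 1 * (τ - r) = τ - T.r0 by ring] at h9
        linarith [(abs_le.1 h9).1, h7 _ right_mem_uIcc]
  have h4 := h3 (by linarith)
  rw [lt_div_iff₀ (by linarith)] at h4
  have hb : 0 < (41 + 10 * A) * ρ := by positivity
  have hAρ : 0 < A * ρ := by positivity
  have hAL : 0 < A * L := mul_pos (by linarith) (by linarith)
  refine ⟨τ₁, τ₀, hτ₁, hev, hτ₁b, by linarith, e4, by rwa [e2], fun τ hτ => ?_⟩
  obtain ⟨h5, h6⟩ := hτ
  have h7 : ∀ t ∈ uIcc 0 (τ - 2 * T.r0),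
      (41 + 10 * A) * ρ ≤ T.dst (T.sep j y'.2) (r - T.r0 + t) := by
    intro t ht
    rw [uIcc_of_le (by linarith)] at ht
    rw [show r - T.r0 + t = r + t - T.r0 by ring]
    exact T.le_dst_of_lt_tt hb (by linarith [ht.1]) (by linarith [ht.2])
  have h8 : ∀ t, ‖line y' (0 + 1 * t) - line (T.sep j y'.2) (r - T.r0 + t)‖ = P := by
    intro t
    rw [zero_add, one_mul, ← hdist t]
    congr 3
    ring
  have h9 := (Tri.tube (lam := 1) (T₀ := τ - 2 * T.r0) hz hzr hi hi0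
    (fun t ht => by rw [h8]; linarith [h7 t ht]) right_mem_uIcc).1
  rw [h8, hd, show 2 * T.r0 + (0 + 1 * (τ - 2 * T.r0)) = τ by ring] at h9
  linarith [(abs_le.1 h9).1, h7 _ right_mem_uIcc]

theorem g2a_rect (p : ℂ) (a b c d : ℝ) :
    volume {y : Phase | (crd p y).re ∈ Icc a b ∧ (crd p y).im ∈ Icc c d} =
      ENNReal.ofReal (b - a) * ENNReal.ofReal (d - c) * ENNReal.ofReal (2 * Real.pi) := by
  have hQ : MeasurableSet {z : ℂ | z.re ∈ Icc a b ∧ z.im ∈ Icc c d} :=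
    (Complex.measurable_re measurableSet_Icc).inter (Complex.measurable_im measurableSet_Icc)
  have := crd_measure p hQ (φ := fun _ => 0) measurable_const MeasurableSet.univ
  rw [volume_rect, AddCircle.measure_univ] at this
  simpa only [mem_univ, and_true, mem_ofPred_eq] using this

theorem Tri.g2a (T : Tri) : ∃ C : ℝ, ∀ s₁ a A : ℝ, 0 < s₁ → 0 < a → a ≤ 1 → 1 ≤ A →
    ∃ ρ₁ : ℝ, 0 < ρ₁ ∧ ∀ ρ L : ℝ, 0 < ρ → ρ < ρ₁ → 24 * ρ ≤ L → L ≤ 1 / ρ →
    T.μ {y | T.d y.1 < 14 * ρ ∧ T.Wp (10 * ρ) L y ∧ ¬ T.S3 ρ L a A y} ≤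
      ENNReal.ofReal (C * ρ ^ 2) * (ENNReal.ofReal a + volume (T.Exc s₁) +
        ∑ j, volume {θ | T.tt ((41 + 10 * A) * ρ) j θ / (2 * A) ≤ L ∧
          L ≤ 3 * T.tt (a * ρ) j θ}) := by
  have hr0 := T.r0_pos
  have hpi := Real.pi_pos
  refine ⟨672 * Real.pi, fun s₁ a A hs₁ ha ha1 hA =>
    ⟨min (T.r0 / 20) (s₁ * T.r0 / 10), by positivity, fun ρ L hρ hρ' hL hL' => ?_⟩⟩
  have hρ1 : 20 * ρ ≤ T.r0 := by linarith [hρ'.trans_le (min_le_left _ _)]
  have hρ2 : 10 * ρ ≤ s₁ * T.r0 := by linarith [hρ'.trans_le (min_le_right _ _)]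
  set Bad : Fin 3 → Set Ang := fun j => {θ | T.tt ((41 + 10 * A) * ρ) j θ / (2 * A) ≤ L ∧
    L ≤ 3 * T.tt (a * ρ) j θ} with hBad
  have hBm : ∀ j, MeasurableSet (T.Exc s₁ ∪ Bad j) := fun j =>
    (T.measurableSet_Exc s₁).union
      ((measurableSet_le ((T.measurable_tt (by positivity) j).div_const _) measurable_const).inter
        (measurableSet_le measurable_const ((T.measurable_tt (by positivity) j).const_mul _)))
  let R : Fin 3 → ℝ → ℝ → Set Phase := fun j c d =>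
    {y | (crd (T.v j) y).re ∈ Icc (-(14 * ρ)) (14 * ρ) ∧ (crd (T.v j) y).im ∈ Icc c d}
  let E : Fin 3 → Set Phase := fun j => R j (-(a * ρ)) (a * ρ) ∪ R j ((10 - a) * ρ) (10 * ρ) ∪
    R j (-(10 * ρ)) (-((10 - a) * ρ))
  have hR : ∀ j c d, T.μ (R j c d) ≤ ENNReal.ofReal (56 * Real.pi * ρ * (d - c)) := by
    intro j c d
    rw [T.μ_eq]
    refine (Measure.restrict_le_self _).trans (le_of_eq ?_)
    rw [g2a_rect, mul_right_comm, ← ENNReal.ofReal_mul (by linarith),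
      ← ENNReal.ofReal_mul (by nlinarith)]
    congr 1
    ring
  have hE : ∀ j, T.μ (E j) ≤ ENNReal.ofReal (224 * Real.pi * ρ ^ 2 * a) := by
    intro j
    refine (measure_union_le _ _).trans ((add_le_add ((measure_union_le _ _).trans
      (add_le_add (hR _ _ _) (hR _ _ _))) (hR _ _ _)).trans (le_of_eq ?_))
    have h1 : 0 ≤ 56 * Real.pi * ρ * (a * ρ) := by positivity
    rw [← ENNReal.ofReal_add (by linarith) (by linarith),
      ← ENNReal.ofReal_add (by linarith) (by linarith)]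
    congr 1
    ring
  have hsub : {y | T.d y.1 < 14 * ρ ∧ T.Wp (10 * ρ) L y ∧ ¬ T.S3 ρ L a A y} ≤ᵐ[T.μ]
      ((⋃ j, E j) ∪ {y | ∃ j, ‖y.1 - T.v j‖ < 14 * ρ ∧
        (T.flow (2 * T.r0) y).2 ∈ T.Exc s₁ ∪ Bad j} : Set Phase) := by
    filter_upwards [T.ae_good, T.ae_rch (2 * T.r0)] with y hg ⟨B, hB⟩ ⟨h1, h2, h3⟩
    obtain ⟨j, hj⟩ := T.exists_d y.1
    rw [hj] at h1
    by_contra h
    have h4 : y ∉ E j := fun h4 => h (Or.inl (mem_iUnion.2 ⟨j, h4⟩))
    have h5 : (T.flow (2 * T.r0) y).2 ∉ T.Exc s₁ ∪ Bad j := fun h5 => h (Or.inr ⟨j, h1, h5⟩)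
    have hre : (crd (T.v j) y).re ∈ Icc (-(14 * ρ)) (14 * ρ) :=
      abs_le.1 ((Complex.abs_re_le_norm _).trans (by rw [norm_crd]; exact h1.le))
    refine h3 (T.g2a_det hs₁ ha ha1 hA hρ hρ1 hρ2 hL hL' hg hB h1 h2 (fun h6 => ⟨?_, ?_⟩)
      (fun h6 => h5 (Or.inl h6)) fun h6 => ?_)
    · by_contra h7
      exact h4 (Or.inl (Or.inl ⟨hre, abs_le.1 (not_le.1 h7).le⟩))
    · by_contra h7
      obtain ⟨h8, h9⟩ := abs_lt.1 h6
      rcases lt_abs.1 (not_le.1 h7) with h10 | h10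
      · exact h4 (Or.inl (Or.inr ⟨hre, h10.le, h9.le⟩))
      · exact h4 (Or.inr ⟨hre, h8.le, by linarith⟩)
    · by_contra h7
      exact h5 (Or.inr ⟨not_lt.1 h7, h6⟩)
  refine (measure_mono_ae hsub).trans ((measure_union_le _ _).trans ?_)
  rw [add_assoc, mul_add]
  refine add_le_add ?_ ((T.prong_le hBm (by positivity) (by linarith)).trans ?_)
  · refine (measure_iUnion_fintype_le _ _).trans ((Finset.sum_le_sum fun j _ => hE j).trans ?_)
    rw [← ENNReal.ofReal_mul (by positivity), ← ENNReal.ofReal_sum_of_nonneg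
      (fun _ _ => by positivity)]
    refine ENNReal.ofReal_le_ofReal (le_of_eq ?_)
    rw [Fin.sum_univ_three]
    ring
  · set c := ENNReal.ofReal (Real.pi * (14 * ρ) ^ 2) with hc
    have h1 : 3 * c ≤ ENNReal.ofReal (672 * Real.pi * ρ ^ 2) := by
      rw [hc, ← ENNReal.ofReal_ofNat, ← ENNReal.ofReal_mul (by norm_num)]
      refine ENNReal.ofReal_le_ofReal ?_
      have : 0 ≤ Real.pi * ρ ^ 2 := by positivity
      nlinarith
    refine le_trans ?_ (mul_le_mul_left h1 _)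
    rw [← Finset.mul_sum, mul_comm 3 c, mul_assoc]
    refine mul_le_mul_right ((Finset.sum_le_sum fun j _ => measure_union_le _ _).trans ?_) _
    rw [Finset.sum_add_distrib, mul_add]
    refine add_le_add (le_of_eq ?_) (le_mul_of_one_le_left' (by norm_num))
    simp

end Crest.Agent.R103
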