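import Crest.Agent.R103.Prong

/-! Row 103: counting the vertices followed by a very long free flight. -/

set_option autoImplicit false

namespace Crest.Agent.R103

open MeasureTheory Set Filter Topology
open scoped ENNReal ComplexConjugate InnerProductSpace ContDiff

namespace Tri

variable (T : Tri)

theorem g2cnt_continuous_sep (u : Fin 3) : Continuous (T.sep u) := by
  have := continuous_e
  unfold sep; fun_prop

theorem measurableSet_Gd {ρ a : ℝ} (hρ : 0 < ρ) (ha : 0 < a) (A : ℝ) (u : Fin 3) (p : ℂ) :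
    MeasurableSet (T.Gd ρ a A u p) := by
  have hs := T.g2cnt_continuous_sep u
  have hc : Continuous fun θ => (‖p - T.v u‖ - T.r0, T.sep u θ) := continuous_const.prodMk hs
  refine (MeasurableSet.const _).inter (MeasurableSet.inter ?_ (MeasurableSet.inter ?_
    (MeasurableSet.inter ?_ ?_)))
  · exact ((T.isOpen_att p).preimage hc).measurableSet
  · exact measurableSet_lt (T.measurable_dst.comp hc.measurable) measurable_const
  · refine IsOpen.measurableSet (isOpen_iff_mem_nhds.2 fun θ hθ => ?_)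
    refine isCompact_Icc.eventually_forall_of_forall_eventually
      (P := fun θ τ => 30 * ρ < T.dst (T.sep u θ) (τ - T.r0)) fun τ hτ => ?_
    have hc' : Continuous fun z : Ang × ℝ => (z.2 - T.r0, T.sep u z.1) := by fun_prop
    exact ((T.isOpen_lt_dst (c := 30 * ρ) (by positivity)).preimage hc').mem_nhds (hθ τ hτ)
  · exact measurableSet_le measurable_const (T.measurable_tt (by positivity) u)

theorem g2cnt_gap {ρ a A : ℝ} (hρ' : 30 * ρ ≤ T.r0) {u : Fin 3} {θ : Ang} {p q : ℂ}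
    (hp : θ ∈ T.Gd ρ a A u p) (hq : θ ∈ T.Gd ρ a A u q) (hne : p ≠ q)
    (hle : ‖p - T.v u‖ ≤ ‖q - T.v u‖) : A * ‖p - T.v u‖ < ‖q - T.v u‖ := by
  obtain ⟨-, h1, h2, h3, -⟩ := hp
  obtain ⟨-, h4, h5, -, -⟩ := hq
  by_contra h
  rcases lt_or_ge ‖q - T.v u‖ (‖p - T.v u‖ + T.r0) with h6 | h6
  · refine hne ((h1.prop h4.dst_pos ?_).unique h4)
    rw [h1.dst_eq] at h2
    have h7 := norm_line_sub_line (T.sep u θ) (‖q - T.v u‖ - T.r0) (‖p - T.v u‖ - T.r0)
    rw [abs_of_nonneg (by linarith)] at h7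
    have h8 := norm_sub_le_norm_sub_add_norm_sub (line (T.sep u θ) (‖q - T.v u‖ - T.r0))
      (line (T.sep u θ) (‖p - T.v u‖ - T.r0)) p
    linarith [T.r0_pos]
  · linarith [h3 _ ⟨h6, not_lt.1 h⟩]

theorem g2cnt {ρ a A : ℝ} (hρ : 0 < ρ) (hρ' : 30 * ρ ≤ T.r0) (hρ'' : 30 * ρ ≤ 1 / T.r0)
    (ha : 0 < a) (ha1 : a ≤ 1) (hA : 2 ≤ A) (u : Fin 3) :
    ∑' p : T.V, volume (T.Gd ρ a A u p) ≤
      ∫⁻ θ, ENNReal.ofReal (Real.log (T.tt (a * ρ / 2) u θ / T.tt (30 * ρ) u θ) / Real.log A) := by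
  classical
  have := T.countable_V.to_subtype
  have hm := fun p : T.V => T.measurableSet_Gd hρ ha A u p
  simp only [← lintegral_indicator_one (hm _)]
  rw [← lintegral_tsum fun p => (measurable_one.indicator (hm p)).aemeasurable]
  refine lintegral_mono fun θ => ?_
  set t₀ := T.tt (30 * ρ) u θ with ht₀
  set J := Real.log (T.tt (a * ρ / 2) u θ / t₀) / Real.log A with hJ
  have ht : 0 < t₀ := T.r0_pos.trans_le (T.le_tt (by positivity) hρ'' u θ)
  have hA0 : 0 < A := by linarith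
  have hlA : 0 < Real.log A := Real.log_pos (by linarith)
  let x : T.V → ℝ := fun p => Real.log (‖(p : ℂ) - T.v u‖ / t₀) / Real.log A
  have hx : ∀ p : T.V, θ ∈ T.Gd ρ a A u p → 0 ≤ x p ∧ ∀ c, A * ‖(p : ℂ) - T.v u‖ ≤ c →
      x p + 1 ≤ Real.log (c / t₀) / Real.log A := by
    intro p hp
    have h1 : t₀ ≤ ‖(p : ℂ) - T.v u‖ := T.tt_le_of_dst_lt (by positivity) hp.1 hp.2.2.1
    have h2 : 0 < ‖(p : ℂ) - T.v u‖ / t₀ := div_pos (ht.trans_le h1) ht
    refine ⟨div_nonneg (Real.log_nonneg ((one_le_div ht).2 h1)) hlA.le, fun c hc => ?_⟩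
    change Real.log (‖(p : ℂ) - T.v u‖ / t₀) / Real.log A + 1 ≤ _
    rw [div_add_one hlA.ne', ← Real.log_mul h2.ne' hA0.ne']
    refine div_le_div_of_nonneg_right (Real.log_le_log (mul_pos h2 hA0) ?_) hlA.le
    rw [div_mul_eq_mul_div, mul_comm]
    exact div_le_div_of_nonneg_right hc ht.le
  have hlt : ∀ p q : T.V, θ ∈ T.Gd ρ a A u p → θ ∈ T.Gd ρ a A u q → p ≠ q →
      ‖(p : ℂ) - T.v u‖ ≤ ‖(q : ℂ) - T.v u‖ → ⌊x p⌋₊ < ⌊x q⌋₊ := by
    intro p q hp hq hne hle
    have h1 := (hx p hp).2 _ (T.g2cnt_gap hρ' hp hq (fun h => hne (Subtype.ext h)) hle).le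
    rw [Nat.lt_iff_add_one_le, ← Nat.floor_add_one (hx p hp).1]
    exact Nat.floor_mono h1
  change ∑' p : T.V, (T.Gd ρ a A u p).indicator 1 θ ≤ ENNReal.ofReal J
  rw [ENNReal.tsum_eq_iSup_sum]
  refine iSup_le fun s => ?_
  have h1 : ∑ p ∈ s, (T.Gd ρ a A u p).indicator (1 : Ang → ℝ≥0∞) θ =
      ((s.filter fun p : T.V => θ ∈ T.Gd ρ a A u p).card : ℝ≥0∞) := by
    rw [Finset.card_filter, Nat.cast_sum]
    refine Finset.sum_congr rfl fun p _ => ?_
    by_cases h : θ ∈ T.Gd ρ a A u p <;> simp [h]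
  have h2 : (s.filter fun p : T.V => θ ∈ T.Gd ρ a A u p).card ≤ (Finset.range ⌊J⌋₊).card := by
    refine Finset.card_le_card_of_injOn (fun p => ⌊x p⌋₊) (fun p hp => ?_) fun p hp q hq h => ?_
    · have hp' := (Finset.mem_filter.1 hp).2
      rw [Finset.coe_range, mem_Iio, Nat.lt_iff_add_one_le, ← Nat.floor_add_one (hx p hp').1]
      exact Nat.floor_mono ((hx p hp').2 _ hp'.2.2.2.2)
    · have hp' := (Finset.mem_filter.1 hp).2
      have hq' := (Finset.mem_filter.1 hq).2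
      by_contra hne
      rcases le_total ‖(p : ℂ) - T.v u‖ ‖(q : ℂ) - T.v u‖ with h3 | h3
      · exact (hlt p q hp' hq' hne h3).ne h
      · exact (hlt q p hq' hp' (Ne.symm hne) h3).ne' h
  rw [h1]
  refine (Nat.cast_le.2 h2).trans ?_
  rw [Finset.card_range, ← ENNReal.ofReal_natCast]
  rcases le_total 0 J with h | h
  · exact ENNReal.ofReal_le_ofReal (Nat.floor_le h)
  · simp [Nat.floor_of_nonpos h]

end Tri

end Crest.Agent.R103
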