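import Crest.Agent.R103.G2det
import Crest.Agent.R103.G2cnt

/-! Row 103: a short gap followed by a very long wide flight is rare. -/

set_option autoImplicit false

namespace Crest.Agent.R103

open MeasureTheory Set Filter Topology
open scoped ENNReal ComplexConjugate InnerProductSpace ContDiff

namespace Tri

variable (T : Tri)

/-- the first positive event is near time `k ρ` -/
def G2bT (ρ : ℝ) (k : ℕ) : Set Phase :=
  {y | ∃ τ, T.Ev (10 * ρ) y τ ∧ 0 < τ ∧ |τ - k * ρ| < 14 * ρ} \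
    {y | ∃ τ, T.Ev (10 * ρ) y τ ∧ 0 < τ ∧ τ ≤ k * ρ - 14 * ρ}

theorem measurableSet_G2bT (ρ : ℝ) (k : ℕ) : MeasurableSet (T.G2bT ρ k) := by
  refine MeasurableSet.diff
    (T.measurableSet_ev (10 * ρ) measurable_id
      (Q := {q : Phase × ℝ | 0 < q.2 ∧ |q.2 - k * ρ| < 14 * ρ}) ?_)
    (T.measurableSet_ev (10 * ρ) measurable_id
      (Q := {q : Phase × ℝ | 0 < q.2 ∧ q.2 ≤ k * ρ - 14 * ρ}) ?_)
  · exact (measurableSet_lt measurable_const measurable_snd).inter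
      (measurableSet_lt (measurable_snd.sub_const _).abs measurable_const)
  · exact (measurableSet_lt measurable_const measurable_snd).inter
      (measurableSet_le measurable_snd measurable_const)

theorem G2bT_disjoint {ρ : ℝ} (hρ : 0 < ρ) {k k' : ℕ} (h : k + 28 ≤ k') :
    Disjoint (T.G2bT ρ k) (T.G2bT ρ k') := by
  rw [Set.disjoint_left]
  rintro y ⟨⟨τ, h1, h2, h3⟩, -⟩ ⟨-, h4⟩
  refine h4 ⟨τ, h1, h2, ?_⟩
  have : (k : ℝ) + 28 ≤ k' := by exact_mod_cast h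
  nlinarith [(abs_lt.1 h3).2]

theorem s3_transport {ρ L a A : ℝ} (hρ : 0 < ρ) (hρ' : 30 * ρ ≤ T.r0) {y : Phase} (hg : T.Good y)
    (hr : ∀ k : ℕ, ∃ B, T.Rch (-(k * ρ)) y B) (h : T.S3 ρ L a A y) :
    ∃ k : ℕ, (∃ u, T.S5 ρ L a A u (T.flow (-(k * ρ)) y)) ∧ T.flow (-(k * ρ)) y ∈ T.G2bT ρ k := by
  obtain ⟨τ₂, τ₀, e2, e0, h20, hL, h0, ha, hw⟩ := h
  have hr0 := T.r0_pos
  obtain ⟨τ₁, e1, h10, hL1, hlast⟩ : ∃ τ₁, T.Ev (10 * ρ) y τ₁ ∧ τ₁ < τ₀ ∧ τ₀ < τ₁ + L ∧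
      ∀ τ, τ₁ < τ → τ < τ₀ → ¬ T.Ev (10 * ρ) y τ := by
    let S : Set ℝ := {τ | T.Ev (10 * ρ) y τ ∧ τ₂ ≤ τ ∧ τ < τ₀}
    have hb : BddAbove S := ⟨τ₀, fun τ hτ => hτ.2.2.le⟩
    obtain ⟨τ₁, h1, h2⟩ := exists_lt_of_lt_csSup (s := S) ⟨τ₂, e2, le_rfl, h20⟩
      (sub_lt_self (sSup S) hr0)
    refine ⟨τ₁, h1.1, h1.2.2, by linarith [h1.2.1], fun τ k1 k2 k3 => ?_⟩
    have k4 : τ ≤ sSup S := le_csSup hb ⟨k3, by linarith [h1.2.1], k2⟩
    have k5 := Ev.sep (by linarith) h1.1 k3 k1.ne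
    rw [abs_of_pos (by linarith)] at k5
    linarith
  have hsep := Ev.sep' e1 e0 h10.ne
  rw [abs_of_pos (by linarith)] at hsep
  obtain ⟨h01, h02⟩ := abs_lt.1 h0
  obtain ⟨k, hk1, hk2⟩ : ∃ k : ℕ, k * ρ ≤ -(τ₁ + 2 * T.r0) ∧ -(τ₁ + 2 * T.r0) < (k + 1) * ρ := by
    refine ⟨⌊-(τ₁ + 2 * T.r0) / ρ⌋₊, ?_, ?_⟩
    · rw [← le_div_iff₀ hρ]
      exact Nat.floor_le (div_nonneg (by linarith) hρ.le)
    · rw [← div_lt_iff₀ hρ]
      exact Nat.lt_floor_add_one _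
  obtain ⟨B, hB⟩ := hr k
  obtain ⟨p, hp, hre, him⟩ := e1
  have hp' : T.Att y (-(k * ρ)) p := by
    refine hp.prop (hg _) ?_
    rw [norm_line_sub]
    refine (Complex.norm_le_abs_re_add_abs_im _).trans_lt ?_
    rw [Complex.add_re, Complex.add_im, Complex.ofReal_re, Complex.ofReal_im, add_zero,
      abs_of_nonneg (by linarith)]
    linarith
  obtain ⟨u, hu⟩ := hp'.smul_eq hB.1
  have c1 : (crd (T.v u) (T.flow (-(k * ρ)) y)).re = -τ₁ - k * ρ := by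
    rw [hB.flow_eq, ← hu, crd_smul_re, crd_sh, Complex.add_re, Complex.ofReal_re]
    linarith
  have c2 : |(crd (T.v u) (T.flow (-(k * ρ)) y)).im| < 10 * ρ := by
    rw [hB.flow_eq, ← hu, crd_smul_im, crd_sh, Complex.add_im, Complex.ofReal_im, add_zero]
    exact him
  have c3 : -(k * ρ) + (τ₀ + k * ρ) = τ₀ := by ring
  have c4 : T.Ev (10 * ρ) (T.flow (-(k * ρ)) y) (τ₀ + k * ρ) := by rwa [hB.ev_flow, c3]
  have c5 : ∀ τ, 0 < τ → τ < τ₀ + k * ρ → ¬ T.Ev (10 * ρ) (T.flow (-(k * ρ)) y) τ :=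
    fun τ k1 k2 => by
      rw [hB.ev_flow]
      exact hlast _ (by linarith) (by linarith)
  refine ⟨k, ⟨u, ?_, c2, τ₀ + k * ρ, by linarith, by linarith, c4, c5, ?_, fun τ hτ => ?_⟩,
    ⟨τ₀ + k * ρ, c4, by linarith, by rwa [add_sub_cancel_right]⟩, ?_⟩
  · rw [c1]
    constructor <;> linarith
  · rwa [hB.dst_flow, c3]
  · rw [hB.dst_flow]
    exact hw _ ⟨by linarith [hτ.1], by linarith [hτ.2]⟩
  · rintro ⟨τ, k1, k2, k3⟩
    exact c5 τ k2 (by linarith) k1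

/-- transport to the previous vertex along a time grid -/
theorem s3_le {ρ : ℝ} (L a A : ℝ) (hρ : 0 < ρ) (hρ' : 30 * ρ ≤ T.r0) :
    T.μ {y | T.S3 ρ L a A y} ≤ 29 * T.μ {y | ∃ u, T.S5 ρ L a A u y} := by
  set S' := toMeasurable T.μ {y | ∃ u, T.S5 ρ L a A u y} with hS'
  have hm : MeasurableSet S' := measurableSet_toMeasurable _ _
  have h1 : T.μ {y | T.S3 ρ L a A y} ≤ T.μ (⋃ i : Fin 29, ⋃ m : ℕ,
      T.flow (-((29 * m + i : ℕ) * ρ)) ⁻¹' (S' ∩ T.G2bT ρ (29 * m + i))) := by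
    refine measure_mono_ae ?_
    filter_upwards [T.ae_good, ae_all_iff.2 fun k : ℕ => T.ae_rch (-(k * ρ))] with y hg hr h
    obtain ⟨k, h2, h3⟩ := T.s3_transport hρ hρ' hg hr h
    refine mem_iUnion.2 ⟨⟨k % 29, Nat.mod_lt _ (by norm_num)⟩, mem_iUnion.2 ⟨k / 29, ?_⟩⟩
    rw [Nat.div_add_mod]
    exact ⟨subset_toMeasurable _ _ h2, h3⟩
  refine h1.trans ((measure_iUnion_fintype_le _ _).trans ?_)
  refine (Finset.sum_le_card_nsmul _ _ (T.μ S') fun i _ => ?_).trans ?_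
  · refine (measure_iUnion_le _).trans ?_
    have h2 : ∀ k, MeasurableSet (S' ∩ T.G2bT ρ k) := fun k => hm.inter (T.measurableSet_G2bT ρ k)
    simp only [fun k τ => (T.measurePreserving_flow τ).measure_preimage (h2 k).nullMeasurableSet]
    rw [← measure_iUnion ?_ fun m => h2 _]
    · exact measure_mono (iUnion_subset fun m => inter_subset_left)
    · intro m m' hmm
      rcases lt_or_gt_of_ne hmm with h | h
      · exact (T.G2bT_disjoint hρ (by omega)).mono inter_subset_right inter_subset_right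
      · exact (T.G2bT_disjoint hρ (by omega)).symm.mono inter_subset_right inter_subset_right
  · rw [hS', measure_toMeasurable]
    simp

theorem μ_le_volume (S : Set Phase) : T.μ S ≤ volume S := by
  rw [T.μ_eq]
  exact Measure.restrict_le_self S

theorem μ_rect (p : ℂ) (b ρ c d : ℝ) {φ : ℂ → Ang} (hφ : Measurable φ) {B : Set Ang}
    (hB : MeasurableSet B) (hρ : 0 ≤ ρ) :
    T.μ {y : Phase | ((crd p y).re ∈ Icc b (b + ρ) ∧ (crd p y).im ∈ Icc c d) ∧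
      y.2 + φ (crd p y) ∈ B} ≤ ENNReal.ofReal (ρ * (d - c)) * volume B := by
  have := crd_measure p (Q := {z : ℂ | z.re ∈ Icc b (b + ρ) ∧ z.im ∈ Icc c d})
    ((Complex.measurable_re measurableSet_Icc).inter (Complex.measurable_im measurableSet_Icc))
    hφ hB
  rw [volume_rect, add_sub_cancel_left, ← ENNReal.ofReal_mul hρ] at this
  exact (T.μ_le_volume _).trans this.le

theorem g2b : ∃ C : ℝ, ∀ s₁ a A : ℝ, 0 < s₁ → 0 < a → a ≤ 1 → 2 ≤ A →
    ∃ ρ₁ : ℝ, 0 < ρ₁ ∧ ∀ ρ L : ℝ, 0 < ρ → ρ < ρ₁ → A * L ≤ 1 / ρ →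
    T.μ {y | T.S3 ρ L a A y} ≤
      ENNReal.ofReal (C * ρ ^ 2) * (ENNReal.ofReal a + volume (T.Exc s₁) +
        ∑ j, ∫⁻ θ, ENNReal.ofReal
          (Real.log (T.tt (a * ρ / 2) j θ / T.tt (30 * ρ) j θ) / Real.log A)) := by
  refine ⟨1740, fun s₁ a A hs ha ha1 hA => ?_⟩
  obtain ⟨ρ₁, hρ₁, hdet⟩ := T.g2det hs ha ha1 hA
  have hr0 := T.r0_pos
  refine ⟨min ρ₁ (min (T.r0 / 30) (1 / T.r0 / 30)), by positivity, fun ρ L hρ hlt hAL => ?_⟩
  simp only [lt_min_iff] at hlt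
  obtain ⟨l1, l2, l3⟩ := hlt
  have l2' : 30 * ρ ≤ T.r0 := by linarith
  have l3' : 30 * ρ ≤ 1 / T.r0 := by linarith
  set I : Fin 3 → ℝ≥0∞ := fun j => ∫⁻ θ, ENNReal.ofReal
    (Real.log (T.tt (a * ρ / 2) j θ / T.tt (30 * ρ) j θ) / Real.log A) with hI
  let φ : Fin 3 → ℂ → ℂ → Ang := fun u p ζ =>
    ((Complex.arg (((‖p - T.v u‖ : ℝ) : ℂ) + ((ζ.im : ℝ) : ℂ) * Complex.I) : ℝ) : Ang)
  have hφ : ∀ u p, Measurable (φ u p) := fun u p =>
    AddCircle.measurable_mk'.comp (Complex.measurable_arg.comp (by fun_prop))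
  have key : ∀ u, T.μ {y | T.S5 ρ L a A u y} ≤ ENNReal.ofReal (20 * ρ ^ 2) *
      (ENNReal.ofReal a + volume (T.Exc s₁) + ∑ j, I j) := by
    intro u
    let R : ℝ → ℝ → (ℂ → Ang) → Set Ang → Set Phase := fun c d ψ B =>
      {y : Phase | ((crd (T.v u) y).re ∈ Icc (2 * T.r0) (2 * T.r0 + ρ) ∧
        (crd (T.v u) y).im ∈ Icc c d) ∧ y.2 + ψ (crd (T.v u) y) ∈ B}
    have h1 : T.μ {y | T.S5 ρ L a A u y} ≤ T.μ (((R ((10 - a) * ρ) (10 * ρ) 0 univ ∪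
        R (-(10 * ρ)) (-((10 - a) * ρ)) 0 univ) ∪ R (-(10 * ρ)) (10 * ρ) 0 (T.Exc s₁)) ∪
        ⋃ p ∈ T.V, R (-(10 * ρ)) (10 * ρ) (φ u p) (T.Gd ρ a A u p)) := by
      refine measure_mono_ae ?_
      filter_upwards [T.ae_good] with y hg h
      obtain ⟨k1, k2⟩ := abs_lt.1 h.2.1
      by_cases c1 : |(crd (T.v u) y).im| ≤ (10 - a) * ρ
      · by_cases c2 : y.2 ∈ T.Exc s₁
        · exact Or.inl (Or.inr ⟨⟨h.1, k1.le, k2.le⟩, by simpa using c2⟩)
        · obtain ⟨p, hp, hp'⟩ := hdet ρ L hρ l1 hAL u y hg h c1 c2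
          exact Or.inr (mem_biUnion hp ⟨⟨h.1, k1.le, k2.le⟩, hp'⟩)
      · rcases lt_abs.1 (not_le.1 c1) with c2 | c2
        · exact Or.inl (Or.inl (Or.inl ⟨⟨h.1, c2.le, k2.le⟩, mem_univ _⟩))
        · exact Or.inl (Or.inl (Or.inr ⟨⟨h.1, k1.le, by linarith⟩, mem_univ _⟩))
    have h2 : ∀ c d, d - c = a * ρ → T.μ (R c d 0 univ) ≤
        ENNReal.ofReal (10 * ρ ^ 2) * ENNReal.ofReal a := fun c d hcd => by
      refine (T.μ_rect _ _ _ c d measurable_const MeasurableSet.univ hρ.le).trans ?_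
      rw [AddCircle.measure_univ, hcd, ← ENNReal.ofReal_mul (by positivity),
        ← ENNReal.ofReal_mul (by positivity)]
      refine ENNReal.ofReal_le_ofReal ?_
      nlinarith [mul_le_mul_of_nonneg_left Real.pi_le_four (show 0 ≤ a * ρ ^ 2 by positivity),
        show 0 ≤ a * ρ ^ 2 by positivity]
    have h3 : ∀ (ψ : ℂ → Ang) (B : Set Ang), Measurable ψ → MeasurableSet B →
        T.μ (R (-(10 * ρ)) (10 * ρ) ψ B) ≤ ENNReal.ofReal (20 * ρ ^ 2) * volume B :=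
      fun ψ B k1 k2 => by
        refine (T.μ_rect _ _ _ _ _ k1 k2 hρ.le).trans (le_of_eq ?_)
        congr 2
        ring
    refine h1.trans ((measure_union_le _ _).trans ?_)
    rw [mul_add, mul_add]
    refine add_le_add ((measure_union_le _ _).trans (add_le_add ((measure_union_le _ _).trans ?_)
      (h3 _ _ measurable_const (T.measurableSet_Exc s₁)))) ?_
    · refine (add_le_add (h2 _ _ (by ring)) (h2 _ _ (by ring))).trans (le_of_eq ?_)
      rw [← add_mul, ← ENNReal.ofReal_add (by positivity) (by positivity)]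
      congr 2
      ring
    · refine (measure_biUnion_le _ T.countable_V _).trans ?_
      refine (ENNReal.tsum_le_tsum fun p : T.V =>
        h3 _ _ (hφ u p) (T.measurableSet_Gd hρ ha A u p)).trans ?_
      rw [ENNReal.tsum_mul_left]
      refine mul_le_mul_right ((T.g2cnt hρ l2' l3' ha ha1 hA u).trans ?_) _
      exact Finset.single_le_sum (f := I) (fun _ _ => zero_le) (Finset.mem_univ u)
  refine (T.s3_le L a A hρ l2').trans ?_
  rw [Set.ofPred_exists]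
  refine (mul_le_mul_right ((measure_iUnion_fintype_le _ _).trans
    (Finset.sum_le_card_nsmul _ _ _ fun u _ => key u)) _).trans (le_of_eq ?_)
  rw [show (1740 : ℝ) * ρ ^ 2 = 87 * (20 * ρ ^ 2) by ring, ENNReal.ofReal_mul (by norm_num)]
  simp only [Finset.card_univ, Fintype.card_fin, nsmul_eq_mul, Nat.cast_ofNat,
    ENNReal.ofReal_ofNat, ← mul_assoc]
  norm_num

end Tri

end Crest.Agent.R103
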