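import Crest.Agent.R103.Prong

/-! Row 103: comparison with the separatrix from the previous vertex. -/

set_option autoImplicit false

namespace Crest.Agent.R103

open MeasureTheory Set Filter Topology
open scoped ENNReal ComplexConjugate InnerProductSpace ContDiff

theorem g2_norm_le {x z δ : ℝ} (hx : 0 ≤ x) (hδ : 0 ≤ δ) (h : z ^ 2 ≤ 2 * x * δ) :
    ‖(x : ℂ) + z * Complex.I‖ ≤ x + δ := by
  refine (pow_le_pow_iff_left₀ (norm_nonneg _) (by positivity) two_ne_zero).1 ?_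
  rw [Complex.sq_norm, Complex.normSq_add_mul_I]
  nlinarith [sq_nonneg δ]

theorem g2_re_le (x z : ℝ) : |x| ≤ ‖(x : ℂ) + z * Complex.I‖ := by
  simpa using Complex.abs_re_le_norm ((x : ℂ) + z * Complex.I)

theorem g2_im_le (x z : ℝ) : |z| ≤ ‖(x : ℂ) + z * Complex.I‖ := by
  simpa using Complex.abs_im_le_norm ((x : ℂ) + z * Complex.I)

theorem g2_le_add (x z : ℝ) : ‖(x : ℂ) + z * Complex.I‖ ≤ |x| + |z| := by
  simpa using Complex.norm_le_abs_re_add_abs_im ((x : ℂ) + z * Complex.I)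

theorem g2_line_sub (p : ℂ) (y : Phase) (τ : ℝ) :
    line y τ - p = ((((crd p y).re + τ : ℝ) : ℂ) + ((crd p y).im : ℝ) * Complex.I) * e y.2 := by
  rw [line_sub]
  congr 1
  conv_lhs => rw [← Complex.re_add_im (crd p y)]
  push_cast; ring

theorem g2_norm_line_sub (p : ℂ) (y : Phase) (τ : ℝ) :
    ‖line y τ - p‖ = ‖(((crd p y).re + τ : ℝ) : ℂ) + ((crd p y).im : ℝ) * Complex.I‖ := by
  rw [g2_line_sub, norm_mul, norm_e, mul_one]

theorem g2_e_arg (θ : Ang) {c k : ℝ} (hc : 0 < c) :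
    (‖((1 : ℝ) : ℂ) + k * Complex.I‖ : ℂ) *
      e (θ + ((Complex.arg ((c : ℂ) + ((k * c : ℝ) : ℂ) * Complex.I) : ℝ) : Ang)) =
      (1 + k * Complex.I) * e θ := by
  have h1 : (c : ℂ) + ((k * c : ℝ) : ℂ) * Complex.I = (c : ℂ) * (((1 : ℝ) : ℂ) + k * Complex.I) := by
    push_cast; ring
  rw [h1, Complex.arg_real_mul _ hc, e_add, e_coe, mul_left_comm,
    Complex.norm_mul_exp_arg_mul_I]
  push_cast; ring

/-- Lower bounds for the distance of the orbit from the vertices. -/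
theorem Tri.g2_lower (T : Tri) {a A ρ L r τ₀ c k : ℝ} {y : Phase} {w : ℂ} (ha : 0 < a)
    (ha1 : a ≤ 1) (hA : 2 ≤ A) (hρ : 0 < ρ) (hρ1 : ρ ≤ a * T.r0 / 1000) (hg : T.Good y)
    (hr : r ∈ Icc (2 * T.r0) (2 * T.r0 + ρ)) (h0 : 2 * T.r0 ≤ T.dst y 0) (hτ₀ : T.r0 < τ₀)
    (hL : τ₀ + r < L) (hw : T.Att y τ₀ w) (hre : (crd w y).re + τ₀ = 0)
    (hq : |(crd w y).im| < 10 * ρ) (hq' : a * ρ ≤ |(crd w y).im|)
    (hno : ∀ τ, 0 < τ → τ < τ₀ → ¬ T.Ev (10 * ρ) y τ)
    (hfar : ∀ τ ∈ Icc (τ₀ + 3 * T.r0) (τ₀ + 3 / 2 * A * L), (31 + 10 * A) * ρ ≤ T.dst y τ)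
    (hc : c ∈ Icc (τ₀ + r) (τ₀ + r + ρ)) (hk : |k| * c ≤ (10 - a) * ρ) (hk' : |k| ≤ a / 10)
    {τ : ℝ} (hτ : τ ∈ Icc 0 (A * c - r)) :
    a * ρ / 2 ≤ T.dst y τ - |k| * |r + τ - c| ∧
      (τ₀ + T.r0 / 2 ≤ τ → 30 * ρ < T.dst y τ - |k| * |r + τ - c|) := by
  have hr0 := T.r0_pos
  have hρ2 : ρ ≤ T.r0 / 1000 := hρ1.trans (by nlinarith)
  have hk0 := abs_nonneg k
  have hc0 : 0 < c := by linarith [hc.1, hr.1]
  rcases le_or_gt τ (τ₀ - 10 * ρ) with h1 | h1
  · have h2 : 10 * ρ ≤ T.dst y τ := by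
      rcases le_or_gt τ T.r0 with h3 | h3
      · have := T.abs_dst_sub_le y 0 τ
        rw [zero_sub, abs_neg, abs_of_nonneg hτ.1] at this
        linarith [le_abs_self (T.dst y 0 - T.dst y τ)]
      · by_contra h4
        push Not at h4
        obtain ⟨s, hs, hev⟩ := Tri.ev_of_dst_lt hg (by linarith) h4
        rw [abs_le] at hs
        exact hno s (by linarith [hs.1]) (by linarith [hs.2]) hev
    have h3 : |r + τ - c| ≤ c := abs_le.2 ⟨by linarith [hr.1, hτ.1], by linarith [hc.1]⟩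
    have h4 : |k| * |r + τ - c| ≤ |k| * c := by gcongr
    refine ⟨by nlinarith, fun h => absurd h (by linarith)⟩
  rcases le_or_gt τ (τ₀ + 3 * T.r0) with h2 | h2
  · have e1 : (crd w y).re + τ = τ - τ₀ := by linarith
    have h3 : |τ - τ₀| ≤ 3 * T.r0 := abs_le.2 ⟨by linarith, by linarith⟩
    have hat : T.Att y τ w := hw.prop (hg τ) (by
      rw [g2_norm_line_sub, e1]
      linarith [g2_le_add (τ - τ₀) (crd w y).im])
    have h4 := hat.dst_eq
    rw [g2_norm_line_sub, e1] at h4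
    have h5 := g2_re_le (τ - τ₀) (crd w y).im
    have h6 := g2_im_le (τ - τ₀) (crd w y).im
    rw [← h4] at h5 h6
    have h7 : |r + τ - c| ≤ |τ - τ₀| + ρ :=
      abs_le.2 ⟨by linarith [hc.2, neg_abs_le (τ - τ₀)], by linarith [hc.1, le_abs_self (τ - τ₀)]⟩
    have h8 : |k| * |r + τ - c| ≤ a / 10 * (|τ - τ₀| + ρ) := by gcongr
    have h9 : a * |τ - τ₀| ≤ |τ - τ₀| := mul_le_of_le_one_left (abs_nonneg _) ha1
    refine ⟨by nlinarith, fun h => ?_⟩
    have h10 : T.r0 / 2 ≤ |τ - τ₀| := le_trans (by linarith) (le_abs_self _)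
    nlinarith
  · have h3 : c ≤ 3 / 2 * L := by linarith [hc.2, hr.1]
    have h4 : A * c ≤ A * (3 / 2 * L) := by gcongr
    have h5 := hfar τ ⟨h2.le, by nlinarith [hτ.2, hr.1]⟩
    have h6 : |r + τ - c| ≤ A * c :=
      abs_le.2 ⟨by nlinarith [hr.1, hτ.1], by linarith [hτ.2]⟩
    have h7 : |k| * |r + τ - c| ≤ |k| * (A * c) := by gcongr
    have h8 : A * (|k| * c) ≤ A * (10 * ρ) :=
      mul_le_mul_of_nonneg_left (by nlinarith) (by linarith)
    constructor
    · nlinarith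
    · intro _; nlinarith

set_option maxHeartbeats 2000000 in
theorem Tri.g2det (T : Tri) {s₁ a A : ℝ} (hs : 0 < s₁) (ha : 0 < a) (ha1 : a ≤ 1) (hA : 2 ≤ A) :
    ∃ ρ₁ : ℝ, 0 < ρ₁ ∧ ∀ ρ L : ℝ, 0 < ρ → ρ < ρ₁ → A * L ≤ 1 / ρ → ∀ (u : Fin 3) (y : Phase),
      T.Good y → T.S5 ρ L a A u y → |(crd (T.v u) y).im| ≤ (10 - a) * ρ → y.2 ∉ T.Exc s₁ →
      ∃ p ∈ T.V, y.2 + ((Complex.arg (((‖p - T.v u‖ : ℝ) : ℂ) +
        (((crd (T.v u) y).im : ℝ) : ℂ) * Complex.I) : ℝ) : Ang) ∈ T.Gd ρ a A u p := by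
  have hr0 := T.r0_pos
  refine ⟨min (s₁ * T.r0 / 10) (a * T.r0 / 1000), by positivity, ?_⟩
  intro ρ L hρ hρ1 hAL u y hg ⟨hr, _, τ₀, hτ₀, hL, ⟨w, hw, hre, hq⟩, hno, hq', hfar⟩ hp hexc
  have hρs : ρ < s₁ * T.r0 / 10 := hρ1.trans_le (min_le_left _ _)
  have hρa : ρ < a * T.r0 / 1000 := hρ1.trans_le (min_le_right _ _)
  have hρ2 : ρ ≤ T.r0 / 1000 := hρa.le.trans (by nlinarith)
  have haρ : 0 < a * ρ := by positivity
  have haρ1 : a * ρ ≤ ρ := mul_le_of_le_one_left hρ.le ha1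
  obtain ⟨B, hB⟩ := Tri.dst_pos_iff.1 (hg 0)
  have hy : y.1 ∈ T.Int := hB.int
  refine ⟨w, hw.mem_V, ?_⟩
  set r := (crd (T.v u) y).re with hrdef
  set p := (crd (T.v u) y).im with hpdef
  set q := (crd w y).im with hqdef
  have hp10 : |p| ≤ 10 * ρ := by linarith
  -- the position of `w`
  have hq1 : T.dst y τ₀ = |q| := by
    rw [hw.dst_eq, g2_norm_line_sub, hre, hqdef]; simp
  rw [hq1] at hq'
  have hwv : w - T.v u = (((τ₀ + r : ℝ) : ℂ) + ((p - q : ℝ) : ℂ) * Complex.I) * e y.2 := by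
    have h1 := g2_line_sub (T.v u) y τ₀
    have h2 := g2_line_sub w y τ₀
    rw [hre] at h2
    have : w - T.v u = (line y τ₀ - T.v u) - (line y τ₀ - w) := by ring
    rw [this, h1, h2]; push_cast; ring
  set c := ‖w - T.v u‖ with hcdef
  have hc : c ∈ Icc (τ₀ + r) (τ₀ + r + ρ) := by
    rw [hcdef, hwv, norm_mul, norm_e, mul_one]
    refine ⟨(le_abs_self _).trans (g2_re_le _ _), g2_norm_le (by linarith [hr.1]) hρ.le ?_⟩
    have h1 : |p - q| ≤ 20 * ρ := (abs_sub _ _).trans (by linarith)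
    have h2 : (p - q) ^ 2 ≤ (20 * ρ) ^ 2 := by rw [← sq_abs]; gcongr
    nlinarith [hr.1]
  have hc3 : 3 * T.r0 ≤ c := by linarith [hc.1, hr.1]
  have hc0 : 0 < c := by linarith
  obtain ⟨k, hk⟩ : ∃ k : ℝ, p = k * c := ⟨p / c, by field_simp⟩
  have hkc : |k| * c = |p| := by rw [hk, abs_mul, abs_of_pos hc0]
  have hk0 := abs_nonneg k
  have hka : |k| ≤ a / 10 := by
    refine le_of_mul_le_mul_right ?_ hc0
    nlinarith
  have hks : |k| ≤ s₁ := by
    refine le_of_mul_le_mul_right ?_ hc0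
    nlinarith
  set lam := ‖((1 : ℝ) : ℂ) + k * Complex.I‖ with hlam
  have hl1 : 1 ≤ lam := (le_abs_self 1).trans (g2_re_le 1 k)
  have hl0 : 0 < lam := by linarith
  have hl2 : lam ≤ 1 + k ^ 2 / 2 := g2_norm_le zero_le_one (by positivity) (by linarith)
  have hl3 : lam ≤ 4 / 3 := by
    have := g2_le_add 1 k
    rw [abs_one] at this
    linarith
  have hl4 : c * lam ≤ c + ρ := by
    have h1 : c * k ^ 2 = |p| * |k| := by rw [← hkc, ← sq_abs]; ring
    have h2 : |p| * |k| ≤ 10 * ρ * (1 / 10) := by gcongr; linarith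
    nlinarith
  set θ' := y.2 + ((Complex.arg ((c : ℂ) + (p : ℂ) * Complex.I) : ℝ) : Ang) with hθ'
  have heθ : (lam : ℂ) * e θ' = (1 + k * Complex.I) * e y.2 := by
    rw [hθ', hk]; exact g2_e_arg y.2 hc0
  set γ := T.sep u θ' with hγ
  have hγl : ∀ s : ℝ, line γ (lam * s - T.r0) = T.v u + (s * (1 + k * Complex.I)) * e y.2 := by
    intro s
    rw [hγ, T.line_sep, Complex.real_smul, mul_assoc, ← heθ]; push_cast; ring
  have hγi : ∀ s : ℝ, 0 < s → s ≤ 3 * T.r0 → line γ (lam * s - T.r0) ∈ T.Int := by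
    intro s hs0 hs3
    rw [hγl]
    refine T.sep_int hy hexc (by linarith [hr.1]) (by rw [← hpdef]; linarith) (by simpa using hs0)
      ?_ ?_
    · simp only [Complex.mul_im, Complex.mul_re, Complex.ofReal_re, Complex.ofReal_im,
        Complex.add_re, Complex.add_im, Complex.one_re, Complex.one_im, Complex.I_re,
        Complex.I_im, mul_zero, mul_one, zero_mul, sub_zero, add_zero, zero_add]
      rw [abs_mul, abs_of_pos hs0, mul_comm]
      gcongr
    · rw [norm_mul, Complex.norm_real, Real.norm_of_nonneg hs0.le]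
      have : ‖1 + (k : ℂ) * Complex.I‖ = lam := by rw [hlam]; simp
      rw [this]
      nlinarith
  have hγ1 : γ.1 ∈ T.Int := by
    have := hγi (T.r0 / lam) (by positivity)
      ((div_le_self hr0.le hl1).trans (by linarith))
    rwa [mul_div_cancel₀ _ hl0.ne', sub_self, line_zero] at this
  have hdist : ∀ τ : ℝ, ‖line γ (lam * r - T.r0 + lam * τ) - line y (0 + τ)‖ =
      |k| * |r + τ - c| := by
    intro τ
    have e1 : lam * r - T.r0 + lam * τ = lam * (r + τ) - T.r0 := by ring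
    have e2 : line y τ = T.v u + (line y τ - T.v u) := by ring
    rw [e1, hγl, zero_add, e2, g2_line_sub, ← hrdef, ← hpdef, hk]
    have e3 : T.v u + ((r + τ : ℝ) : ℂ) * (1 + k * Complex.I) * e y.2 -
        (T.v u + (((r + τ : ℝ) : ℂ) + ((k * c : ℝ) : ℂ) * Complex.I) * e y.2) =
        ((k * (r + τ - c) : ℝ) : ℂ) * (Complex.I * e y.2) := by
      push_cast; ring
    rw [e3, norm_mul, norm_mul, Complex.norm_I, norm_e, mul_one, mul_one, Complex.norm_real,
      Real.norm_eq_abs, abs_mul]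
  have h0 : 2 * T.r0 ≤ T.dst y 0 := by
    have h1 := g2_norm_line_sub (T.v u) y 0
    rw [add_zero, ← hrdef, ← hpdef] at h1
    have h2 : T.Att y 0 (T.v u) := Tri.att_zero hy (by
      rw [line_zero] at h1
      rw [h1]
      have := g2_le_add r p
      rw [abs_of_nonneg (by linarith [hr.1])] at this
      linarith [hr.2])
    rw [h2.dst_eq, h1]
    exact hr.1.trans ((le_abs_self _).trans (g2_re_le _ _))
  have hlow := fun τ hτ => T.g2_lower ha ha1 hA hρ hρa.le hg hr h0 hτ₀ hL hw hre hq hq' hno hfar hc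
    (hkc.trans_le hp) hka (τ := τ) hτ
  have hT₀ : 0 ≤ A * c - r := by nlinarith [hr.2]
  have htube := fun τ (hτ : τ ∈ Icc 0 (A * c - r)) =>
    Tri.tube (T := T) (y := y) (y₂ := γ) (t₀ := 0) (g₀ := lam * r - T.r0) (lam := lam)
      (T₀ := A * c - r) hy (by rwa [line_zero]) hγ1
      (hγi r (by linarith [hr.1]) (by linarith [hr.2]))
      (fun τ hτ => by
        rw [uIcc_of_le hT₀] at hτ
        rw [hdist, zero_add]
        linarith [(hlow τ hτ).1])
      (τ := τ) (by rwa [uIcc_of_le hT₀])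
  -- passing from vertex times to times of `y`
  have hvt : ∀ t : ℝ, lam * r - T.r0 + lam * (t / lam - r) = t - T.r0 := by
    intro t; field_simp; ring
  have hmem : ∀ t : ℝ, 4 * T.r0 ≤ t → t ≤ A * c → t / lam - r ∈ Icc 0 (A * c - r) := by
    intro t h1 h2
    have h3 : 3 * T.r0 ≤ t / lam := by rw [le_div_iff₀ hl0]; nlinarith
    have h4 : t / lam ≤ t := div_le_self (by linarith) hl1
    exact ⟨by linarith [hr.2], by linarith⟩
  have hγlow : ∀ t : ℝ, t / lam - r ∈ Icc 0 (A * c - r) →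
      T.dst y (t / lam - r) - |k| * |r + (t / lam - r) - c| ≤ T.dst γ (t - T.r0) := by
    intro t ht
    have h1 := (htube _ ht).1
    rw [hdist, hvt, zero_add] at h1
    linarith [neg_abs_le (T.dst γ (t - T.r0) - T.dst y (t / lam - r))]
  have hcl : c - ρ ≤ c / lam := by
    rw [le_div_iff₀ hl0]; nlinarith
  have hcl' : c / lam ≤ c := div_le_self hc0.le hl1
  have hAc : c ≤ A * c := by nlinarith
  -- the pass near `w`
  have hτc : c / lam - r ∈ Icc 0 (A * c - r) := ⟨by linarith [hc.1], by linarith⟩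
  have hnear : ‖line y (c / lam - r) - w‖ ≤ 11 * ρ := by
    rw [g2_norm_line_sub]
    refine (g2_le_add _ _).trans ?_
    have : |(crd w y).re + (c / lam - r)| ≤ ρ :=
      abs_le.2 ⟨by linarith [hc.1], by linarith [hc.2]⟩
    linarith
  have hnear' : ‖line γ (c - T.r0) - w‖ ≤ 12 * ρ := by
    have h1 := hdist (c / lam - r)
    rw [hvt, zero_add] at h1
    have h2 : |r + (c / lam - r) - c| ≤ ρ := abs_le.2 ⟨by linarith, by linarith⟩
    have h3 : |k| * |r + (c / lam - r) - c| ≤ 1 * ρ := by gcongr; linarith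
    have h4 := norm_sub_le_norm_sub_add_norm_sub (line γ (c - T.r0)) (line y (c / lam - r)) w
    linarith
  have hatt : T.Att γ (c - T.r0) w := by
    have h1 := (htube _ hτc).2 w (by
      rw [zero_add]; exact hw.prop (hg _) (by linarith))
    rw [hvt] at h1
    exact h1 (by linarith)
  refine ⟨by linarith, hatt, by rw [hatt.dst_eq]; linarith, fun t ht => ?_, ?_⟩
  · have hm := hmem t (by linarith [ht.1]) ht.2
    refine lt_of_lt_of_le ((hlow _ hm).2 ?_) (hγlow t hm)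
    have h1 : (c + T.r0) / lam ≤ t / lam := by gcongr; exact ht.1
    have h2 : 3 / 4 * T.r0 ≤ T.r0 / lam := by rw [le_div_iff₀ hl0]; nlinarith
    rw [add_div] at h1
    linarith [hc.1]
  · refine T.le_tt_of_dst (by positivity) ?_ fun t h1 h2 => ?_
    · have h3 : c ≤ 3 / 2 * L := by linarith [hc.2, hr.1]
      have h4 : A * c ≤ A * (3 / 2 * L) := by gcongr
      have h5 : 1 / ρ ≤ 1 / (a * ρ) := one_div_le_one_div_of_le haρ haρ1
      have h6 : 1 / (a * ρ / 2) = 2 * (1 / (a * ρ)) := by field_simp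
      have h7 : 0 < 1 / (a * ρ) := by positivity
      rw [h6]
      nlinarith
    · rcases lt_or_ge t (4 * T.r0) with h3 | h3
      · rw [T.dst_sep hγ1 (by linarith) h3]
        linarith
      · have hm := hmem t h3 h2.le
        exact (hlow _ hm).1.trans (hγlow t hm)

end Crest.Agent.R103
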