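import Crest.Agent.R103.Defs

/-! Row 103: reduction of the ergodicity of the product flow to Hilbert-valued functions. -/

set_option autoImplicit false

namespace Crest.Agent.R103

open MeasureTheory Set Filter Topology
open scoped ENNReal ComplexConjugate InnerProductSpace ContDiff

namespace HilbertAux

section Group

variable {E : Type} [NormedAddCommGroup E] [InnerProductSpace ℂ E] [CompleteSpace E]

/-- a measurable one-parameter group of isometries -/
structure Grp (E : Type) [NormedAddCommGroup E] [InnerProductSpace ℂ E] where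
  V : ℝ → E →ₗᵢ[ℂ] E
  add : ∀ s t g, V s (V t g) = V (s + t) g
  meas : ∀ g, StronglyMeasurable fun t => V t g

variable (G : Grp E)

omit [CompleteSpace E] in
theorem Grp.zero (g : E) : G.V 0 g = g := by
  have := G.add 0 0 g
  rw [add_zero] at this
  exact (G.V 0).injective this

omit [CompleteSpace E] in
theorem Grp.smul (t r : ℝ) (g : E) : G.V t (r • g) = r • G.V t g := by
  rw [← Complex.coe_smul, map_smul, Complex.coe_smul]

omit [CompleteSpace E] in
theorem Grp.integrable {k : ℝ → ℝ} (hk : Integrable k) (g : E) :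
    Integrable fun t => k t • G.V t g := by
  refine Integrable.mono' (hk.norm.mul_const ‖g‖)
    (hk.aestronglyMeasurable.smul (G.meas g).aestronglyMeasurable) (ae_of_all _ fun t => ?_)
  rw [norm_smul, LinearIsometry.norm_map]

/-- smoothing operator -/
noncomputable def Grp.T {k : ℝ → ℝ} (hk : Integrable k) : E →L[ℝ] E :=
  LinearMap.mkContinuous
    { toFun := fun g => ∫ t, k t • G.V t g
      map_add' := fun g g' => by
        rw [← integral_add (G.integrable hk g) (G.integrable hk g')]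
        simp only [map_add, smul_add]
      map_smul' := fun r g => by
        rw [RingHom.id_apply, ← integral_smul]
        simp only [G.smul, smul_comm r] } (∫ t, ‖k t‖) fun g => by
      change ‖∫ t, k t • G.V t g‖ ≤ _
      refine (norm_integral_le_integral_norm _).trans (le_of_eq ?_)
      rw [← integral_mul_const]
      simp only [norm_smul, LinearIsometry.norm_map]

omit [CompleteSpace E] in
theorem Grp.T_apply {k : ℝ → ℝ} (hk : Integrable k) (g : E) :
    G.T hk g = ∫ t, k t • G.V t g := rfl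

theorem Grp.V_T {k : ℝ → ℝ} (hk : Integrable k) (s : ℝ) (g : E) :
    G.V s (G.T hk g) = ∫ t, k t • G.V (s + t) g := by
  rw [G.T_apply, ← LinearIsometry.integral_comp_comm]
  simp only [G.smul, G.add]

theorem Grp.T_V {k : ℝ → ℝ} (hk : Integrable k) (s : ℝ) (g : E) :
    G.T hk (G.V s g) = G.V s (G.T hk g) := by
  rw [G.V_T, G.T_apply]
  simp only [G.add, add_comm]

omit [CompleteSpace E] in
theorem Grp.locInt (g : E) {a : ℝ → ℝ} (ha : Measurable a) :
    LocallyIntegrable fun t => G.V (a t) g := by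
  have h1 : MemLp (fun t => G.V (a t) g) ⊤ volume :=
    memLp_top_of_bound ((G.meas g).comp_measurable ha).aestronglyMeasurable ‖g‖
      (ae_of_all _ fun t => (LinearIsometry.norm_map _ _).le)
  exact h1.locallyIntegrable le_top

open scoped Convolution in
theorem Grp.hasDerivAt {k : ℝ → ℝ} (hk : ContDiff ℝ 1 k) (hc : HasCompactSupport k)
    (h1 : Integrable k) (h2 : Integrable (deriv k)) (g : E) (τ : ℝ) :
    HasDerivAt (fun τ => G.V (-τ) (G.T h1 g)) (G.V (-τ) (G.T h2 g)) τ := by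
  have key : ∀ (k : ℝ → ℝ) (h : Integrable k) (τ : ℝ), G.V (-τ) (G.T h g) =
      (k ⋆[ContinuousLinearMap.lsmul ℝ ℝ, volume] fun t => G.V (-t) g) τ := by
    intro k h τ
    rw [G.V_T, convolution_def]
    refine integral_congr_ae (ae_of_all _ fun t => ?_)
    simp only [ContinuousLinearMap.lsmul_apply]
    rw [neg_sub, neg_add_eq_sub]
  simp only [key]
  exact hc.hasDerivAt_convolution_left _ hk (G.locInt g measurable_neg) τ

omit [CompleteSpace E] in
theorem taylor2 {f f' f'' : ℝ → E} (h1 : ∀ τ, HasDerivAt f (f' τ) τ)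
    (h2 : ∀ τ, HasDerivAt f' (f'' τ) τ) {C : ℝ} (hC : ∀ τ, ‖f'' τ‖ ≤ C) (τ : ℝ) :
    ‖f τ - f 0 - τ • f' 0‖ ≤ C * τ ^ 2 := by
  have h0 : 0 ≤ C := (norm_nonneg _).trans (hC 0)
  have hA : ∀ σ, ‖f' σ - f' 0‖ ≤ C * ‖σ - 0‖ := fun σ =>
    convex_univ.norm_image_sub_le_of_norm_hasDerivWithin_le
      (fun x _ => (h2 x).hasDerivWithinAt) (fun x _ => hC x) (mem_univ 0) (mem_univ σ)
  have hB := (convex_closedBall (0 : ℝ) |τ|).norm_image_sub_le_of_norm_hasDerivWithin_le
    (f := fun σ => f σ - σ • f' 0) (f' := fun σ => f' σ - f' 0) (C := C * |τ|) (x := 0) (y := τ)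
    (fun x _ => by
      have := ((h1 x).sub ((hasDerivAt_id x).smul_const (f' 0))).hasDerivWithinAt
        (s := Metric.closedBall (0 : ℝ) |τ|)
      rw [one_smul] at this
      exact this)
    (fun x hx => (hA x).trans (by
      rw [mem_closedBall_zero_iff] at hx
      rw [sub_zero]
      gcongr))
    (Metric.mem_closedBall_self (abs_nonneg _)) (by simp)
  simp only [zero_smul, sub_zero, Real.norm_eq_abs] at hB
  rw [mul_assoc, abs_mul_abs_self, ← sq] at hB
  convert hB using 2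
  abel

theorem Grp.eq_zero (w : E) (h : ∀ (k : ℝ → ℝ) (hk : Integrable k), ContDiff ℝ ∞ k →
    HasCompactSupport k → G.T hk w = 0) : w = 0 := by
  have h1 := ae_eq_zero_of_integral_contDiff_smul_eq_zero (G.locInt w measurable_id)
    fun k hk hc => h k (hk.continuous.integrable_of_hasCompactSupport hc) hk hc
  obtain ⟨t, ht⟩ := h1.exists
  exact (G.V t).injective (by simpa using ht)

theorem Grp.const {Ω : Type} [MeasurableSpace Ω] {μ : Measure Ω} [IsFiniteMeasure μ] [NeZero μ]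
    {φ : ℝ → Ω → Ω} (H : ∀ S : Sys μ φ E, ∃ c, ∀ᵐ y ∂μ, S.f y = c) {u : Ω → E}
    (hu : StronglyMeasurable u) {B : ℝ} (hB : ∀ a, ‖u a‖ ≤ B)
    (hinv : ∀ τ, ∀ᵐ a ∂μ, G.V τ (u (φ τ a)) = u a) : ∃ c, ∀ᵐ a ∂μ, u a = c := by
  have hint : Integrable u μ :=
    Integrable.of_bound hu.aestronglyMeasurable B (ae_of_all _ hB)
  have key : ∀ (k : ℝ → ℝ) (hk : Integrable k), ContDiff ℝ ∞ k → HasCompactSupport k →
      ∃ c, ∀ᵐ a ∂μ, G.T hk (u a) = c := by
    intro k h0 hk hc
    have hk1 : ContDiff ℝ ∞ (deriv k) := (contDiff_infty_iff_deriv.1 hk).2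
    have hk2 : ContDiff ℝ ∞ (deriv (deriv k)) := (contDiff_infty_iff_deriv.1 hk1).2
    have h1 : Integrable (deriv k) := hk1.continuous.integrable_of_hasCompactSupport hc.deriv
    have h2 : Integrable (deriv (deriv k)) :=
      hk2.continuous.integrable_of_hasCompactSupport hc.deriv.deriv
    have hb : ∀ (T : E →L[ℝ] E) (a : Ω), ‖T (u a)‖ ≤ ‖T‖ * |B| := fun T a =>
      T.le_opNorm_of_le ((hB a).trans (le_abs_self B))
    have p0 : 0 ≤ ‖G.T h0‖ * |B| := by positivity
    have p1 : 0 ≤ ‖G.T h1‖ * |B| := by positivity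
    have p2 : 0 ≤ ‖G.T h2‖ * |B| := by positivity
    refine H
      { f := fun a => G.T h0 (u a)
        h := fun a => G.T h1 (u a)
        fs := fun τ a => G.V (-τ) (G.T h0 (u a))
        M := ‖G.T h0‖ * |B| + ‖G.T h1‖ * |B| + ‖G.T h2‖ * |B|
        f_meas := (G.T h0).continuous.comp_stronglyMeasurable hu
        h_meas := (G.T h1).continuous.comp_stronglyMeasurable hu
        f_bdd := fun a => (hb _ a).trans (by linarith)
        h_bdd := fun a => (hb _ a).trans (by linarith)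
        flow_ae := fun τ => ?_
        inner_fs := fun τ a b => LinearIsometry.inner_map_map _ _ _
        taylor := fun τ a => ?_ }
    · filter_upwards [hinv τ] with a ha
      rw [← G.T_V, ← ha, G.add, neg_add_cancel, G.zero]
    · have := taylor2 (G.hasDerivAt (hk.of_le (by simp)) hc h0 h1 (u a))
        (G.hasDerivAt (hk1.of_le (by simp)) hc.deriv h1 h2 (u a))
        (C := ‖G.T h0‖ * |B| + ‖G.T h1‖ * |B| + ‖G.T h2‖ * |B|)
        (fun σ => by rw [LinearIsometry.norm_map]; exact (hb _ a).trans (by linarith)) τ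
      simpa only [neg_zero, G.zero, Complex.coe_smul] using this
  refine ⟨⨍ a, u a ∂μ, ?_⟩
  have hint' : Integrable (fun a => u a - ⨍ a, u a ∂μ) μ := hint.sub (integrable_const _)
  have h3 : (fun a => u a - ⨍ a, u a ∂μ) =ᵐ[μ] 0 := by
    refine hint'.ae_eq_zero_of_forall_setIntegral_eq_zero fun s _ _ => ?_
    refine G.eq_zero _ fun k h0 hk hc => ?_
    obtain ⟨c, hc⟩ := key k h0 hk hc
    have h4 : G.T h0 (⨍ a, u a ∂μ) = c := by
      rw [average_eq, map_smul, ← (G.T h0).integral_comp_comm hint, ← average_eq,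
        average_congr (g := fun _ => c) hc, average_const]
    rw [← (G.T h0).integral_comp_comm hint'.integrableOn]
    refine integral_eq_zero_of_ae (ae_restrict_of_ae ?_)
    filter_upwards [hc] with a ha
    simp [ha, h4]
  filter_upwards [h3] with a ha
  exact sub_eq_zero.1 ha

end Group

theorem stronglyMeasurable_Lp {X Ω : Type} [MeasurableSpace X] [MeasurableSpace Ω]
    [StandardBorelSpace Ω] {μ : Measure Ω} [IsFiniteMeasure μ] {g : X → Lp ℂ 2 μ}
    {F : X × Ω → ℂ} (hF : Measurable F) (hg : ∀ x, g x =ᵐ[μ] fun o => F (x, o)) :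
    StronglyMeasurable g := by
  have : Fact ((2 : ℝ≥0∞) ≠ ⊤) := ⟨by norm_num⟩
  borelize ↥(Lp ℂ 2 μ)
  refine Measurable.stronglyMeasurable ?_
  have hb : TopologicalSpace.IsTopologicalBasis
      {U : Set (Lp ℂ 2 μ) | ∃ c r, U = Metric.ball c r} := by
    refine TopologicalSpace.isTopologicalBasis_of_isOpen_of_nhds ?_ fun a U ha hU => ?_
    · rintro _ ⟨c, r, rfl⟩
      exact Metric.isOpen_ball
    · obtain ⟨r, hr, h⟩ := Metric.isOpen_iff.1 hU a ha
      exact ⟨_, ⟨a, r, rfl⟩, Metric.mem_ball_self hr, h⟩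
  have hd : ∀ c : Lp ℂ 2 μ, Measurable fun x => dist (g x) c := by
    intro c
    have h1 : ∀ x, dist (g x) c =
        ((∫⁻ o, ‖F (x, o) - c o‖ₑ ^ (2 : ℝ≥0∞).toReal ∂μ) ^ (1 / (2 : ℝ≥0∞).toReal)).toReal := by
      intro x
      rw [Lp.dist_def, eLpNorm_eq_lintegral_rpow_enorm_toReal (by norm_num) (by norm_num)]
      congr 2
      refine lintegral_congr_ae ?_
      filter_upwards [hg x] with o ho
      simp only [Pi.sub_apply, ho]
    simp only [h1]
    have hc : Measurable c := (Lp.stronglyMeasurable c).measurable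
    refine Measurable.ennreal_toReal (Measurable.pow_const ?_ _)
    exact Measurable.lintegral_prod_right'
      (f := fun z : X × Ω => ‖F z - c z.2‖ₑ ^ (2 : ℝ≥0∞).toReal) (by fun_prop)
  change @Measurable _ _ _ (borel (Lp ℂ 2 μ)) g
  rw [hb.borel_eq_generateFrom]
  refine measurable_generateFrom ?_
  rintro _ ⟨c, r, rfl⟩
  exact measurableSet_lt (hd c) measurable_const

open scoped symmDiff in
theorem section_const {Ω : Type} [MeasurableSpace Ω] [StandardBorelSpace Ω]
    (μ : Measure Ω) [IsFiniteMeasure μ] [NeZero μ] (φ : ℝ → Ω → Ω)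
    (hm : Measurable fun q : ℝ × Ω => φ q.1 q.2) (hmp : ∀ τ, MeasurePreserving (φ τ) μ μ)
    (hadd : ∀ s t, ∀ᵐ y ∂μ, φ s (φ t y) = φ (s + t) y)
    (H : ∀ S : Sys μ φ (Lp ℂ 2 μ), ∃ c, ∀ᵐ y ∂μ, S.f y = c)
    (s : Set (Ω × Ω)) (hs : MeasurableSet s)
    (hinv : ∀ τ, ∀ᵐ z ∂(μ.prod μ), ((φ τ z.1, φ τ z.2) ∈ s ↔ z ∈ s)) :
    ∃ B : Set Ω, MeasurableSet B ∧ ∀ᵐ z ∂(μ.prod μ), (z ∈ s ↔ z.2 ∈ B) := by
  classical
  have hV : ∀ t (g : Lp ℂ 2 μ), Lp.compMeasurePreservingₗᵢ ℂ (φ t) (hmp t) g =ᵐ[μ]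
      fun o => g (φ t o) := fun t g => Lp.coeFn_compMeasurePreserving g (hmp t)
  let G : Grp (Lp ℂ 2 μ) :=
    { V := fun t => Lp.compMeasurePreservingₗᵢ ℂ (φ t) (hmp t)
      add := fun s t g => by
        refine Lp.ext ?_
        filter_upwards [hV s (Lp.compMeasurePreservingₗᵢ ℂ (φ t) (hmp t) g),
          (hmp s).quasiMeasurePreserving.ae (hV t g), hV (s + t) g, hadd t s] with o h1 h2 h3 h4
        rw [h1, h2, h3, h4, add_comm]
      meas := fun g => stronglyMeasurable_Lp (F := fun z : ℝ × Ω => g (φ z.1 z.2))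
        ((Lp.stronglyMeasurable g).measurable.comp hm) fun t => hV t g }
  have hsa : ∀ a, MeasurableSet (Prod.mk a ⁻¹' s) := fun a => measurable_prodMk_left hs
  let u : Ω → Lp ℂ 2 μ := fun a => indicatorConstLp 2 (hsa a) (measure_ne_top _ _) 1
  have hu : ∀ a, u a =ᵐ[μ] fun o => s.indicator (fun _ => (1 : ℂ)) (a, o) := fun a =>
    indicatorConstLp_coeFn
  have hum : StronglyMeasurable u :=
    stronglyMeasurable_Lp (measurable_const.indicator hs) hu
  have hub : ∀ a, ‖u a‖ ≤ μ.real univ ^ (1 / (2 : ℝ≥0∞).toReal) := by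
    intro a
    refine (norm_indicatorConstLp_le (hs := hsa a) (hμs := measure_ne_top _ _)).trans ?_
    rw [norm_one, one_mul]
    gcongr
    · exact measure_ne_top _ _
    · exact subset_univ _
  obtain ⟨c, hc⟩ := G.const H hum hub fun τ => by
    filter_upwards [Measure.ae_ae_of_ae_prod (hinv τ)] with a ha
    refine Lp.ext ?_
    filter_upwards [hV τ (u (φ τ a)), (hmp τ).quasiMeasurePreserving.ae (hu (φ τ a)), hu a, ha]
      with o h1 h2 h3 h4
    change Lp.compMeasurePreservingₗᵢ ℂ (φ τ) (hmp τ) (u (φ τ a)) o = _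
    rw [h1, h2, h3]
    simp only [indicator, h4]
  obtain ⟨a₀, ha₀⟩ := hc.exists
  refine ⟨_, hsa a₀, ?_⟩
  refine (Measure.ae_prod_iff_ae_ae (hs.mem.iff (measurable_snd (hsa a₀)).mem).setOf).2 ?_
  filter_upwards [hc] with a ha
  have h1 := hu a
  rw [ha, ← ha₀] at h1
  filter_upwards [h1, hu a₀] with o h2 h3
  have h4 := h2.symm.trans h3
  by_cases p : (a, o) ∈ s <;> by_cases q : (a₀, o) ∈ s <;> simp_all

end HilbertAux

open scoped symmDiff in
theorem prod_ergodic_of_sys {Ω : Type} [MeasurableSpace Ω] [StandardBorelSpace Ω]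
    (μ : Measure Ω) [IsFiniteMeasure μ] (φ : ℝ → Ω → Ω)
    (hm : Measurable fun q : ℝ × Ω => φ q.1 q.2) (hmp : ∀ τ, MeasurePreserving (φ τ) μ μ)
    (hadd : ∀ s t, ∀ᵐ y ∂μ, φ s (φ t y) = φ (s + t) y)
    (H : ∀ S : Sys μ φ (Lp ℂ 2 μ), ∃ c, ∀ᵐ y ∂μ, S.f y = c)
    (s : Set (Ω × Ω)) (hs : MeasurableSet s)
    (hinv : ∀ τ, (μ.prod μ) (((fun z : Ω × Ω => (φ τ z.1, φ τ z.2)) ⁻¹' s) ∆ s) = 0) :
    (μ.prod μ) s = 0 ∨ (μ.prod μ) sᶜ = 0 := by
  rcases eq_zero_or_neZero μ with rfl | hμ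
  · simp
  have hinv' : ∀ τ, ∀ᵐ z ∂(μ.prod μ), ((φ τ z.1, φ τ z.2) ∈ s ↔ z ∈ s) := fun τ => by
    filter_upwards [(measure_symmDiff_eq_zero_iff.1 (hinv τ)).mem_iff] with z hz
    exact hz
  obtain ⟨B, hB, h1⟩ := HilbertAux.section_const μ φ hm hmp hadd H s hs hinv'
  obtain ⟨A, hA, h2⟩ := HilbertAux.section_const μ φ hm hmp hadd H (Prod.swap ⁻¹' s)
    (measurable_swap hs) fun τ =>
      Measure.measurePreserving_swap.quasiMeasurePreserving.ae (hinv' τ)
  have h3 : ∀ᵐ z ∂(μ.prod μ), (z ∈ s ↔ z.1 ∈ A) :=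
    Measure.measurePreserving_swap.quasiMeasurePreserving.ae h2
  have h4 : ∀ᵐ z ∂(μ.prod μ), (z.2 ∈ B ↔ z.1 ∈ A) := by
    filter_upwards [h1, h3] with z p q
    rw [← p, q]
  obtain ⟨a, ha⟩ := (Measure.ae_ae_of_ae_prod h4).exists
  have h5 := Measure.quasiMeasurePreserving_snd (μ := μ) (ν := μ).ae ha
  by_cases haA : a ∈ A
  · right
    rw [← mem_ae_iff]
    filter_upwards [h1, h5] with z p q
    exact p.2 (q.2 haA)
  · left
    rw [measure_eq_zero_iff_ae_notMem]
    filter_upwards [h1, h5] with z p q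
    exact fun hz => haA (q.1 (p.1 hz))

end Crest.Agent.R103
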