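import Crest.Agent.R103.Defs

/-! Row 103: choice of the scale and of the cutting length. -/

set_option autoImplicit false

namespace Crest.Agent.R103

open MeasureTheory Set Filter Topology
open scoped ENNReal ComplexConjugate InnerProductSpace ContDiff

namespace JumpAux

lemma exists_step {h : ℕ → ℝ} {c c' : ℝ} (hh : ∀ i, h i ≤ c * i + c') :
    ∃ i, h (i + 1) - h i ≤ c + 1 := by
  by_contra hc
  push Not at hc
  have h1 : ∀ n : ℕ, h 0 + (c + 1) * n ≤ h n := fun n => by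
    induction n with
    | zero => simp
    | succ n ih => have := hc n; push_cast; linarith
  obtain ⟨n, hn⟩ := exists_nat_gt (c' - h 0)
  have := h1 n
  have := hh n
  linarith

lemma avg_le {u : ℕ → ℝ} {c c' : ℝ} (hc : 0 ≤ c) (hu : ∀ i, u i ≤ c * i + c') {m : ℕ}
    (hm : 0 < m) (i : ℕ) : (∑ l ∈ Finset.range m, u (i + l)) / m ≤ c * i + (c * m + c') := by
  have hm' : (0 : ℝ) < m := Nat.cast_pos.2 hm
  rw [div_le_iff₀ hm']
  calc ∑ l ∈ Finset.range m, u (i + l) ≤ ∑ _l ∈ Finset.range m, (c * i + (c * m + c')) :=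
        Finset.sum_le_sum fun l hl => by
          have h1 : (l : ℝ) ≤ m := Nat.cast_le.2 (Finset.mem_range.1 hl).le
          have := hu (i + l)
          push_cast at this
          nlinarith
    _ = _ := by rw [Finset.sum_const, Finset.card_range, nsmul_eq_mul, mul_comm]

lemma avg_step (u : ℕ → ℝ) (m i : ℕ) :
    ∑ l ∈ Finset.range m, u (i + 1 + l) - ∑ l ∈ Finset.range m, u (i + l) = u (i + m) - u i := by
  have h1 := Finset.sum_range_succ (fun l => u (i + l)) m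
  have h2 := Finset.sum_range_succ' (fun l => u (i + l)) m
  simp only [add_zero] at h2
  have h3 : ∑ l ∈ Finset.range m, u (i + 1 + l) = ∑ l ∈ Finset.range m, u (i + (l + 1)) :=
    Finset.sum_congr rfl fun l _ => by rw [add_assoc, add_comm 1]
  linarith

lemma two_steps {u v : ℕ → ℝ} {c c' : ℝ} (hc : 0 ≤ c) (hu : ∀ i, u i ≤ c * i + c')
    (hv : ∀ i, v i ≤ c * i + c') (mu : Monotone u) (mv : Monotone v) {m₁ m₂ : ℕ} (h1 : 0 < m₁)
    (h2 : 0 < m₂) :
    ∃ i, u (i + m₁) - u i ≤ (2 * c + 1) * m₁ ∧ v (i + m₂) - v i ≤ (2 * c + 1) * m₂ := by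
  have h1' : (0 : ℝ) < m₁ := Nat.cast_pos.2 h1
  have h2' : (0 : ℝ) < m₂ := Nat.cast_pos.2 h2
  obtain ⟨i, hi⟩ := exists_step (c := 2 * c) (c' := (c * m₁ + c') + (c * m₂ + c'))
    (h := fun i => (∑ l ∈ Finset.range m₁, u (i + l)) / m₁ +
      (∑ l ∈ Finset.range m₂, v (i + l)) / m₂) fun i => by
    have := avg_le hc hu h1 i
    have := avg_le hc hv h2 i
    linarith
  have h3 : (u (i + m₁) - u i) / m₁ + (v (i + m₂) - v i) / m₂ ≤ 2 * c + 1 := by
    rw [← avg_step, ← avg_step, sub_div, sub_div]; linarith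
  have h4 : 0 ≤ (u (i + m₁) - u i) / m₁ :=
    div_nonneg (sub_nonneg.2 (mu (Nat.le_add_right _ _))) h1'.le
  have h5 : 0 ≤ (v (i + m₂) - v i) / m₂ :=
    div_nonneg (sub_nonneg.2 (mv (Nat.le_add_right _ _))) h2'.le
  exact ⟨i, (div_le_iff₀ h1').1 (by linarith), (div_le_iff₀ h2').1 (by linarith)⟩

lemma count_le {x y L : ℝ} (hx : 0 < x) (hxy : x ≤ y) (Λ : ℕ) :
    (((Finset.range Λ).filter fun l : ℕ =>
      x ≤ L * Real.exp (-l) ∧ L * Real.exp (-l) ≤ y).card : ℝ) ≤ 1 + Real.log (y / x) := by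
  set S := (Finset.range Λ).filter fun l : ℕ => x ≤ L * Real.exp (-l) ∧ L * Real.exp (-l) ≤ y
  have h0 : 0 ≤ Real.log (y / x) := Real.log_nonneg ((one_le_div hx).2 hxy)
  rcases S.eq_empty_or_nonempty with h | h
  · rw [h]; simp only [Finset.card_empty, Nat.cast_zero]; linarith
  have h1 := (Finset.mem_filter.1 (S.min'_mem h)).2.2
  have h2 := (Finset.mem_filter.1 (S.max'_mem h)).2.1
  have h3 : S ⊆ Finset.Icc (S.min' h) (S.max' h) := fun l hl =>
    Finset.mem_Icc.2 ⟨S.min'_le l hl, S.le_max' l hl⟩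
  have h4 := Finset.card_le_card h3
  rw [Nat.card_Icc] at h4
  have h5 : S.min' h ≤ S.max' h := S.min'_le_max' h
  have h6 : (S.card : ℝ) ≤ S.max' h + 1 - S.min' h := by
    have : S.card + S.min' h ≤ S.max' h + 1 := by omega
    have : ((S.card + S.min' h : ℕ) : ℝ) ≤ ((S.max' h + 1 : ℕ) : ℝ) := Nat.cast_le.2 this
    push_cast at this; linarith
  have h7 : (S.max' h : ℝ) - S.min' h ≤ Real.log (y / x) := by
    rw [Real.le_log_iff_exp_le (div_pos (hx.trans_le hxy) hx), le_div_iff₀ hx]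
    calc Real.exp ((S.max' h : ℝ) - S.min' h) * x
        ≤ Real.exp ((S.max' h : ℝ) - S.min' h) * (L * Real.exp (-(S.max' h : ℝ))) := by gcongr
      _ = L * Real.exp (-(S.min' h : ℝ)) := by
          rw [mul_left_comm, ← Real.exp_add]; congr 2; ring
      _ ≤ y := h1
  linarith

lemma exists_pow (x : ℝ) : ∃ m : ℕ, 0 < m ∧ x ≤ 2 ^ m := by
  obtain ⟨m, hm⟩ := pow_unbounded_of_one_lt x (one_lt_two (α := ℝ))
  exact ⟨m + 1, m.succ_pos, hm.le.trans (pow_le_pow_right₀ one_le_two m.le_succ)⟩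

end JumpAux

open JumpAux in
theorem jump {ι Θ : Type} [Fintype ι] [MeasurableSpace Θ] (ν : Measure Θ) [IsFiniteMeasure ν]
    {r : ℝ} (hr : 0 < r) (t : ℝ → ι → Θ → ℝ) (hm : ∀ s j, Measurable (t s j))
    (hanti : ∀ j θ s s', 0 < s → s ≤ s' → s' ≤ 1 / r → t s' j θ ≤ t s j θ)
    (hlb : ∀ j θ s, 0 < s → s ≤ 1 / r → r ≤ t s j θ)
    (hub : ∀ j θ s, 0 < s → s ≤ 1 / r → t s j θ ≤ 1 / s)
    {η a : ℝ} (hη : 0 < η) (ha : 0 < a) (ha1 : a ≤ 1) :
    ∃ A : ℝ, 2 ≤ A ∧ ∀ b δ₂ : ℝ, 30 ≤ b → 0 < δ₂ → ∃ δ₁ : ℝ, 0 < δ₁ ∧ ∀ ρ₀ : ℝ, 0 < ρ₀ →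
      ∃ ρ L : ℝ, 0 < ρ ∧ ρ < ρ₀ ∧ δ₁ / ρ ≤ L ∧ L ≤ δ₂ / ρ ∧ ∀ j,
        (∫⁻ θ, ENNReal.ofReal (Real.log (t (a * ρ) j θ / t (30 * ρ) j θ) / Real.log A) ∂ν ≤
          ENNReal.ofReal η) ∧
        ν {θ | t (b * ρ) j θ / (2 * A) ≤ L ∧ L ≤ 3 * t (a * ρ) j θ} ≤ ENNReal.ofReal η := by
  classical
  set N : ℝ := Fintype.card ι * ν.real univ with hN
  have hN0 : 0 ≤ N := by positivity
  set c : ℝ := N * Real.log 2 with hc
  have hc0 : 0 ≤ c := mul_nonneg hN0 (Real.log_nonneg one_le_two)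
  have hpos : ∀ j θ s, 0 < s → s ≤ 1 / r → 0 < t s j θ := fun j θ s h1 h2 =>
    hr.trans_le (hlb j θ s h1 h2)
  have hint : ∀ j s, 0 < s → s ≤ 1 / r → Integrable (fun θ => Real.log (t s j θ)) ν := by
    intro j s h1 h2
    refine Integrable.of_bound (Real.measurable_log.comp (hm s j)).aestronglyMeasurable
      (|Real.log r| + |Real.log (1 / s)|) (Eventually.of_forall fun θ => ?_)
    have h3 := Real.log_le_log hr (hlb j θ s h1 h2)
    have h4 := Real.log_le_log (hpos j θ s h1 h2) (hub j θ s h1 h2)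
    rw [Real.norm_eq_abs, abs_le]
    constructor
    · linarith [neg_abs_le (Real.log r), abs_nonneg (Real.log (1 / s))]
    · linarith [le_abs_self (Real.log (1 / s)), abs_nonneg (Real.log r)]
  set F : ℝ → ι → ℝ := fun s j => ∫ θ, Real.log (t s j θ) ∂ν with hF
  have hFa : ∀ j s s', 0 < s → s ≤ s' → s' ≤ 1 / r → F s' j ≤ F s j := fun j s s' h1 h2 h3 =>
    integral_mono (hint j s' (h1.trans_le h2) h3) (hint j s h1 (h2.trans h3)) fun θ =>
      Real.log_le_log (hpos j θ s' (h1.trans_le h2) h3) (hanti j θ s s' h1 h2 h3)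
  set G : ℝ → ℝ := fun s => ∑ j, F s j with hG
  have hGa : ∀ s s', 0 < s → s ≤ s' → s' ≤ 1 / r → G s' ≤ G s := fun s s' h1 h2 h3 =>
    Finset.sum_le_sum fun j _ => hFa j s s' h1 h2 h3
  have hGb : ∀ s, 0 < s → s ≤ 1 / r → G s ≤ N * Real.log (1 / s) := fun s h1 h2 => by
    calc G s ≤ ∑ _j : ι, ν.real univ * Real.log (1 / s) := Finset.sum_le_sum fun j _ => by
          have := integral_mono (hint j s h1 h2) (integrable_const (Real.log (1 / s))) fun θ =>
            Real.log_le_log (hpos j θ s h1 h2) (hub j θ s h1 h2)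
          rwa [integral_const, smul_eq_mul] at this
      _ = _ := by rw [Finset.sum_const, Finset.card_univ, nsmul_eq_mul, hN, mul_assoc]
  have hsingle : ∀ j s s', 0 < s → s ≤ s' → s' ≤ 1 / r → F s j - F s' j ≤ G s - G s' := by
    intro j s s' h1 h2 h3
    rw [hG]
    simp only [← Finset.sum_sub_distrib]
    exact Finset.single_le_sum (f := fun j => F s j - F s' j)
      (fun j _ => sub_nonneg.2 (hFa j s s' h1 h2 h3)) (Finset.mem_univ j)
  obtain ⟨m₁, hm₁, hm₁'⟩ := exists_pow (30 / a)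
  set A : ℝ := Real.exp ((2 * c + 1) * m₁ / η) + 2 with hA
  have hA2 : 2 ≤ A := le_add_of_nonneg_left (Real.exp_pos _).le
  have hlA : (2 * c + 1) * m₁ / η ≤ Real.log A := by
    rw [Real.le_log_iff_exp_le (by linarith)]; linarith
  have hlA0 : 0 < Real.log A := Real.log_pos (by linarith)
  refine ⟨A, hA2, fun b δ₂ hb hδ₂ => ?_⟩
  obtain ⟨m₂, hm₂, hm₂'⟩ := exists_pow (b / a)
  set Z : ℝ := N * (1 + Real.log (6 * A)) + (2 * c + 1) * m₂ with hZ
  obtain ⟨Λ, hΛ⟩ := exists_nat_gt (max 0 (Z / η))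
  have hΛ0 : 0 < Λ := Nat.cast_pos.1 ((le_max_left _ _).trans_lt hΛ)
  have hΛ1 : Z ≤ Λ * η := ((div_lt_iff₀ hη).1 ((le_max_right _ _).trans_lt hΛ)).le
  refine ⟨δ₂ * Real.exp (-Λ), by positivity, fun ρ₀ hρ₀ => ?_⟩
  have hb0 : 0 < b := by linarith
  set ρ₁ : ℝ := min (ρ₀ / 2) (1 / r / b) with hρ₁
  have hρ₁0 : 0 < ρ₁ := lt_min (by positivity) (by positivity)
  have hρ₁b : b * ρ₁ ≤ 1 / r := by
    rw [mul_comm]; exact (le_div_iff₀ hb0).1 (min_le_right _ _)
  have hle : ∀ i : ℕ, ρ₁ / 2 ^ i ≤ ρ₁ := fun i => div_le_self hρ₁0.le (one_le_pow₀ one_le_two)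
  have hadm : ∀ x, x ≤ b → ∀ i : ℕ, x * (ρ₁ / 2 ^ i) ≤ 1 / r := fun x hx i =>
    (mul_le_mul hx (hle i) (by positivity) hb0.le).trans hρ₁b
  have hlin : ∀ x, 30 ≤ x → x ≤ b → ∀ i : ℕ,
      G (x * (ρ₁ / 2 ^ i)) ≤ c * i + N * Real.log (1 / ρ₁) := fun x hx hx' i => by
    have hx0 : 0 < x := by linarith
    refine (hGb _ (by positivity) (hadm x hx' i)).trans ?_
    have h1 : Real.log (1 / (x * (ρ₁ / 2 ^ i))) ≤ Real.log (2 ^ i * (1 / ρ₁)) := by
      refine Real.log_le_log (by positivity) ?_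
      have : 1 / (x * (ρ₁ / 2 ^ i)) = 2 ^ i * (1 / ρ₁) / x := by field_simp
      rw [this]
      exact div_le_self (by positivity) (by linarith)
    rw [Real.log_mul (by positivity) (by positivity), Real.log_pow] at h1
    calc _ ≤ N * (i * Real.log 2 + Real.log (1 / ρ₁)) := by gcongr
      _ = _ := by rw [hc]; ring
  have hmono : ∀ x, 30 ≤ x → x ≤ b → Monotone fun i : ℕ => G (x * (ρ₁ / 2 ^ i)) :=
    fun x hx hx' i i' hi => by
      have hx0 : 0 < x := by linarith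
      refine hGa _ _ (by positivity) ?_ (hadm x hx' i)
      gcongr
      exact one_le_two
  obtain ⟨i, hi1, hi2⟩ := two_steps hc0 (hlin 30 le_rfl hb) (hlin b hb le_rfl)
    (hmono 30 le_rfl hb) (hmono b hb le_rfl) hm₁ hm₂
  set ρ : ℝ := ρ₁ / 2 ^ i with hρ
  have hρ0 : 0 < ρ := by positivity
  have hab : a ≤ b := by linarith
  have haρ : 0 < a * ρ := by positivity
  have hcmp : ∀ (x : ℝ) (m : ℕ), 0 < x → x / a ≤ 2 ^ m →
      G (a * ρ) ≤ G (x * (ρ₁ / 2 ^ (i + m))) := fun x m hx hxm => by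
    refine hGa _ _ (by positivity) ?_ (hadm a hab i)
    have : x * (ρ₁ / 2 ^ (i + m)) = x / 2 ^ m * ρ := by rw [hρ, pow_add]; field_simp
    rw [this]
    refine mul_le_mul_of_nonneg_right ?_ hρ0.le
    rw [div_le_iff₀ (by positivity), mul_comm]
    exact (div_le_iff₀ ha).1 hxm
  have hJ1 : G (a * ρ) - G (30 * ρ) ≤ (2 * c + 1) * m₁ := by
    have := hcmp 30 m₁ (by norm_num) hm₁'; linarith
  have hJ2 : G (a * ρ) - G (b * ρ) ≤ (2 * c + 1) * m₂ := by
    have := hcmp b m₂ hb0 hm₂'; linarith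
  have h30 : a * ρ ≤ 30 * ρ := by gcongr; linarith
  have hbρ : a * ρ ≤ b * ρ := by gcongr
  have h30' : 30 * ρ ≤ 1 / r := hadm 30 hb i
  have hb' : b * ρ ≤ 1 / r := hadm b le_rfl i
  have ha' : a * ρ ≤ 1 / r := hadm a hab i
  set Bad : ℕ → ι → Set Θ := fun l j => {θ | t (b * ρ) j θ / (2 * A) ≤ δ₂ / ρ * Real.exp (-l) ∧
    δ₂ / ρ * Real.exp (-l) ≤ 3 * t (a * ρ) j θ} with hBad
  have hBm : ∀ l j, MeasurableSet (Bad l j) := fun l j =>
    (measurableSet_le ((hm _ j).div_const _) measurable_const).inter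
      (measurableSet_le measurable_const ((hm _ j).const_mul _))
  have hcount : ∀ j, ∑ l ∈ Finset.range Λ, ν.real (Bad l j) ≤
      ν.real univ * (1 + Real.log (6 * A)) + (F (a * ρ) j - F (b * ρ) j) := fun j => by
    have hia := hint j _ haρ ha'
    have hib := hint j _ (haρ.trans_le hbρ) hb'
    have h1 : ∀ l, Integrable ((Bad l j).indicator (1 : Θ → ℝ)) ν := fun l =>
      (integrable_const (1 : ℝ)).indicator (hBm l j)
    calc ∑ l ∈ Finset.range Λ, ν.real (Bad l j)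
        = ∫ θ, ∑ l ∈ Finset.range Λ, (Bad l j).indicator (1 : Θ → ℝ) θ ∂ν := by
          rw [integral_finsetSum _ fun l _ => h1 l]
          exact Finset.sum_congr rfl fun l _ => (integral_indicator_one (hBm l j)).symm
      _ ≤ ∫ θ, (1 + Real.log (6 * A)) +
            (Real.log (t (a * ρ) j θ) - Real.log (t (b * ρ) j θ)) ∂ν := by
          refine integral_mono (integrable_finsetSum _ fun l _ => h1 l)
            ((integrable_const _).add (hia.sub hib)) fun θ => ?_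
          have pa := hpos j θ _ haρ ha'
          have pb := hpos j θ _ (haρ.trans_le hbρ) hb'
          have pab := hanti j θ _ _ haρ hbρ hb'
          have h2 := count_le (x := t (b * ρ) j θ / (2 * A)) (y := 3 * t (a * ρ) j θ)
            (L := δ₂ / ρ) (by positivity)
            ((div_le_self pb.le (by linarith)).trans (by linarith)) Λ
          have h3 : 3 * t (a * ρ) j θ / (t (b * ρ) j θ / (2 * A)) =
              6 * A * (t (a * ρ) j θ / t (b * ρ) j θ) := by field_simp; ring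
          rw [h3, Real.log_mul (by positivity) (by positivity), Real.log_div pa.ne' pb.ne',
            ← add_assoc, Finset.card_filter] at h2
          refine le_trans (le_of_eq ?_) h2
          push_cast
          refine Finset.sum_congr rfl fun l _ => ?_
          simp only [indicator, hBad, mem_ofPred_eq, Pi.one_apply]
      _ = _ := by
          rw [integral_add (integrable_const _) (hia.sub' hib), integral_sub hia hib,
            integral_const, smul_eq_mul]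
  have hsum : ∑ l ∈ Finset.range Λ, ∑ j, ν.real (Bad l j) ≤ ∑ _l ∈ Finset.range Λ, η := by
    rw [Finset.sum_comm, Finset.sum_const, Finset.card_range, nsmul_eq_mul]
    refine (Finset.sum_le_sum fun j _ => hcount j).trans (le_trans ?_ hΛ1)
    rw [Finset.sum_add_distrib, Finset.sum_sub_distrib, Finset.sum_const, Finset.card_univ,
      nsmul_eq_mul, ← mul_assoc]
    exact add_le_add le_rfl hJ2
  obtain ⟨l, hl, hl'⟩ := Finset.exists_le_of_sum_le ⟨0, Finset.mem_range.2 hΛ0⟩ hsum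
  have hlΛ : (l : ℝ) ≤ Λ := Nat.cast_le.2 (Finset.mem_range.1 hl).le
  refine ⟨ρ, δ₂ / ρ * Real.exp (-l), hρ0, ?_, ?_, ?_, fun j => ⟨?_, ?_⟩⟩
  · exact ((hle i).trans (min_le_left _ _)).trans_lt (by linarith)
  · rw [mul_div_right_comm]; gcongr
  · exact mul_le_of_le_one_right (by positivity)
      (Real.exp_le_one_iff.2 (neg_nonpos.2 (Nat.cast_nonneg l)))
  · have hia := hint j _ haρ ha'
    have hib := hint j _ (haρ.trans_le h30) h30'
    have h1 : ∀ θ, Real.log (t (a * ρ) j θ / t (30 * ρ) j θ) =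
        Real.log (t (a * ρ) j θ) - Real.log (t (30 * ρ) j θ) := fun θ =>
      Real.log_div (hpos j θ _ haρ ha').ne' (hpos j θ _ (haρ.trans_le h30) h30').ne'
    simp only [h1]
    rw [← ofReal_integral_eq_lintegral_ofReal ((hia.sub' hib).div_const _)
      (Eventually.of_forall fun θ => div_nonneg (sub_nonneg.2 (Real.log_le_log
        (hpos j θ _ (haρ.trans_le h30) h30') (hanti j θ _ _ haρ h30 h30'))) hlA0.le)]
    refine ENNReal.ofReal_le_ofReal ?_
    rw [integral_div, integral_sub hia hib, div_le_iff₀ hlA0]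
    have h2 := hsingle j _ _ haρ h30 h30'
    have h3 := (div_le_iff₀ hη).1 hlA
    simp only [hF] at h2
    linarith
  · have h1 : ν.real (Bad l j) ≤ η :=
      (Finset.single_le_sum (f := fun j => ν.real (Bad l j)) (fun j _ => measureReal_nonneg)
        (Finset.mem_univ j)).trans hl'
    rw [← ofReal_measureReal (measure_ne_top ν _)]
    exact ENNReal.ofReal_le_ofReal h1

end Crest.Agent.R103
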