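import Crest.Agent.R103.OscB

/-! Row 103: the gradient of the mollified cut function is small on the annuli. -/

set_option autoImplicit false

namespace Crest.Agent.R103

open MeasureTheory Set Filter Topology
open scoped ENNReal ComplexConjugate InnerProductSpace ContDiff

variable {E : Type} [NormedAddCommGroup E] [InnerProductSpace ℂ E] [CompleteSpace E]

namespace OscAux
open Metric

variable {T : Tri} {κ ρ L : ℝ}

/-- base of the tower -/
def P (T : Tri) (κ ρ L : ℝ) : Set Phase :=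
  {y | y.1 ∈ T.Int ∧ 2 * ρ ≤ T.d y.1 ∧ T.d y.1 ≤ 3 * ρ ∧ Out T κ y ∧ RLk T κ ρ L y}

theorem measurableSet_ann (T : Tri) (ρ : ℝ) :
    MeasurableSet {y : Phase | 2 * ρ ≤ T.d y.1 ∧ T.d y.1 ≤ 3 * ρ} :=
  ((isClosed_le continuous_const (T.continuous_d.comp continuous_fst)).inter
    (isClosed_le (T.continuous_d.comp continuous_fst) continuous_const)).measurableSet

theorem measurableSet_P (hκ : κ = 1 ∨ κ = -1) (hρ : 0 ≤ ρ) : MeasurableSet (P T κ ρ L) := by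
  have : P T κ ρ L = (Prod.fst ⁻¹' T.Int ∩ {y : Phase | 2 * ρ ≤ T.d y.1 ∧ T.d y.1 ≤ 3 * ρ}) ∩
      ({y | Out T κ y} ∩ {y | RLk T κ ρ L y}) := by
    ext y; simp only [P, mem_inter_iff, mem_preimage, mem_ofPred_eq]; tauto
  rw [this]
  exact ((measurable_fst T.isOpen_Int.measurableSet).inter (measurableSet_ann T ρ)).inter
    ((measurableSet_Out T κ).inter (measurableSet_RLk hκ hρ))

theorem norm_fs_sub (S : Sys T.μ T.flow E) (τ : ℝ) (a b : Phase) :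
    ‖S.fs τ a - S.fs τ b‖ = ‖S.f a - S.f b‖ := by
  have : ⟪S.fs τ a - S.fs τ b, S.fs τ a - S.fs τ b⟫_ℂ = ⟪S.f a - S.f b, S.f a - S.f b⟫_ℂ := by
    simp only [inner_sub_left, inner_sub_right, S.inner_fs]
  rw [norm_eq_sqrt_re_inner (𝕜 := ℂ), this, ← norm_eq_sqrt_re_inner (𝕜 := ℂ)]

theorem ae_ell_add (T : Tri) (x : ℂ) : ∀ᵐ w ∂(volume : Measure ℂ), ∀ j, T.ell j (x + w) ≠ 0 :=
  (measurePreserving_add_left volume x).quasiMeasurePreserving.ae T.ae_ell_ne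

theorem fold_tr_int {y : Phase} {w : ℂ} (hρ : 0 < ρ) (hy : y.1 ∈ T.Int) (hd : ρ ≤ T.d y.1)
    (hw : ‖w‖ < T.c0 * ρ / 4) (h0 : ∀ j, T.ell j (y.1 + w) ≠ 0) :
    (T.fold (tr w y)).1 ∈ T.Int := by
  rw [T.fold_fst]
  refine T.foldG_mem_Int (T.Int_subset_D0 hy) ?_ h0
  have := T.c0_pos
  show ‖y.1 + w - y.1‖ < _
  rw [add_sub_cancel_left]
  nlinarith

theorem ext_tr {F : Phase → E} {z : Phase} (h : (T.fold z).1 ∈ T.Int) :
    T.ext F z = F (T.fold z) := by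
  unfold Tri.ext
  rw [if_pos h]

theorem osc_inv (S : Sys T.μ T.flow E) (hκ : κ = 1 ∨ κ = -1) (hρ : 0 < ρ) (hr : 14 * ρ ≤ T.r0)
    {τ : ℝ} (hτ : τ ∈ Icc 0 (L + 4 * ρ)) :
    ∀ᵐ y ∂T.μ, y ∈ P T κ ρ L →
      O (T.c0 * ρ / 4) (T.ext S.f) y = O (T.c0 * ρ / 4) (T.ext S.f) (T.flow (κ * τ) y) := by
  have h1 := ae_mono (μ_le T) (ae_tr (T.ae_fold (S.flow_ae (κ * τ))))
  filter_upwards [T.ae_good, T.ae_rch (κ * τ), S.flow_ae (κ * τ), h1] with y hg hA hf hw hP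
  obtain ⟨A, hA⟩ := hA
  obtain ⟨hy, h2, h3, ho, hL⟩ := hP
  have hlow : ∀ s ∈ Icc 0 τ, ρ < T.dst y (κ * s) := fun s hs =>
    (lt_dst_of_RLk hκ hρ hr hy hg h2 h3 ho hL ⟨hs.1, hs.2.trans hτ.2⟩).1
  have hd' : ρ ≤ T.d (T.flow (κ * τ) y).1 := by
    rw [← Tri.dst_zero hA.flow_int, hA.dst_flow, add_zero]
    exact (hlow τ ⟨hτ.1, le_rfl⟩).le
  unfold O
  rw [← (lin_mp_ball A _).lintegral_comp (measurable_dif' (T.stronglyMeasurable_ext S.f_meas)
    (T.flow (κ * τ) y))]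
  refine lintegral_congr_ae ?_
  have h4 := (lin_mp A).quasiMeasurePreserving.ae (ae_ell_add T (T.flow (κ * τ) y).1)
  filter_upwards [ae_restrict_mem measurableSet_ball, ae_restrict_of_ae hw,
    ae_restrict_of_ae (ae_ell_add T y.1), ae_restrict_of_ae h4] with w hb hw1 hw2 hw3
  rw [mem_ball_zero_iff] at hb
  have hi := fold_tr_int hρ hy (by linarith) hb hw2
  have hi' := fold_tr_int hρ hA.flow_int hd' (by rwa [A.norm_lin]) hw3
  have h5 := ((Tri.tube_fold hi (tube_hyp hκ hρ hτ.1 hlow hb) right_mem_uIcc).2 A hA hi').2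
  unfold dif
  rw [ext_tr hi, ext_tr hi', T.ext_of_mem _ hy, T.ext_of_mem _ hA.flow_int, ← h5, hw1 hi, hf,
    norm_fs_sub]

theorem flow_zero (T : Tri) {y : Phase} (hy : y.1 ∈ T.Int) : T.flow 0 y = y := by
  rw [(Tri.rch_one hy (by simpa using hy)).flow_eq, sh_zero, one_smul]

theorem sum_le_of_single {s : Finset ℕ} {a : ℕ → ℝ≥0∞} {c : ℝ≥0∞} (h1 : ∀ k ∈ s, a k ≤ c)
    (h2 : ∀ k ∈ s, ∀ l ∈ s, k < l → a k = 0 ∨ a l = 0) : ∑ k ∈ s, a k ≤ c := by
  by_cases h : ∃ k ∈ s, a k ≠ 0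
  · obtain ⟨k, hk, hk0⟩ := h
    rw [Finset.sum_eq_single_of_mem k hk]
    · exact h1 k hk
    · intro l hl hlk
      rcases lt_or_gt_of_ne hlk with h | h
      · exact (h2 l hl k hk h).resolve_right hk0
      · exact (h2 k hk l hl h).resolve_left hk0
  · push Not at h
    rw [Finset.sum_eq_zero h]
    exact zero_le

theorem tower (S : Sys T.μ T.flow E) (hκ : κ = 1 ∨ κ = -1) (hρ : 0 < ρ) (hr : 14 * ρ ≤ T.r0)
    (n : ℕ) (hn : 8 * ρ * n ≤ L) :
    ((n + 1 : ℕ) : ℝ≥0∞) * ∫⁻ y in P T κ ρ L, O (T.c0 * ρ / 4) (T.ext S.f) y ∂T.μ ≤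
      ∫⁻ y, O (T.c0 * ρ / 4) (T.ext S.f) y ∂T.μ := by
  set G := O (T.c0 * ρ / 4) (T.ext S.f) with hG
  have hGm : Measurable G := measurable_O _ (T.stronglyMeasurable_ext S.f_meas)
  have hPm : MeasurableSet (P T κ ρ L) := measurableSet_P hκ hρ.le
  have hIm : Measurable ((P T κ ρ L).indicator G) := hGm.indicator hPm
  set t : ℕ → ℝ := fun k => -(κ * (8 * ρ * k)) with ht
  have h1 : ∀ k, ∫⁻ y in P T κ ρ L, G y ∂T.μ =
      ∫⁻ z, (P T κ ρ L).indicator G (T.flow (t k) z) ∂T.μ := fun k => by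
    rw [(T.measurePreserving_flow (t k)).lintegral_comp hIm, lintegral_indicator hPm]
  have h2 : ((n + 1 : ℕ) : ℝ≥0∞) * ∫⁻ y in P T κ ρ L, G y ∂T.μ =
      ∫⁻ z, ∑ k ∈ Finset.range (n + 1), (P T κ ρ L).indicator G (T.flow (t k) z) ∂T.μ := by
    rw [lintegral_finsetSum (f := fun k z => (P T κ ρ L).indicator G (T.flow (t k) z)) _
      fun k _ => hIm.comp (T.measurePreserving_flow (t k)).measurable]
    simp only [← h1]
    rw [Finset.sum_const, Finset.card_range, nsmul_eq_mul]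
  rw [h2]
  refine lintegral_mono_ae ?_
  have hk : ∀ k : ℕ, k ≤ n → 8 * ρ * (k : ℝ) ≤ L := fun k hk =>
    le_trans (mul_le_mul_of_nonneg_left (by exact_mod_cast hk) (by positivity)) hn
  have a1 : ∀ᵐ z ∂T.μ, ∀ k : ℕ, k ≤ n → (P T κ ρ L).indicator G (T.flow (t k) z) ≤ G z := by
    refine ae_all_iff.2 fun k => ?_
    by_cases hkn : k ≤ n
    swap
    · exact Eventually.of_forall fun z h => absurd h hkn
    have h3 := (T.measurePreserving_flow (t k)).quasiMeasurePreserving.ae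
      (osc_inv (L := L) S hκ hρ hr (τ := 8 * ρ * k) ⟨by positivity, by linarith [hk k hkn]⟩)
    filter_upwards [h3, T.flow_add (κ * (8 * ρ * k)) (t k), T.ae_int] with z hz1 hz2 hz3 _
    by_cases hm : T.flow (t k) z ∈ P T κ ρ L
    · rw [indicator_of_mem hm, hG, hz1 hm, hz2, ht, add_neg_cancel, flow_zero T hz3]
    · rw [indicator_of_notMem hm]; exact zero_le
  have a2 : ∀ᵐ z ∂T.μ, ∀ k l : ℕ, k < l → l ≤ n →
      T.flow (t k) z ∈ P T κ ρ L → T.flow (t l) z ∉ P T κ ρ L := by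
    refine ae_all_iff.2 fun k => ae_all_iff.2 fun l => ?_
    have h3 := (T.measurePreserving_flow (t l)).quasiMeasurePreserving.ae
      (T.ae_rch (κ * (8 * ρ * l - 8 * ρ * k)))
    have h4 := (T.measurePreserving_flow (t l)).quasiMeasurePreserving.ae T.ae_good
    filter_upwards [h3, h4, T.flow_add (κ * (8 * ρ * l - 8 * ρ * k)) (t l)] with z hz1 hz2 hz3
      hkl hln hPk hPl
    obtain ⟨A, hA⟩ := hz1
    have e : κ * (8 * ρ * l - 8 * ρ * k) + t l = t k := by simp only [ht]; ring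
    rw [e] at hz3
    have h5 : (k : ℝ) + 1 ≤ l := by exact_mod_cast hkl
    have h6 : 8 * ρ ≤ 8 * ρ * l - 8 * ρ * k := by nlinarith
    have h7 : (0 : ℝ) ≤ 8 * ρ * k := by positivity
    obtain ⟨hy, b2, b3, ho, hL⟩ := hPl
    have h8 := (lt_dst_of_RLk hκ hρ hr hy hz2 b2 b3 ho hL (τ := 8 * ρ * l - 8 * ρ * k)
      ⟨by linarith, by linarith [hk l hln]⟩).2 h6
    have h9 := hA.dst_flow 0
    rw [hz3, add_zero, Tri.dst_zero hPk.1] at h9
    linarith [hPk.2.2.1]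
  filter_upwards [a1, a2] with z hz1 hz2
  refine sum_le_of_single (fun k hk => hz1 k (Nat.lt_succ_iff.1 (Finset.mem_range.1 hk)))
    fun k _ l hl hkl => ?_
  by_cases hm : T.flow (t k) z ∈ P T κ ρ L
  · exact Or.inr (indicator_of_notMem
      (hz2 k l hkl (Nat.lt_succ_iff.1 (Finset.mem_range.1 hl)) hm) _)
  · exact Or.inl (indicator_of_notMem hm _)

theorem lintegral_tr_le {B : Set Phase} (hB : MeasurableSet B) (ε : ℝ) (c : ℝ≥0∞) :
    ∫⁻ y, (∫⁻ w in ball (0 : ℂ) ε, B.indicator (fun _ => c) (tr w y)) ∂T.μ ≤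
      c * volume B * volume (ball (0 : ℂ) ε) := by
  refine (lintegral_mono' (μ_le T) le_rfl).trans (le_of_eq ?_)
  have hm : Measurable (B.indicator fun _ => c) := measurable_const.indicator hB
  rw [lintegral_lintegral_swap (f := fun y w => B.indicator (fun _ => c) (tr w y))
    (hm.comp continuous_tr.measurable).aemeasurable,
    ← setLIntegral_const]
  refine lintegral_congr fun w => ?_
  rw [(measurePreserving_tr w).lintegral_comp hm, lintegral_indicator_const hB]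

theorem half (S : Sys T.μ T.flow E) (hκ : κ = 1 ∨ κ = -1) (hρ : 0 < ρ) (hr : 14 * ρ ≤ T.r0)
    (hL0 : 0 ≤ L) {b : ℝ≥0∞} (h1 : T.μ {y | T.d y.1 < 14 * ρ ∧ T.W (10 * ρ) L y} ≤ b)
    (h2 : T.μ {y | T.d y.1 < 4 * ρ ∧ ¬ T.RL ρ L y ∧ ¬ T.RS ρ L y} ≤ b) :
    ∫⁻ y in {y | (2 * ρ ≤ T.d y.1 ∧ T.d y.1 ≤ 3 * ρ) ∧ Out T κ y},
        O (T.c0 * ρ / 4) (T.cut ρ L S.f) y ∂T.μ ≤
      ENNReal.ofReal (4 * S.M ^ 2) * (6 * b) * volume (ball (0 : ℂ) (T.c0 * ρ / 4)) +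
        ∫⁻ y in P T κ ρ L, O (T.c0 * ρ / 4) (T.ext S.f) y ∂T.μ := by
  set ε := T.c0 * ρ / 4 with hε
  set c := ENNReal.ofReal (4 * S.M ^ 2) with hc
  set V := volume (ball (0 : ℂ) ε) with hV
  set B := {y | T.d y.1 < 14 * ρ ∧ T.W (10 * ρ) L y} with hB
  set B2 := {y | T.d y.1 < 4 * ρ ∧ ¬ RLk T κ ρ L y ∧ ¬ RSk T κ ρ L y} with hB2
  set B' := {z | (T.fold z).1 ∈ T.Int ∧ T.fold z ∈ B} with hB'
  have hBm : MeasurableSet B :=
    (isOpen_lt (T.continuous_d.comp continuous_fst) continuous_const).measurableSet.inter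
      (T.measurableSet_W _ _)
  have hB'm : MeasurableSet B' :=
    T.measurable_fold ((measurable_fst T.isOpen_Int.measurableSet).inter hBm)
  have hPm : MeasurableSet (P T κ ρ L) := measurableSet_P hκ hρ.le
  have hgm : StronglyMeasurable (T.ext S.f) := T.stronglyMeasurable_ext S.f_meas
  have hm : Measurable fun q : Phase × ℂ => B'.indicator (fun _ => c) (tr q.2 q.1) :=
    (measurable_const.indicator hB'm).comp continuous_tr.measurable
  have hAm : MeasurableSet {y : Phase | (2 * ρ ≤ T.d y.1 ∧ T.d y.1 ≤ 3 * ρ) ∧ Out T κ y} :=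
    (measurableSet_ann T ρ).inter (measurableSet_Out T κ)
  have key : ∀ᵐ y ∂T.μ,
      {y : Phase | (2 * ρ ≤ T.d y.1 ∧ T.d y.1 ≤ 3 * ρ) ∧ Out T κ y}.indicator
        (O ε (T.cut ρ L S.f)) y ≤ (B ∪ B2).indicator (fun _ => c * V) y +
        ((∫⁻ w in ball (0 : ℂ) ε, B'.indicator (fun _ => c) (tr w y)) +
          (P T κ ρ L).indicator (O ε (T.ext S.f)) y) := by
    have a1 := ae_mono (μ_le T) (ae_tr (T.ae_fold T.ae_good))
    filter_upwards [T.ae_int, T.ae_good, a1] with y hy hg hw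
    by_cases hA : y ∈ {y : Phase | (2 * ρ ≤ T.d y.1 ∧ T.d y.1 ≤ 3 * ρ) ∧ Out T κ y}
    swap
    · rw [indicator_of_notMem hA]; exact zero_le
    rw [indicator_of_mem hA]
    obtain ⟨⟨d2, d3⟩, ho⟩ := hA
    by_cases hb : y ∈ B ∪ B2
    · rw [indicator_of_mem hb]
      refine le_add_right ?_
      rw [hV, ← setLIntegral_const]
      exact lintegral_mono fun w => dif_le (T.norm_cut_le ρ L S.f_bdd) y w
    refine le_add_left ?_
    rw [mem_union, not_or] at hb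
    have hint : (P T κ ρ L).indicator (O ε (T.ext S.f)) y =
        ∫⁻ w in ball (0 : ℂ) ε, (P T κ ρ L).indicator (fun y => dif (T.ext S.f) y w) y := by
      by_cases hP : y ∈ P T κ ρ L
      · simp only [indicator_of_mem hP]; rfl
      · simp only [indicator_of_notMem hP, lintegral_zero]
    have hmy : Measurable fun w : ℂ => B'.indicator (fun _ => c) (tr w y) :=
      (measurable_const.indicator hB'm).comp
        (continuous_tr.comp (continuous_const.prodMk continuous_id)).measurable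
    rw [hint, ← lintegral_add_left hmy]
    refine lintegral_mono_ae ?_
    filter_upwards [ae_restrict_mem measurableSet_ball, ae_restrict_of_ae hw,
      ae_restrict_of_ae (ae_ell_add T y.1)] with w hwb hw1 hw2
    rw [mem_ball_zero_iff] at hwb
    by_cases hz : tr w y ∈ B'
    · refine le_add_right ?_
      rw [indicator_of_mem hz]
      exact dif_le (T.norm_cut_le ρ L S.f_bdd) y w
    refine le_add_left ?_
    have hi := fold_tr_int hρ hy (by linarith) hwb hw2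
    obtain ⟨p1, p2⟩ := pair hκ hρ hr hL0 hy hg d2 d3 ho hwb hi (hw1 hi) hb.1 fun h => hz ⟨hi, h⟩
    by_cases hRL : RLk T κ ρ L y
    · rw [indicator_of_mem (show y ∈ P T κ ρ L from ⟨hy, d2, d3, ho, hRL⟩)]
      obtain ⟨q1, q2⟩ := p2 hRL
      unfold dif Tri.cut
      rw [ext_tr hi, ext_tr hi, T.ext_of_mem _ hy, T.ext_of_mem _ hy,
        indicator_of_mem (show _ ∈ {y | ¬ T.Short (10 * ρ) L y} from q1),
        indicator_of_mem (show _ ∈ {y | ¬ T.Short (10 * ρ) L y} from q2)]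
    · have hRS : RSk T κ ρ L y := by
        by_contra hc
        exact hb.2 ⟨by linarith, hRL, hc⟩
      obtain ⟨q1, q2⟩ := p1 hRS
      unfold dif Tri.cut
      rw [ext_tr hi, T.ext_of_mem _ hy,
        indicator_of_notMem (show _ ∉ {y | ¬ T.Short (10 * ρ) L y} from fun h => h q1),
        indicator_of_notMem (show _ ∉ {y | ¬ T.Short (10 * ρ) L y} from fun h => h q2)]
      simp
  rw [← lintegral_indicator hAm]
  refine (lintegral_mono_ae key).trans ?_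
  have m2 : Measurable fun y => ∫⁻ w in ball (0 : ℂ) ε, B'.indicator (fun _ => c) (tr w y) :=
    hm.lintegral_prod_right'
  have m3 : Measurable ((P T κ ρ L).indicator (O ε (T.ext S.f))) :=
    (measurable_O _ hgm).indicator hPm
  rw [lintegral_add_right _ (m2.fun_add m3), lintegral_add_right _ m3, lintegral_indicator hPm,
    ← add_assoc]
  refine add_le_add_left ?_ _
  have e1 := lintegral_indicator_const_le (μ := T.μ) (B ∪ B2) (c * V)
  have e2 : T.μ (B ∪ B2) ≤ b + b := (measure_union_le _ _).trans (add_le_add h1 (μ_bad hκ h2))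
  have e3 := lintegral_tr_le (T := T) hB'm ε c
  have e4 : volume B' ≤ 4 * b := (T.fold_le B).trans (by gcongr)
  calc _ ≤ c * V * (b + b) + c * (4 * b) * V :=
        add_le_add (e1.trans (by gcongr)) (e3.trans (by gcongr))
    _ = _ := by ring

end OscAux

open OscAux Metric in
theorem Tri.osc (T : Tri) (S : Sys T.μ T.flow E) : ∃ C : ℝ, ∀ η δ : ℝ, 0 < η → 0 < δ →
    ∃ ρ₁ : ℝ, 0 < ρ₁ ∧ ∀ ρ L : ℝ, 0 < ρ → ρ < ρ₁ → δ / ρ ≤ L →
      T.μ {y | T.d y.1 < 14 * ρ ∧ T.W (10 * ρ) L y} ≤ ENNReal.ofReal (η * ρ ^ 2) →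
      T.μ {y | T.d y.1 < 4 * ρ ∧ ¬ T.RL ρ L y ∧ ¬ T.RS ρ L y} ≤ ENNReal.ofReal (η * ρ ^ 2) →
      ∫ y in {y | y.1 ∈ {x | 2 * ρ ≤ T.d x ∧ T.d x ≤ 3 * ρ}},
        gsq (ker (T.c0 * ρ / 4)) (T.cut ρ L S.f) y ∂T.μ ≤ C * η := by
  obtain ⟨C, hC, hgsq⟩ := gsq_le (E := E)
  refine ⟨C * (2 * ((24 * S.M ^ 2 + 8) * Real.pi)) * 16 / T.c0 ^ 2, fun η δ hη hδ => ?_⟩
  have hgm : StronglyMeasurable (T.ext S.f) := T.stronglyMeasurable_ext S.f_meas
  have ht := transl_tendsto (r := 3 * T.per + ‖T.v 0‖) hgm (T.norm_ext_le S.f_bdd) fun y hy => by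
    refine T.ext_eq_zero _ ?_
    linarith [norm_sub_norm_le y.1 (T.v 0)]
  have hev := ht.eventually (ge_mem_nhds
    (show (0 : ℝ≥0∞) < ENNReal.ofReal (η * δ) from ENNReal.ofReal_pos.2 (by positivity)))
  obtain ⟨r, hr0, hr⟩ := Metric.eventually_nhds_iff.1 hev
  have hc0 := T.c0_pos
  have hc1 := T.c0_le
  have hpi := Real.pi_pos
  refine ⟨min (T.r0 / 14) r, lt_min (by linarith [T.r0_pos]) hr0, fun ρ L hρ hρ1 hL h1 h2 => ?_⟩
  have hρr : 14 * ρ ≤ T.r0 := by linarith [hρ1.trans_le (min_le_left _ _)]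
  have hρr' : ρ < r := hρ1.trans_le (min_le_right _ _)
  have hL0 : 0 ≤ L := le_trans (by positivity) hL
  set ε := T.c0 * ρ / 4 with hε
  have hε0 : 0 < ε := by positivity
  have hεr : ε < r := by rw [hε]; nlinarith
  set V := volume (ball (0 : ℂ) ε) with hV
  have hO : ∫⁻ y, O ε (T.ext S.f) y ∂T.μ ≤ ENNReal.ofReal (η * δ) * V :=
    (lintegral_mono' (μ_le T) le_rfl).trans (lintegral_O_le ε hgm fun w hw =>
      hr (by rw [dist_zero_right]; exact hw.trans hεr))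
  have hX : ∀ κ : ℝ, κ = 1 ∨ κ = -1 →
      ∫⁻ y in P T κ ρ L, O ε (T.ext S.f) y ∂T.μ ≤ ENNReal.ofReal (8 * (η * ρ ^ 2)) * V := by
    intro κ hκ
    have h3 : 8 * ρ * (⌊L / (8 * ρ)⌋₊ : ℝ) ≤ L := by
      rw [mul_comm, ← le_div_iff₀ (by positivity)]
      exact Nat.floor_le (by positivity)
    have h4 := (tower S hκ hρ hρr _ h3).trans hO
    have h5 : (1 : ℝ) ≤ 8 * ρ ^ 2 / δ * ((⌊L / (8 * ρ)⌋₊ + 1 : ℕ) : ℝ) := by
      have h6 : δ / ρ / (8 * ρ) ≤ ((⌊L / (8 * ρ)⌋₊ + 1 : ℕ) : ℝ) := by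
        push_cast
        exact (div_le_div_of_nonneg_right hL (by positivity)).trans (Nat.lt_floor_add_one _).le
      calc (1 : ℝ) = 8 * ρ ^ 2 / δ * (δ / ρ / (8 * ρ)) := by field_simp
        _ ≤ _ := by gcongr
    have h7 : (1 : ℝ≥0∞) ≤ ENNReal.ofReal (8 * ρ ^ 2 / δ) * ((⌊L / (8 * ρ)⌋₊ + 1 : ℕ) : ℝ≥0∞) := by
      rw [← ENNReal.ofReal_natCast, ← ENNReal.ofReal_mul (by positivity), ← ENNReal.ofReal_one]
      exact ENNReal.ofReal_le_ofReal h5
    calc _ ≤ ENNReal.ofReal (8 * ρ ^ 2 / δ) * ((⌊L / (8 * ρ)⌋₊ + 1 : ℕ) : ℝ≥0∞) *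
          ∫⁻ y in P T κ ρ L, O ε (T.ext S.f) y ∂T.μ := le_mul_of_one_le_left' h7
      _ ≤ ENNReal.ofReal (8 * ρ ^ 2 / δ) * (ENNReal.ofReal (η * δ) * V) := by
          rw [mul_assoc]; gcongr
      _ = _ := by
          rw [← mul_assoc, ← ENNReal.ofReal_mul (by positivity)]
          congr 2
          field_simp
  have hH : ∀ κ : ℝ, κ = 1 ∨ κ = -1 →
      ∫⁻ y in {y | (2 * ρ ≤ T.d y.1 ∧ T.d y.1 ≤ 3 * ρ) ∧ Out T κ y},
        O ε (T.cut ρ L S.f) y ∂T.μ ≤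
        ENNReal.ofReal ((24 * S.M ^ 2 + 8) * (η * ρ ^ 2) * (Real.pi * ε ^ 2)) := by
    intro κ hκ
    refine (half S hκ hρ hρr hL0 h1 h2).trans ((add_le_add_right (hX κ hκ) _).trans (le_of_eq ?_))
    rw [← hε, ← hV, ← add_mul, hV, vol_ball hε0.le, ← ENNReal.ofReal_ofNat 6,
      ← ENNReal.ofReal_mul (by positivity), ← ENNReal.ofReal_mul (by positivity),
      ← ENNReal.ofReal_add (by positivity) (by positivity), ← ENNReal.ofReal_mul (by positivity)]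
    congr 1
    ring
  have hg0 : ∀ y, 0 ≤ gsq (ker ε) (T.cut ρ L S.f) y := fun y => by unfold gsq; positivity
  have hC0 : 0 ≤ C * (2 * ((24 * S.M ^ 2 + 8) * Real.pi)) * 16 / T.c0 ^ 2 * η := by positivity
  refine (Real.le_norm_self _).trans ((norm_integral_le_lintegral_norm _).trans
    (ENNReal.toReal_le_of_le_ofReal hC0 ?_))
  simp only [Real.norm_of_nonneg (hg0 _)]
  refine (lintegral_mono fun y => hgsq ε S.M _ hε0 (T.stronglyMeasurable_cut ρ L S.f_meas)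
    (T.norm_cut_le ρ L S.f_bdd) y).trans ?_
  rw [lintegral_const_mul _ (measurable_O ε (T.stronglyMeasurable_cut ρ L S.f_meas))]
  have hsub : {y : Phase | y.1 ∈ {x | 2 * ρ ≤ T.d x ∧ T.d x ≤ 3 * ρ}} ⊆
      {y | (2 * ρ ≤ T.d y.1 ∧ T.d y.1 ≤ 3 * ρ) ∧ Out T 1 y} ∪
      {y | (2 * ρ ≤ T.d y.1 ∧ T.d y.1 ≤ 3 * ρ) ∧ Out T (-1) y} := fun y hy =>
    (out_or T y).imp (fun h => ⟨hy, h⟩) fun h => ⟨hy, h⟩
  have h8 := (lintegral_mono_set (μ := T.μ) (f := O ε (T.cut ρ L S.f)) hsub).trans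
    ((lintegral_union_le _ _ _).trans (add_le_add (hH 1 (Or.inl rfl)) (hH (-1) (Or.inr rfl))))
  refine (mul_le_mul_right h8 _).trans (le_of_eq ?_)
  rw [← ENNReal.ofReal_add (by positivity) (by positivity), ← ENNReal.ofReal_mul (by positivity)]
  congr 1
  rw [hε]
  field_simp
  ring

end Crest.Agent.R103
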