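import Crest.Agent.R103.Flow

/-! Row 103: measurability of the event sets, folding and null sets, elementary measure bounds. -/

set_option autoImplicit false

namespace Crest.Agent.R103

open MeasureTheory Set Filter Topology
open scoped ENNReal ComplexConjugate InnerProductSpace ContDiff

theorem meas_crd_slice (p : ℂ) (θ : Ang) :
    MeasurePreserving (fun x : ℂ => crd p (x, θ)) volume volume := by
  have h := (rotation (AddCircle.toCircle (-θ))).measurePreserving.comp
    (measurePreserving_sub_right (volume : Measure ℂ) p)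
  have h2 : (fun x : ℂ => crd p (x, θ)) =
      (rotation (AddCircle.toCircle (-θ))) ∘ fun x => x - p := by
    funext x
    simp only [Function.comp_apply, rotation_apply, crd]
    rw [mul_comm (x - p), ← e_neg]; rfl
  rw [h2]
  exact h

theorem meas_volume_ang : (volume : Measure Ang) univ = ENNReal.ofReal (2 * Real.pi) :=
  AddCircle.measure_univ _

/-- area in the coordinates `crd`, with an arbitrary twist of the direction -/
theorem crd_measure (p : ℂ) {Q : Set ℂ} (hQ : MeasurableSet Q) {φ : ℂ → Ang} (hφ : Measurable φ)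
    {B : Set Ang} (hB : MeasurableSet B) :
    volume {y : Phase | crd p y ∈ Q ∧ y.2 + φ (crd p y) ∈ B} = volume Q * volume B := by
  have hS' : MeasurableSet {y : Phase | y.1 ∈ Q ∧ y.2 + φ y.1 ∈ B} :=
    (measurable_fst hQ).inter ((measurable_snd.add (hφ.comp measurable_fst)) hB)
  have hc : Measurable (crd p) := (continuous_crd p).measurable
  have hS : MeasurableSet {y : Phase | crd p y ∈ Q ∧ y.2 + φ (crd p y) ∈ B} :=
    (hc hQ).inter ((measurable_snd.add (hφ.comp hc)) hB)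
  have h1 : volume {y : Phase | crd p y ∈ Q ∧ y.2 + φ (crd p y) ∈ B} =
      volume {y : Phase | y.1 ∈ Q ∧ y.2 + φ y.1 ∈ B} := by
    rw [Measure.volume_eq_prod, Measure.prod_apply_symm hS, Measure.prod_apply_symm hS']
    refine lintegral_congr fun θ => ?_
    exact (meas_crd_slice p θ).measure_preimage
      (measurable_prodMk_right hS').nullMeasurableSet
  rw [h1, Measure.volume_eq_prod, Measure.prod_apply hS', mul_comm (volume Q), ← setLIntegral_const,
    ← lintegral_indicator hQ]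
  refine lintegral_congr fun ζ => ?_
  by_cases hζ : ζ ∈ Q
  · rw [indicator_of_mem hζ, ← measure_preimage_add_right volume (φ ζ) B]
    congr 1
    ext θ
    simp [hζ]
  · rw [indicator_of_notMem hζ]
    convert measure_empty (μ := (volume : Measure Ang))
    ext θ
    simp [hζ]
theorem volume_rect (a b c d : ℝ) :
    volume {z : ℂ | z.re ∈ Icc a b ∧ z.im ∈ Icc c d} =
      ENNReal.ofReal (b - a) * ENNReal.ofReal (d - c) := by
  have h := Complex.volume_preserving_equiv_real_prod.measure_preimage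
    (s := Icc a b ×ˢ Icc c d) (measurableSet_Icc.prod measurableSet_Icc).nullMeasurableSet
  rw [Measure.volume_eq_prod, Measure.prod_prod, Real.volume_Icc, Real.volume_Icc] at h
  exact h

namespace Tri

variable (T : Tri)

theorem measurableSet_ev {Z : Type} [MeasurableSpace Z] (R : ℝ) {π : Z → Phase}
    (hπ : Measurable π) {Q : Set (Z × ℝ)} (hQ : MeasurableSet Q) :
    MeasurableSet {z | ∃ τ, T.Ev R (π z) τ ∧ (z, τ) ∈ Q} := by
  have h : {z | ∃ τ, T.Ev R (π z) τ ∧ (z, τ) ∈ Q} = ⋃ p ∈ T.V,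
      {z | T.Att (π z) (-(crd p (π z)).re) p ∧ |(crd p (π z)).im| < R ∧
        (z, -(crd p (π z)).re) ∈ Q} := by
    ext z
    simp only [mem_ofPred_eq, mem_iUnion]
    constructor
    · rintro ⟨τ, ⟨p, h1, h2, h3⟩, h4⟩
      obtain rfl : τ = -(crd p (π z)).re := by linarith
      exact ⟨p, h1.mem_V, h1, h3, h4⟩
    · rintro ⟨p, -, h1, h2, h3⟩
      exact ⟨_, ⟨p, h1, by ring, h2⟩, h3⟩
  rw [h]
  refine MeasurableSet.biUnion T.countable_V fun p _ => ?_
  have hc : Measurable fun z => crd p (π z) := (continuous_crd p).measurable.comp hπ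
  have h1 : Measurable fun z => -(crd p (π z)).re := (Complex.measurable_re.comp hc).neg
  exact ((h1.prodMk hπ) (T.isOpen_att p).measurableSet).inter
    ((measurableSet_lt (Complex.measurable_im.comp hc).abs measurable_const).inter
      ((measurable_id.prodMk h1) hQ))
theorem measurableSet_short (R L : ℝ) : MeasurableSet {y | T.Short R L y} := by
  have h1 := T.measurableSet_ev (Z := Phase × ℝ) R measurable_fst
    (Q := {q : (Phase × ℝ) × ℝ | q.1.2 ≤ 0 ∧ 0 < q.2 ∧ q.2 - q.1.2 < L})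
    (by measurability)
  convert T.measurableSet_ev R measurable_id h1 using 1
  ext y
  simp only [Short, mem_ofPred_eq, id]
  exact ⟨fun ⟨a, b, h1, h2, h3⟩ => ⟨a, h1, b, h2, h3⟩, fun ⟨a, h1, b, h2, h3⟩ => ⟨a, b, h1, h2, h3⟩⟩
theorem measurableSet_W (R L : ℝ) : MeasurableSet {y | T.W R L y} := by
  have h1 : MeasurableSet {q : Phase × ℝ | T.Prev R L q.1 q.2} :=
    T.measurableSet_ev (Z := Phase × ℝ) R measurable_fst
      (Q := {q : (Phase × ℝ) × ℝ | q.1.2 - L < q.2 ∧ q.2 < q.1.2})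
      (by measurability)
  have h2 : MeasurableSet {q : Phase × ℝ | T.Next R L q.1 q.2} :=
    T.measurableSet_ev (Z := Phase × ℝ) R measurable_fst
      (Q := {q : (Phase × ℝ) × ℝ | q.1.2 < q.2 ∧ q.2 < q.1.2 + L})
      (by measurability)
  have h3 : MeasurableSet {q : Phase × ℝ | |q.2| < T.r0 ∧
      ¬ (T.Prev R L q.1 q.2 ↔ T.Next R L q.1 q.2)} :=
    (measurableSet_lt (f := fun q : Phase × ℝ => |q.2|) (g := fun _ => T.r0)
      (by fun_prop) (by fun_prop)).inter (h1.iff h2).compl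
  convert T.measurableSet_ev R measurable_id h3 using 1
  ext y
  simp only [W, mem_ofPred_eq, id]
  exact ⟨fun ⟨a, h1, h2, h3⟩ => ⟨a, h2, h1, h3⟩, fun ⟨a, h1, h2, h3⟩ => ⟨a, h2, h1, h3⟩⟩
theorem measurableSet_RL (ρ L : ℝ) (hρ : 0 ≤ ρ) : MeasurableSet {y | T.RL ρ L y} := by
  refine IsOpen.measurableSet (isOpen_iff_mem_nhds.2 fun y hy => ?_)
  refine isCompact_Icc.eventually_forall_of_forall_eventually
    (P := fun (y : Phase) (τ : ℝ) => 11 * ρ < T.dst y τ) fun τ hτ => ?_
  exact ((T.isOpen_lt_dst (c := 11 * ρ) (by positivity)).preimage continuous_swap).mem_nhds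
    (hy τ hτ)
theorem measurable_fold : Measurable T.fold := by
  have h : T.fold = fun y => if T.ell 0 y.1 < 0 then T.σ 0 • y else if T.ell 1 y.1 < 0 then
      T.σ 1 • y else if T.ell 2 y.1 < 0 then T.σ 2 • y else y := by
    funext y
    unfold fold foldG
    split_ifs <;> simp
  have hm : ∀ j, MeasurableSet {y : Phase | T.ell j y.1 < 0} := fun j =>
    measurableSet_lt ((T.continuous_ell j).measurable.comp measurable_fst) measurable_const
  rw [h]
  exact Measurable.ite (hm 0) (Iso.continuous_smul_phase _).measurable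
    (Measurable.ite (hm 1) (Iso.continuous_smul_phase _).measurable
      (Measurable.ite (hm 2) (Iso.continuous_smul_phase _).measurable measurable_id))
theorem stronglyMeasurable_ext {E : Type} [NormedAddCommGroup E] {F : Phase → E}
    (hF : StronglyMeasurable F) : StronglyMeasurable (T.ext F) := by
  have h : T.ext F = Set.indicator {y | (T.fold y).1 ∈ T.Int} (F ∘ T.fold) := by
    funext y
    unfold Tri.ext
    split_ifs with h
    · rw [indicator_of_mem (by exact h)]; rfl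
    · rw [indicator_of_notMem (by exact h)]
  rw [h]
  exact (hF.comp_measurable T.measurable_fold).indicator
    ((measurable_fst.comp T.measurable_fold) T.isOpen_Int.measurableSet)
theorem stronglyMeasurable_cut {E : Type} [NormedAddCommGroup E] (ρ L : ℝ) {F : Phase → E}
    (hF : StronglyMeasurable F) : StronglyMeasurable (T.cut ρ L F) := by
  exact T.stronglyMeasurable_ext (hF.indicator (T.measurableSet_short _ _).compl)
theorem norm_ext_le {E : Type} [NormedAddCommGroup E] {F : Phase → E} {M : ℝ}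
    (hF : ∀ y, ‖F y‖ ≤ M) (y : Phase) : ‖T.ext F y‖ ≤ M := by
  unfold Tri.ext
  split_ifs
  · exact hF _
  · rw [norm_zero]; exact (norm_nonneg _).trans (hF y)
theorem norm_cut_le {E : Type} [NormedAddCommGroup E] (ρ L : ℝ) {F : Phase → E} {M : ℝ}
    (hF : ∀ y, ‖F y‖ ≤ M) (y : Phase) : ‖T.cut ρ L F y‖ ≤ M := by
  exact T.norm_ext_le (fun y => (norm_indicator_le_norm_self _ _).trans (hF y)) y
theorem fold_le (S : Set Phase) :
    volume {y | (T.fold y).1 ∈ T.Int ∧ T.fold y ∈ S} ≤ 4 * T.μ S := by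
  have h0 : T.μ S = volume (S ∩ T.Int ×ˢ univ) := by
    rw [μ_eq, Measure.restrict_apply' (T.isOpen_Int.measurableSet.prod MeasurableSet.univ)]
  have h1 : {y | (T.fold y).1 ∈ T.Int ∧ T.fold y ∈ S} ⊆ (S ∩ T.Int ×ˢ univ) ∪
      ⋃ j, (fun y : Phase => T.σ j • y) ⁻¹' (S ∩ T.Int ×ˢ univ) := by
    rintro y ⟨h1, h2⟩
    have h3 : T.fold y ∈ S ∩ T.Int ×ˢ univ := ⟨h2, h1, trivial⟩
    rcases T.foldG_cases y.1 with h | ⟨j, -, h⟩
    · rw [T.fold_of_mem h.1] at h3
      exact Or.inl h3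
    · rw [fold, h] at h3
      exact Or.inr (mem_iUnion.2 ⟨j, h3⟩)
  refine (measure_mono h1).trans ((measure_union_le _ _).trans ?_)
  have h2 := (measure_iUnion_fintype_le (volume : Measure Phase) _).trans
    (Finset.sum_le_sum fun j (_ : j ∈ (Finset.univ : Finset (Fin 3))) =>
      (measurePreserving_smul (T.σ j)).measure_preimage_le (S ∩ T.Int ×ˢ univ))
  refine (add_le_add le_rfl h2).trans (le_of_eq ?_)
  rw [h0, Fin.sum_univ_three]
  ring
theorem ae_fold {P : Phase → Prop} (h : ∀ᵐ y ∂T.μ, P y) :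
    ∀ᵐ y ∂(volume : Measure Phase), (T.fold y).1 ∈ T.Int → P (T.fold y) := by
  rw [ae_iff] at h ⊢
  have h1 := T.fold_le {y | ¬ P y}
  rw [h, mul_zero] at h1
  refine nonpos_iff_eq_zero.1 (le_trans (measure_mono fun y hy => ?_) h1)
  exact Classical.not_imp.1 hy
/-- almost every point is off the three side lines -/
theorem ae_ell_ne : ∀ᵐ z ∂(volume : Measure ℂ), ∀ j, T.ell j z ≠ 0 := by
  refine ae_all_iff.2 fun j => ?_
  have h1 : ∀ᵐ q ∂(volume : Measure (ℝ × ℝ)), q.1 ≠ 0 := by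
    rw [Measure.volume_eq_prod]
    exact Measure.quasiMeasurePreserving_fst.ae (Measure.ae_ne volume 0)
  have h2 := (Complex.volume_preserving_equiv_real_prod.comp
    (meas_crd_slice (T.v (j + 1)) (T.n j))).quasiMeasurePreserving.ae h1
  refine h2.mono fun z hz => ?_
  rwa [ell, Complex.inner]
theorem μ_d_lt {s : ℝ} (hs : 0 ≤ s) :
    T.μ {y | T.d y.1 < s} ≤ ENNReal.ofReal (6 * Real.pi ^ 2 * s ^ 2) := by
  have h1 : {y : Phase | T.d y.1 < s} ⊆ ⋃ j, Metric.ball (T.v j) s ×ˢ univ := by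
    intro y hy
    obtain ⟨j, hj⟩ := T.exists_d y.1
    refine mem_iUnion.2 ⟨j, ?_, trivial⟩
    rw [mem_ball_iff_norm, ← hj]
    exact hy
  rw [μ_eq]
  refine (Measure.restrict_apply_le _ _).trans ((measure_mono h1).trans
    ((measure_iUnion_fintype_le _ _).trans (le_of_eq ?_)))
  simp only [Measure.volume_eq_prod, Measure.prod_prod, Complex.volume_ball, meas_volume_ang,
    Finset.sum_const, Finset.card_univ, Fintype.card_fin, nsmul_eq_mul]
  rw [← ENNReal.ofReal_pow hs, ← ENNReal.ofReal_coe_nnreal, NNReal.coe_real_pi,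
    ← ENNReal.ofReal_mul (by positivity), ← ENNReal.ofReal_mul (by positivity),
    ← ENNReal.ofReal_natCast, ← ENNReal.ofReal_mul (by positivity)]
  congr 1
  push_cast
  ring
theorem short_le : ∃ C : ℝ, ∀ ρ L : ℝ, 0 < ρ → 0 < L →
    T.μ {y | T.Short (10 * ρ) L y} ≤ ENNReal.ofReal (C * (ρ * L + ρ ^ 2)) := by
  refine ⟨726 * Real.pi ^ 2, fun ρ L hρ hL => ?_⟩
  have hae : ∀ᵐ y ∂T.μ, ∀ k : ℕ, ∃ A, T.Rch (-(k * ρ)) y A := ae_all_iff.2 fun k => T.ae_rch _
  have h1 : {y | T.Short (10 * ρ) L y} ≤ᵐ[T.μ]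
      (⋃ k ∈ Finset.range (⌊L / ρ⌋₊ + 1), T.flow (-(k * ρ)) ⁻¹' {y | T.d y.1 < 11 * ρ} :
        Set Phase) := by
    filter_upwards [hae] with y hy
    rintro ⟨τ₁, τ₂, h1, -, h2, h3, h4⟩
    have h5 : 0 ≤ -τ₁ / ρ := div_nonneg (by linarith) hρ.le
    refine mem_iUnion₂.2 ⟨⌊-τ₁ / ρ⌋₊, Finset.mem_range.2 (Nat.lt_succ_of_le
      (Nat.floor_le_floor (div_le_div_of_nonneg_right (by linarith) hρ.le))), ?_⟩
    obtain ⟨A, hA⟩ := hy ⌊-τ₁ / ρ⌋₊
    show T.d (T.flow _ y).1 < 11 * ρ
    rw [hA.flow_eq]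
    show T.d (A • line y _) < 11 * ρ
    rw [← hA.1.dst_eq]
    have h6 := (le_div_iff₀ hρ).1 (Nat.floor_le h5)
    have h7 := (div_lt_iff₀ hρ).1 (Nat.lt_floor_add_one (-τ₁ / ρ))
    have h8 := (abs_le.1 (T.abs_dst_sub_le y (-(⌊-τ₁ / ρ⌋₊ * ρ)) τ₁)).2
    rw [abs_of_nonneg (by linarith)] at h8
    have h9 := h1.dst_lt
    linarith
  refine (measure_mono_ae h1).trans ((measure_biUnion_finset_le _ _).trans ?_)
  refine (Finset.sum_le_sum fun k _ => ((T.measurePreserving_flow _).measure_preimage_le _).trans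
    (T.μ_d_lt (s := 11 * ρ) (by positivity))).trans ?_
  rw [Finset.sum_const, Finset.card_range, nsmul_eq_mul, ← ENNReal.ofReal_natCast,
    ← ENNReal.ofReal_mul (by positivity)]
  refine ENNReal.ofReal_le_ofReal ?_
  have h2 := (le_div_iff₀ hρ).1 (Nat.floor_le (div_pos hL hρ).le)
  push_cast
  have h3 : 0 ≤ Real.pi ^ 2 * ρ := by positivity
  nlinarith [mul_le_mul_of_nonneg_left h2 h3]
/-- reversal exchanges the two halves of `W` -/
theorem μ_W_le (R L s : ℝ) :
    T.μ {y | T.d y.1 < s ∧ T.W R L y} ≤ 2 * T.μ {y | T.d y.1 < s ∧ T.Wp R L y} := by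
  have h1 : {y | T.d y.1 < s ∧ T.W R L y} ⊆ {y | T.d y.1 < s ∧ T.Wp R L y} ∪
      rev ⁻¹' {y | T.d y.1 < s ∧ T.Wp R L y} := by
    rintro y ⟨h0, τ₀, h1, h2, h3⟩
    by_cases hp : T.Prev R L y τ₀
    · exact Or.inl ⟨h0, τ₀, h1, h2, hp, fun hn => h3 ⟨fun _ => hn, fun _ => hp⟩⟩
    · have hn : T.Next R L y τ₀ := by
        by_contra hn
        exact h3 ⟨fun h => absurd h hp, fun h => absurd h hn⟩
      refine Or.inr ⟨h0, -τ₀, by rwa [abs_neg], by rwa [ev_rev, neg_neg], ?_, ?_⟩
      · obtain ⟨τ, a1, a2, a3⟩ := hn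
        exact ⟨-τ, by rwa [ev_rev, neg_neg], by linarith, by linarith⟩
      · rintro ⟨τ, a1, a2, a3⟩
        exact hp ⟨-τ, ev_rev.1 a1, by linarith, by linarith⟩
  refine (measure_mono h1).trans ((measure_union_le _ _).trans ?_)
  rw [two_mul (T.μ _)]
  exact add_le_add le_rfl (T.measurePreserving_rev.measure_preimage_le _)

end Tri

end Crest.Agent.R103
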