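import Crest.Agent.R103.Kernel
import Crest.Agent.R103.Meas

/-! Row 103: the defect in the transport equation of the cut function. -/

set_option autoImplicit false
set_option linter.unusedSectionVars false
set_option linter.unusedVariables false

namespace Crest.Agent.R103

open MeasureTheory Set Filter Topology
open scoped ENNReal ComplexConjugate InnerProductSpace ContDiff

variable {E : Type} [NormedAddCommGroup E] [InnerProductSpace ℂ E] [CompleteSpace E]

namespace SigAux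

omit [CompleteSpace E] in
theorem hasDerivAt_fs {Ω : Type} [MeasurableSpace Ω] {μ : Measure Ω} {φ : ℝ → Ω → Ω}
    (S : Sys μ φ E) (a : Ω) : S.fs 0 a = S.f a ∧ HasDerivAt (fun τ => S.fs τ a) (S.h a) 0 := by
  have h0 : S.fs 0 a = S.f a := by
    have := S.taylor 0 a
    simpa [sub_eq_zero] using this
  refine ⟨h0, hasDerivAt_iff_isLittleO_nhds_zero.2 ?_⟩
  refine Asymptotics.IsBigO.trans_isLittleO (g := fun τ : ℝ => τ ^ 2)
    (Asymptotics.IsBigO.of_bound S.M (Eventually.of_forall fun τ => ?_))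
    (Asymptotics.isLittleO_pow_id (by norm_num))
  have := S.taylor τ a
  rw [Complex.coe_smul] at this
  rw [zero_add, h0, Real.norm_of_nonneg (sq_nonneg τ)]
  exact this

omit [CompleteSpace E] in
theorem integrable_ker {φ : ℂ → ℝ} (hφ : Integrable φ) {F : ℂ → E} {M : ℝ}
    (hF : StronglyMeasurable F) (hM : ∀ z, ‖F z‖ ≤ M) (x : ℂ) :
    Integrable fun z => ((φ (x - z) : ℝ) : ℂ) • F z := by
  have h1 := hφ.comp_sub_left x
  refine (h1.norm.mul_const M).mono'
    ((Complex.continuous_ofReal.comp_aestronglyMeasurable h1.1).smul hF.aestronglyMeasurable)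
    (Eventually.of_forall fun z => ?_)
  rw [norm_smul, Complex.norm_real]
  exact mul_le_mul_of_nonneg_left (hM z) (norm_nonneg _)

theorem integrable_κ {κ : ℂ → ℝ} {ε : ℝ} (h : IsKer κ ε) : Integrable κ :=
  h.smooth.continuous.integrable_of_hasCompactSupport h.hasCompactSupport

theorem integrable_dκ {κ : ℂ → ℝ} {ε : ℝ} (h : IsKer κ ε) (u : ℂ) :
    Integrable fun z => fderiv ℝ κ z u :=
  ((h.smooth.continuous_fderiv (by simp)).clm_apply continuous_const).integrable_of_hasCompactSupport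
    (HasCompactSupport.intro (isCompact_closedBall 0 ε) fun z hz => by
      rw [h.fderiv_eq_zero (not_lt.1 fun h1 => hz (mem_closedBall_zero_iff.2 h1.le))]
      rfl)

omit [InnerProductSpace ℂ E] [CompleteSpace E] in
theorem sm_slice {F : Phase → E} (hF : StronglyMeasurable F) (w : ℂ) (θ : Ang) :
    StronglyMeasurable fun z => F (z + w, θ) :=
  hF.comp_measurable (by fun_prop)

omit [InnerProductSpace ℂ E] [CompleteSpace E] in
theorem sm_slice0 {F : Phase → E} (hF : StronglyMeasurable F) (θ : Ang) :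
    StronglyMeasurable fun z => F (z, θ) :=
  hF.comp_measurable (by fun_prop)

omit [CompleteSpace E] in
theorem sig_add {κ : ℂ → ℝ} {ε M : ℝ} (h : IsKer κ ε) {F F' H H' : Phase → E}
    (hF : StronglyMeasurable F) (hF' : StronglyMeasurable F') (hH : StronglyMeasurable H)
    (hH' : StronglyMeasurable H') (bF : ∀ y, ‖F y‖ ≤ M) (bF' : ∀ y, ‖F' y‖ ≤ M)
    (bH : ∀ y, ‖H y‖ ≤ M) (bH' : ∀ y, ‖H' y‖ ≤ M) (y : Phase) :
    sig κ (F + F') (H + H') y = sig κ F H y + sig κ F' H' y := by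
  simp only [sig, smD, sm, Pi.add_apply, smul_add]
  rw [integral_add (integrable_ker (integrable_dκ h _) (sm_slice0 hF _) (fun _ => bF _) _)
      (integrable_ker (integrable_dκ h _) (sm_slice0 hF' _) (fun _ => bF' _) _),
    integral_add (integrable_ker (integrable_κ h) (sm_slice0 hH _) (fun _ => bH _) _)
      (integrable_ker (integrable_κ h) (sm_slice0 hH' _) (fun _ => bH' _) _)]
  abel

omit [InnerProductSpace ℂ E] [CompleteSpace E] in
theorem norm_indicator_le' {P : Set Phase} {g : Phase → E} {M : ℝ} (h : ∀ y, ‖g y‖ ≤ M)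
    (y : Phase) : ‖P.indicator g y‖ ≤ M := (norm_indicator_le_norm_self _ _).trans (h y)

/-- the times used for the difference quotients -/
noncomputable def sq (n : ℕ) : ℝ := 1 / ((n : ℝ) + 1)

variable {T : Tri}

/-- directions for which the flow relation holds for almost every position -/
def GoodDir (S : Sys T.μ T.flow E) (θ : Ang) : Prop :=
  ∀ n, ∀ᵐ z : ℂ, (∀ j, T.ell j z ≠ 0) ∧ (∀ j, T.ell j (z + sq n • e θ) ≠ 0) ∧
    ((T.fold (z, θ)).1 ∈ T.Int →
      S.f (T.flow (sq n) (T.fold (z, θ))) = S.fs (sq n) (T.fold (z, θ)))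

omit [CompleteSpace E] in
theorem ae_goodDir (S : Sys T.μ T.flow E) : ∀ᵐ y ∂T.μ, GoodDir S y.2 := by
  refine Measure.quasiMeasurePreserving_snd.ae (p := GoodDir S) (ae_all_iff.2 fun n => ?_)
  have h1 := T.ae_fold (S.flow_ae (sq n))
  rw [Measure.volume_eq_prod] at h1
  have h2 := Measure.ae_ae_of_ae_prod
    (Measure.measurePreserving_swap.quasiMeasurePreserving.ae h1)
  filter_upwards [h2] with θ hθ
  filter_upwards [hθ, T.ae_ell_ne, (measurePreserving_add_right volume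
    (sq n • e θ)).quasiMeasurePreserving.ae T.ae_ell_ne] with z h3 h4 h5
  exact ⟨h4, h5, h3⟩

/-- the transport equation for a locally invariant cut -/
theorem transport (S : Sys T.μ T.flow E) {θ : Ang} (hθ : GoodDir S θ) {κ : ℂ → ℝ} {ε : ℝ}
    (hκ : IsKer κ ε) {P : Set Phase} (hP : MeasurableSet P) {x : ℂ} (hx : x ∈ T.Int)
    (hε : 2 * ε ≤ T.c0 * T.d x)
    (hinv : ∀ y s A, ‖y.1 - x‖ < ε → |s| ≤ ε → T.Rch s y A → (T.flow s y ∈ P ↔ y ∈ P)) :
    sig κ (T.ext (P.indicator S.f)) (T.ext (P.indicator S.h)) (x, θ) = 0 := by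
  set F := T.ext (P.indicator S.f) with hFdef
  set H := T.ext (P.indicator S.h) with hHdef
  have hF : StronglyMeasurable F := T.stronglyMeasurable_ext (S.f_meas.indicator hP)
  have hH : StronglyMeasurable H := T.stronglyMeasurable_ext (S.h_meas.indicator hP)
  have bF : ∀ y, ‖F y‖ ≤ S.M := T.norm_ext_le (norm_indicator_le' S.f_bdd)
  have bH : ∀ y, ‖H y‖ ≤ S.M := T.norm_ext_le (norm_indicator_le' S.h_bdd)
  have hM : 0 ≤ S.M := (norm_nonneg _).trans (bF (x, θ))
  have hx0 := T.Int_subset_D0 hx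
  have hεp := hκ.pos
  have key : ∀ n, sq n ≤ ε →
      ‖sm κ F (x + sq n • e θ, θ) - sm κ F (x, θ) - sq n • sm κ H (x, θ)‖ ≤ S.M * sq n ^ 2 := by
    intro n hn
    have hs0 : 0 < sq n := Nat.one_div_pos_of_nat
    have e1 : sm κ F (x + sq n • e θ, θ) = ∫ z, ((κ (x - z) : ℝ) : ℂ) • F (z + sq n • e θ, θ) := by
      rw [sm, ← integral_add_right_eq_self _ (sq n • e θ)]
      simp only [add_sub_add_right_eq_sub]
    have i1 := integrable_ker (integrable_κ hκ) (sm_slice hF (sq n • e θ) θ) (fun _ => bF _) x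
    have i2 := integrable_ker (integrable_κ hκ) (sm_slice0 hF θ) (fun _ => bF _) x
    have i3 := integrable_ker (integrable_κ hκ) (sm_slice0 hH θ) (fun _ => bH _) x
    have i4 : Integrable fun z => ((κ (x - z) : ℝ) : ℂ) • F (z + sq n • e θ, θ) -
      ((κ (x - z) : ℝ) : ℂ) • F (z, θ) := i1.sub i2
    have i5 : Integrable fun z => sq n • ((κ (x - z) : ℝ) : ℂ) • H (z, θ) := i3.smul (sq n)
    rw [e1, sm, sm, ← integral_smul, ← integral_sub i1 i2, ← integral_sub i4 i5]
    refine (norm_integral_le_of_norm_le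
      (((integrable_κ hκ).comp_sub_left x).mul_const (S.M * sq n ^ 2)) ?_).trans_eq ?_
    · filter_upwards [hθ n] with z ⟨h1, h2, h3⟩
      by_cases hz : ε ≤ ‖x - z‖
      · simp [hκ.supp _ hz]
      have hz' : ‖z - x‖ < ε := by rw [norm_sub_rev]; exact not_le.1 hz
      have hz1 : ‖z - x‖ < T.c0 * T.d x := by linarith
      have hz2 : ‖z + sq n • e θ - x‖ < T.c0 * T.d x := by
        have : ‖z + sq n • e θ - x‖ ≤ ‖z - x‖ + ‖sq n • e θ‖ := by
          rw [add_sub_right_comm]; exact norm_add_le _ _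
        rw [norm_smul, norm_e, mul_one, Real.norm_of_nonneg hs0.le] at this
        linarith
      have hi1 : (T.fold (z, θ)).1 ∈ T.Int := T.foldG_mem_Int hx0 hz1 h1
      have hi2 : (T.fold (sh (sq n) (z, θ))).1 ∈ T.Int := T.foldG_mem_Int hx0 hz2 h2
      obtain ⟨⟨A, hA⟩, h4⟩ := Tri.rch_fold (y := (z, θ)) (s := sq n) hx0 hz1 hz2 hi1 hi2
      have h5 := hinv _ _ A ((T.norm_foldG_sub_le (T.Int_subset_Δ hx) z).trans_lt hz')
        (by rwa [abs_of_pos hs0]) hA
      have e2 : F (z + sq n • e θ, θ) = P.indicator S.f (T.flow (sq n) (T.fold (z, θ))) := by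
        rw [h4]; exact if_pos hi2
      have e3 : F (z, θ) = P.indicator S.f (T.fold (z, θ)) := if_pos hi1
      have e4 : H (z, θ) = P.indicator S.h (T.fold (z, θ)) := if_pos hi1
      rw [smul_comm (sq n), ← smul_sub, ← smul_sub, norm_smul, Complex.norm_real,
        Real.norm_of_nonneg (hκ.nonneg _), e2, e3, e4]
      refine mul_le_mul_of_nonneg_left ?_ (hκ.nonneg _)
      by_cases h6 : T.fold (z, θ) ∈ P
      · rw [indicator_of_mem (h5.2 h6), indicator_of_mem h6, indicator_of_mem h6, h3 hi1,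
          ← Complex.coe_smul]
        exact S.taylor _ _
      · rw [indicator_of_notMem (fun h => h6 (h5.1 h)), indicator_of_notMem h6,
          indicator_of_notMem h6]
        simp only [sub_self, smul_zero, norm_zero]
        positivity
    · rw [integral_mul_const, integral_sub_left_eq_self κ volume x, hκ.integral_one, one_mul]
  have hsq : Tendsto sq atTop (𝓝 0) := tendsto_one_div_add_atTop_nhds_zero_nat
  have hsq' : Tendsto sq atTop (𝓝[≠] 0) :=
    tendsto_nhdsWithin_iff.2 ⟨hsq, Eventually.of_forall fun n => Nat.one_div_pos_of_nat.ne'⟩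
  have t1 := (hasDerivAt_iff_tendsto_slope_zero.1 (hκ.hasDerivAt_sm hF bF x (e θ) θ 0)).comp hsq'
  simp only [zero_smul, add_zero, zero_add] at t1
  have t2 : Tendsto (fun n => (sq n)⁻¹ • (sm κ F (x + sq n • e θ, θ) - sm κ F (x, θ))) atTop
      (𝓝 (sm κ H (x, θ))) := by
    rw [tendsto_iff_norm_sub_tendsto_zero]
    refine squeeze_zero' (Eventually.of_forall fun _ => norm_nonneg _) (g := fun n => S.M * sq n)
      ?_ (by simpa using hsq.const_mul S.M)
    filter_upwards [hsq.eventually (ge_mem_nhds hεp)] with n hn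
    have hs0 : 0 < sq n := Nat.one_div_pos_of_nat
    have e1 : (sq n)⁻¹ • (sm κ F (x + sq n • e θ, θ) - sm κ F (x, θ)) - sm κ H (x, θ) =
        (sq n)⁻¹ • (sm κ F (x + sq n • e θ, θ) - sm κ F (x, θ) - sq n • sm κ H (x, θ)) := by
      rw [smul_sub (sq n)⁻¹ _ (sq n • _), inv_smul_smul₀ hs0.ne']
    rw [e1, norm_smul, norm_inv, Real.norm_of_nonneg hs0.le, inv_mul_le_iff₀ hs0]
    exact (key n hn).trans_eq (by ring)
  exact sub_eq_zero.2 (tendsto_nhds_unique t1 t2)

/-! ### Events -/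

/-- time `t` lies between two events less than `L` apart -/
def ShortAt (T : Tri) (R L : ℝ) (y : Phase) (t : ℝ) : Prop :=
  ∃ τ₁ τ₂, T.Ev R y τ₁ ∧ T.Ev R y τ₂ ∧ τ₁ ≤ t ∧ t < τ₂ ∧ τ₂ - τ₁ < L

variable {R L s t : ℝ} {y : Phase} {A : Iso}

theorem short_flow (h : T.Rch s y A) : T.Short R L (T.flow s y) ↔ ShortAt T R L y s := by
  constructor
  · rintro ⟨τ₁, τ₂, h1, h2, h3, h4, h5⟩
    exact ⟨s + τ₁, s + τ₂, h.ev_flow.1 h1, h.ev_flow.1 h2, by linarith, by linarith, by linarith⟩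
  · rintro ⟨τ₁, τ₂, h1, h2, h3, h4, h5⟩
    exact ⟨τ₁ - s, τ₂ - s, h.ev_flow.2 (by simpa using h1), h.ev_flow.2 (by simpa using h2),
      by linarith, by linarith, by linarith⟩

theorem next_flow (h : T.Rch s y A) (τ : ℝ) :
    T.Next R L (T.flow s y) τ ↔ T.Next R L y (s + τ) := by
  constructor
  · rintro ⟨σ, h1, h2, h3⟩
    exact ⟨s + σ, h.ev_flow.1 h1, by linarith, by linarith⟩
  · rintro ⟨σ, h1, h2, h3⟩
    exact ⟨σ - s, h.ev_flow.2 (by simpa using h1), by linarith, by linarith⟩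

theorem prev_flow (h : T.Rch s y A) (τ : ℝ) :
    T.Prev R L (T.flow s y) τ ↔ T.Prev R L y (s + τ) := by
  constructor
  · rintro ⟨σ, h1, h2, h3⟩
    exact ⟨s + σ, h.ev_flow.1 h1, by linarith, by linarith⟩
  · rintro ⟨σ, h1, h2, h3⟩
    exact ⟨σ - s, h.ev_flow.2 (by simpa using h1), by linarith, by linarith⟩

theorem shortAt_congr (h : ∀ σ, T.Ev R y σ → (σ ≤ s ↔ σ ≤ t)) :
    ShortAt T R L y s ↔ ShortAt T R L y t := by
  refine exists_congr fun τ₁ => exists_congr fun τ₂ => and_congr_right fun h1 =>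
    and_congr_right fun h2 => ?_
  rw [h τ₁ h1, ← not_le, h τ₂ h2, not_le]

theorem shortAt_own {τ₀ : ℝ} (hR : R ≤ T.r0) (h0 : T.Ev R y τ₀) (hτ : |τ₀| < T.r0)
    (hpn : T.Prev R L y τ₀ ↔ T.Next R L y τ₀) (ht : |t| < T.r0) :
    ShortAt T R L y t ↔ T.Next R L y τ₀ := by
  have hsep : ∀ σ, T.Ev R y σ → σ = τ₀ ∨ σ < τ₀ - 3 * T.r0 ∨ τ₀ + 3 * T.r0 < σ := by
    intro σ hσ
    by_cases h : τ₀ = σ
    · exact Or.inl h.symm
    · have := h0.sep hR hσ h
      rcases lt_abs.1 this with h1 | h1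
      · exact Or.inr (Or.inr (by linarith))
      · exact Or.inr (Or.inl (by linarith))
  rw [abs_lt] at hτ ht
  have hr := T.r0_pos
  rcases le_or_gt τ₀ t with h | h
  · constructor
    · rintro ⟨τ₁, τ₂, h1, h2, h3, h4, h5⟩
      refine ⟨τ₂, h2, by linarith, ?_⟩
      rcases hsep τ₁ h1 with h6 | h6 | h6 <;> linarith [hτ.1, ht.2]
    · rintro ⟨σ, h1, h2, h3⟩
      refine ⟨τ₀, σ, h0, h1, h, ?_, by linarith⟩
      rcases hsep σ h1 with h6 | h6 | h6 <;> linarith [hτ.1, ht.2]
  · rw [← hpn]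
    constructor
    · rintro ⟨τ₁, τ₂, h1, h2, h3, h4, h5⟩
      refine ⟨τ₁, h1, ?_, by linarith⟩
      rcases hsep τ₂ h2 with h6 | h6 | h6 <;> linarith [hτ.2, ht.1]
    · rintro ⟨σ, h1, h2, h3⟩
      refine ⟨σ, τ₀, h1, h0, ?_, h, by linarith⟩
      rcases hsep σ h1 with h6 | h6 | h6 <;> linarith [hτ.2, ht.1]

theorem abs_le_d {τ : ℝ} (hR : R ≤ T.r0) (hd : T.d y.1 < T.r0) (h : T.Ev R y τ)
    (hτ : |τ| < 2 * T.r0) : |τ| ≤ T.d y.1 := by
  obtain ⟨j, hj⟩ := T.exists_d y.1
  rw [(h.own hR hτ (hj ▸ hd)).1, abs_neg, hj, ← norm_crd]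
  exact Complex.abs_re_le_norm _

theorem w_flow (hR : R ≤ T.r0) (h : T.Rch s y A) (hs : T.d y.1 + |s| < T.r0) :
    T.W R L (T.flow s y) ↔ T.W R L y := by
  have hd0 := T.d_nonneg y.1
  have hs0 := abs_nonneg s
  constructor
  · rintro ⟨τ, h1, h2, h3⟩
    rw [prev_flow h, next_flow h] at h3
    have h4 := h.ev_flow.1 h2
    have h5 := abs_le_d hR (by linarith) h4 ((abs_add_le _ _).trans_lt (by linarith))
    exact ⟨s + τ, by linarith, h4, h3⟩
  · rintro ⟨τ, h1, h2, h3⟩
    have h5 := abs_le_d hR (by linarith) h2 (by linarith)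
    refine ⟨τ - s, (abs_sub _ _).trans_lt (by linarith), h.ev_flow.2 (by simpa using h2), ?_⟩
    rw [prev_flow h, next_flow h, add_sub_cancel]
    exact h3

theorem short_flow_of_not_w (hR : R ≤ T.r0) (h : T.Rch s y A) (hs : |s| < T.r0)
    (hw : ¬ T.W R L y) : T.Short R L (T.flow s y) ↔ T.Short R L y := by
  rw [short_flow h]
  change _ ↔ ShortAt T R L y 0
  by_cases h0 : ∃ τ₀, |τ₀| < T.r0 ∧ T.Ev R y τ₀
  · obtain ⟨τ₀, h1, h2⟩ := h0
    have hpn : T.Prev R L y τ₀ ↔ T.Next R L y τ₀ := by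
      by_contra h3
      exact hw ⟨τ₀, h1, h2, h3⟩
    rw [shortAt_own hR h2 h1 hpn hs, shortAt_own hR h2 h1 hpn (by simpa using T.r0_pos)]
  · refine shortAt_congr fun σ hσ => ?_
    have h1 : T.r0 ≤ |σ| := not_lt.1 fun h1 => h0 ⟨σ, h1, hσ⟩
    rw [abs_lt] at hs
    rcases le_abs.1 h1 with h2 | h2
    · exact iff_of_false (by linarith [hs.2]) (by linarith [T.r0_pos])
    · exact iff_of_true (by linarith [hs.1]) (by linarith [T.r0_pos])

/-! ### The exceptional part -/

/-- the mass of `N` near a phase point -/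
noncomputable def mass (ε : ℝ) (N : Set Phase) (y : Phase) : ℝ≥0∞ :=
  volume (Prod.mk y ⁻¹' {p : Phase × ℂ | p.2 ∈ Metric.ball 0 ε ∧ tr p.2 p.1 ∈ N})

theorem measurableSet_mass (ε : ℝ) {N : Set Phase} (hN : MeasurableSet N) :
    MeasurableSet {p : Phase × ℂ | p.2 ∈ Metric.ball 0 ε ∧ tr p.2 p.1 ∈ N} :=
  (measurable_snd Metric.isOpen_ball.measurableSet).inter
    ((show Measurable fun p : Phase × ℂ => tr p.2 p.1 by unfold tr; fun_prop) hN)

theorem mass_le (ε : ℝ) (N : Set Phase) (y : Phase) :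
    mass ε N y ≤ volume (Metric.ball (0 : ℂ) ε) := measure_mono fun _ h => h.1

theorem lintegral_mass (ε : ℝ) {N : Set Phase} (hN : MeasurableSet N) :
    ∫⁻ y, mass ε N y = volume N * volume (Metric.ball (0 : ℂ) ε) := by
  have hs := measurableSet_mass ε hN
  unfold mass
  rw [← Measure.prod_apply hs, Measure.prod_apply_symm hs, ← setLIntegral_const,
    ← lintegral_indicator Metric.isOpen_ball.measurableSet]
  refine lintegral_congr fun w => ?_
  by_cases hw : w ∈ Metric.ball (0 : ℂ) ε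
  · rw [indicator_of_mem hw, ← (measurePreserving_tr w).measure_preimage hN.nullMeasurableSet]
    congr 1
    ext y
    exact and_iff_right hw
  · rw [indicator_of_notMem hw]
    convert measure_empty (μ := (volume : Measure Phase))
    exact eq_empty_of_forall_notMem fun y hy => hw hy.1

omit [CompleteSpace E] in
theorem norm_integral_le_mass {φ : ℂ → ℝ} {ε B M : ℝ} {N : Set Phase} (hN : MeasurableSet N)
    {G : Phase → E} (hφ : ∀ z, |φ z| ≤ B) (hφ0 : ∀ z, ε ≤ ‖z‖ → φ z = 0) (hG : ∀ y, ‖G y‖ ≤ M)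
    (y : Phase) (hG0 : ∀ z, ‖z - y.1‖ < ε → G (z, y.2) ≠ 0 → (z, y.2) ∈ N) :
    ‖∫ z, ((φ (y.1 - z) : ℝ) : ℂ) • G (z, y.2)‖ ≤ B * M * (mass ε N y).toReal := by
  have hs := measurable_prodMk_left (x := y) (measurableSet_mass ε hN)
  have hB : 0 ≤ B := (abs_nonneg _).trans (hφ 0)
  have hM : 0 ≤ M := (norm_nonneg _).trans (hG y)
  rw [← integral_add_left_eq_self _ y.1]
  refine (norm_integral_le_of_norm_le ((integrable_indicator_iff hs).2 (integrableOn_const
    (C := B * M) ((mass_le ε N y).trans_lt measure_ball_lt_top).ne))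
    (Eventually.of_forall fun w => ?_)).trans_eq ?_
  · by_cases hw : w ∈ Prod.mk y ⁻¹' {p : Phase × ℂ | p.2 ∈ Metric.ball 0 ε ∧ tr p.2 p.1 ∈ N}
    · rw [indicator_of_mem hw, norm_smul, Complex.norm_real]
      exact mul_le_mul (hφ _) (hG _) (norm_nonneg _) hB
    · rw [indicator_of_notMem hw]
      by_cases h1 : ε ≤ ‖w‖
      · rw [hφ0 _ (by simpa using h1)]; simp
      · have h2 : G (y.1 + w, y.2) = 0 := by
          by_contra h2
          exact hw ⟨mem_ball_zero_iff.2 (not_le.1 h1), hG0 _ (by simpa using h1) h2⟩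
        simp [h2]
  · rw [integral_indicator_const _ hs, smul_eq_mul, mul_comm]
    rfl

end SigAux

open SigAux

theorem Sys.skew {Ω : Type} [MeasurableSpace Ω] {μ : Measure Ω} {φ : ℝ → Ω → Ω} (S : Sys μ φ E)
    (a b : Ω) : ⟪S.h a, S.f b⟫_ℂ = -⟪S.f a, S.h b⟫_ℂ := by
  obtain ⟨ha0, ha⟩ := hasDerivAt_fs S a
  obtain ⟨hb0, hb⟩ := hasDerivAt_fs S b
  have h := ha.inner ℂ hb
  simp only [S.inner_fs, ha0, hb0] at h
  have := h.unique (hasDerivAt_const _ _)
  exact eq_neg_of_add_eq_zero_right this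

namespace Tri

variable (T : Tri)

theorem cut_skew (S : Sys T.μ T.flow E) (ρ L : ℝ) (a b : Phase) :
    ⟪T.cut ρ L S.h a, T.cut ρ L S.f b⟫_ℂ = -⟪T.cut ρ L S.f a, T.cut ρ L S.h b⟫_ℂ := by
  have key : ∀ y, (∀ g : Phase → E, T.cut ρ L g y = g (T.fold y)) ∨
      ∀ g : Phase → E, T.cut ρ L g y = 0 := by
    intro y
    by_cases h1 : (T.fold y).1 ∈ T.Int
    · by_cases h2 : T.fold y ∈ {y | ¬ T.Short (10 * ρ) L y}
      · exact Or.inl fun g => (if_pos h1).trans (indicator_of_mem h2 g)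
      · exact Or.inr fun g => (if_pos h1).trans (indicator_of_notMem h2 g)
    · exact Or.inr fun g => if_neg h1
  rcases key a with ha | ha
  · rcases key b with hb | hb
    · rw [ha, ha, hb, hb, S.skew]
    · simp [hb]
  · simp [ha]

theorem sigma_far (S : Sys T.μ T.flow E) {ρ : ℝ} (L : ℝ) (hρ : 0 < ρ) (hρ' : 20 * ρ ≤ T.r0) :
    ∀ᵐ y ∂T.μ, 13 * ρ ≤ T.d y.1 →
      sig (ker (T.c0 * ρ / 4)) (T.cut ρ L S.f) (T.cut ρ L S.h) y = 0 := by
  have hc := T.c0_pos
  have hε : T.c0 * ρ / 4 ≤ ρ / 40 := by nlinarith [T.c0_le]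
  filter_upwards [T.ae_int, ae_goodDir S] with y hy hθ hd
  refine transport S hθ (isKer_ker (by positivity)) (T.measurableSet_short _ _).compl hy
    (by nlinarith) fun y' s A h1 h2 h3 => not_congr ?_
  change T.Short _ _ _ ↔ ShortAt T _ _ _ 0
  rw [short_flow h3]
  refine shortAt_congr fun σ hσ => ?_
  have h4 := hσ.dst_lt
  have h5 := abs_le.1 (T.abs_dst_sub_le y' σ 0)
  have h6 := abs_le.1 (T.abs_d_sub_le y'.1 y.1)
  rw [dst_zero h3.1.int, sub_zero] at h5
  have h7 : ρ < |σ| := by linarith [h5.1, h6.1]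
  rw [abs_le] at h2
  rcases lt_abs.1 h7 with h8 | h8
  · exact iff_of_false (by linarith [h2.2]) (by linarith)
  · exact iff_of_true (by linarith [h2.1]) (by linarith)

theorem sigma_near (S : Sys T.μ T.flow E) : ∃ C : ℝ, ∀ ρ L : ℝ, 0 < ρ → 20 * ρ ≤ T.r0 →
    ∫ y, T.zeta ρ y.1 * ‖sig (ker (T.c0 * ρ / 4)) (T.cut ρ L S.f) (T.cut ρ L S.h) y‖ ^ 2 ∂T.μ ≤
      C / ρ ^ 2 * (T.μ {y | T.d y.1 < 14 * ρ ∧ T.W (10 * ρ) L y}).toReal := by
  obtain ⟨C, hC, hker⟩ := ker_bound
  refine ⟨(C * S.M * (1 + T.r0) * Real.pi) ^ 2 * 4 * (16 / T.c0 ^ 2), fun ρ L hρ hρ' => ?_⟩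
  have hc := T.c0_pos
  have hM : 0 ≤ S.M := (norm_nonneg _).trans (S.f_bdd (0, 0))
  have hfar := T.sigma_far S L hρ hρ'
  have hε : T.c0 * ρ / 4 ≤ ρ / 40 := by nlinarith [T.c0_le]
  have hε2 : 2 * (T.c0 * ρ / 4) ≤ T.c0 * (2 * ρ) := by nlinarith
  have hε3 : 16 / T.c0 ^ 2 / ρ ^ 2 = 1 / (T.c0 * ρ / 4) ^ 2 := by field_simp; norm_num
  have hε0 : 0 < T.c0 * ρ / 4 := by positivity
  rw [mul_div_assoc _ (16 / T.c0 ^ 2), hε3]
  generalize T.c0 * ρ / 4 = ε at hε hε2 hε0 hfar ⊢
  have hκ := isKer_ker hε0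
  set W := {y : Phase | T.d y.1 < 14 * ρ ∧ T.W (10 * ρ) L y} with hWdef
  have hW : MeasurableSet W :=
    (measurableSet_lt (T.continuous_d.measurable.comp measurable_fst) measurable_const).inter
      (T.measurableSet_W _ _)
  set N := {y : Phase | (T.fold y).1 ∈ T.Int ∧ T.fold y ∈ W} with hNdef
  have hN : MeasurableSet N :=
    ((measurable_fst.comp T.measurable_fold) T.isOpen_Int.measurableSet).inter
      (T.measurable_fold hW)
  set P := {y : Phase | ¬ T.Short (10 * ρ) L y} ∩ {y | T.W (10 * ρ) L y}ᶜ with hPdef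
  set Q := {y : Phase | ¬ T.Short (10 * ρ) L y} ∩ {y | T.W (10 * ρ) L y} with hQdef
  have hP : MeasurableSet P := (T.measurableSet_short _ _).compl.inter (T.measurableSet_W _ _).compl
  have hQ : MeasurableSet Q := (T.measurableSet_short _ _).compl.inter (T.measurableSet_W _ _)
  have hsplit : ∀ g : Phase → E, T.cut ρ L g = T.ext (P.indicator g) + T.ext (Q.indicator g) := by
    intro g
    funext y
    simp only [Tri.cut, Tri.ext, Pi.add_apply]
    split_ifs
    · rw [← indicator_union_of_notMem_inter (fun h => h.1.2 h.2.2), hPdef, hQdef, union_comm,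
        inter_union_compl]
    · simp
  have hball : (volume (Metric.ball (0 : ℂ) ε)).toReal = ε ^ 2 * Real.pi := by
    simp [Complex.volume_ball, hε0.le]
  have hmass : ∀ y, (mass ε N y).toReal ≤ ε ^ 2 * Real.pi := fun y =>
    hball ▸ ENNReal.toReal_mono measure_ball_lt_top.ne (mass_le ε N y)
  set K := C * S.M * (1 + T.r0) / ε ^ 3 with hK
  have hr := T.r0_pos
  have hK0 : 0 ≤ K := by positivity
  have hpt : ∀ᵐ y ∂T.μ, T.zeta ρ y.1 * ‖sig (ker ε) (T.cut ρ L S.f) (T.cut ρ L S.h) y‖ ^ 2 ≤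
      K ^ 2 * (ε ^ 2 * Real.pi) * (mass ε N y).toReal := by
    filter_upwards [T.ae_int, ae_goodDir S, hfar] with y hy hθ hf
    have hnn : 0 ≤ K ^ 2 * (ε ^ 2 * Real.pi) * (mass ε N y).toReal := by positivity
    rcases le_or_gt (T.d y.1) (2 * ρ) with h1 | h1
    · rwa [T.zeta_eq_zero hρ h1, zero_mul]
    rcases le_or_gt (13 * ρ) (T.d y.1) with h2 | h2
    · rw [hf h2]; simpa using hnn
    have h3 : sig (ker ε) (T.ext (P.indicator S.f)) (T.ext (P.indicator S.h)) y = 0 := by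
      refine transport S hθ hκ hP hy (hε2.trans (mul_le_mul_of_nonneg_left h1.le hc.le))
        fun y' s A h3 h4 h5 => ?_
      have h6 := abs_le.1 (T.abs_d_sub_le y'.1 y.1)
      have h7 := w_flow (R := 10 * ρ) (L := L) (by linarith) h5 (by linarith [h6.2])
      exact (and_congr_right' (not_congr h7)).trans (and_congr_left fun h8 => not_congr
        (short_flow_of_not_w (by linarith) h5 (by linarith) h8))
    have hG0 : ∀ g : Phase → E, ∀ z, ‖z - y.1‖ < ε → T.ext (Q.indicator g) (z, y.2) ≠ 0 →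
        (z, y.2) ∈ N := by
      intro g z hz h4
      have h5 : (T.fold (z, y.2)).1 ∈ T.Int := by
        by_contra h5
        exact h4 (if_neg h5)
      have h6 : T.fold (z, y.2) ∈ Q := by
        by_contra h6
        exact h4 ((if_pos h5).trans (indicator_of_notMem h6 g))
      refine ⟨h5, ?_, h6.2⟩
      have h7 := abs_le.1 (T.abs_d_sub_le (T.fold (z, y.2)).1 y.1)
      have h8 : ‖(T.fold (z, y.2)).1 - y.1‖ ≤ ‖z - y.1‖ :=
        T.norm_foldG_sub_le (T.Int_subset_Δ hy) z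
      linarith [h7.2]
    have b1 := norm_integral_le_mass (φ := fun z => fderiv ℝ (ker ε) z (e y.2)) (B := C / ε ^ 3)
      hN (fun z => by
        have := (fderiv ℝ (ker ε) z).le_opNorm (e y.2)
        rw [norm_e, mul_one] at this
        exact this.trans (hker ε hε0 z).2)
      (fun z hz => by rw [hκ.fderiv_eq_zero hz]; rfl)
      (T.norm_ext_le (norm_indicator_le' (P := Q) S.f_bdd)) y (hG0 _)
    have b2 := norm_integral_le_mass (φ := ker ε) (B := C / ε ^ 2)
      hN (fun z => by rw [abs_of_nonneg (hκ.nonneg z)]; exact (hker ε hε0 z).1) hκ.supp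
      (T.norm_ext_le (norm_indicator_le' (P := Q) S.h_bdd)) y (hG0 _)
    have h4 : ‖sig (ker ε) (T.cut ρ L S.f) (T.cut ρ L S.h) y‖ ≤ K * (mass ε N y).toReal := by
      rw [hsplit, hsplit, sig_add hκ (T.stronglyMeasurable_ext (S.f_meas.indicator hP))
        (T.stronglyMeasurable_ext (S.f_meas.indicator hQ))
        (T.stronglyMeasurable_ext (S.h_meas.indicator hP))
        (T.stronglyMeasurable_ext (S.h_meas.indicator hQ))
        (T.norm_ext_le (norm_indicator_le' S.f_bdd)) (T.norm_ext_le (norm_indicator_le' S.f_bdd))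
        (T.norm_ext_le (norm_indicator_le' S.h_bdd)) (T.norm_ext_le (norm_indicator_le' S.h_bdd)),
        h3, zero_add]
      refine (norm_sub_le _ _).trans ((add_le_add b1 b2).trans ?_)
      rw [← add_mul]
      refine mul_le_mul_of_nonneg_right ?_ ENNReal.toReal_nonneg
      have e1 : C / ε ^ 3 * S.M + C / ε ^ 2 * S.M = C * S.M * (1 + ε) / ε ^ 3 := by
        field_simp
      rw [e1, hK]
      exact div_le_div_of_nonneg_right
        (mul_le_mul_of_nonneg_left (by linarith) (by positivity)) (by positivity)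
    calc _ ≤ 1 * (K * (mass ε N y).toReal) ^ 2 :=
          mul_le_mul (T.zeta_le_one _ _) (pow_le_pow_left₀ (norm_nonneg _) h4 2) (by positivity)
            zero_le_one
      _ = K ^ 2 * (mass ε N y).toReal * (mass ε N y).toReal := by ring
      _ ≤ _ := mul_le_mul_of_nonneg_right
          (mul_le_mul_of_nonneg_left (hmass y) (by positivity)) ENNReal.toReal_nonneg
  have hmm : Measurable (mass ε N) := measurable_measure_prodMk_left (measurableSet_mass ε hN)
  have hl : ∫⁻ y, mass ε N y ∂T.μ ≤ 4 * T.μ W * volume (Metric.ball (0 : ℂ) ε) := by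
    calc _ ≤ ∫⁻ y, mass ε N y := by
          rw [T.μ_eq]; exact lintegral_mono' Measure.restrict_le_self le_rfl
      _ ≤ _ := by
          rw [lintegral_mass ε hN]; exact mul_le_mul_left (T.fold_le W) _
  have hfin : 4 * T.μ W * volume (Metric.ball (0 : ℂ) ε) ≠ ⊤ :=
    ENNReal.mul_ne_top (ENNReal.mul_ne_top (by simp) (measure_ne_top _ _)) measure_ball_lt_top.ne
  refine (integral_mono_of_nonneg (Eventually.of_forall fun y =>
    mul_nonneg (T.zeta_nonneg _ _) (sq_nonneg _))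
    ((integrable_toReal_of_lintegral_ne_top hmm.aemeasurable
      (ne_top_of_le_ne_top hfin hl)).const_mul _) hpt).trans ?_
  rw [integral_const_mul, integral_toReal hmm.aemeasurable (Eventually.of_forall fun y =>
    (mass_le ε N y).trans_lt measure_ball_lt_top)]
  have h1 := ENNReal.toReal_mono hfin hl
  rw [ENNReal.toReal_mul, ENNReal.toReal_mul, hball, ENNReal.toReal_ofNat] at h1
  refine (mul_le_mul_of_nonneg_left h1 (by positivity)).trans_eq ?_
  rw [hK]
  field_simp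

end Tri

end Crest.Agent.R103
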