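import Crest.Agent.R103.Energy
import Crest.Agent.R103.Sigma
import Crest.Agent.R103.Osc
import Crest.Agent.R103.Jump
import Crest.Agent.R103.G1
import Crest.Agent.R103.G2a
import Crest.Agent.R103.G2b
import Crest.Agent.R103.ConstA
import Crest.Agent.R103.ConstB
import Crest.Agent.R103.Hilbert

/-! Row 103: assembly. -/

set_option autoImplicit false

namespace Crest.Agent.R103

open MeasureTheory Set Filter Topology
open scoped ENNReal ComplexConjugate InnerProductSpace ContDiff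

namespace Tri

variable (T : Tri)

theorem geo {η : ℝ} (hη : 0 < η) : ∃ δ : ℝ, 0 < δ ∧ ∀ ρ₀ : ℝ, 0 < ρ₀ →
    ∃ ρ L : ℝ, 0 < ρ ∧ ρ < ρ₀ ∧ δ / ρ ≤ L ∧ L ≤ η / ρ ∧
      T.μ {y | T.d y.1 < 14 * ρ ∧ T.W (10 * ρ) L y} ≤ ENNReal.ofReal (η * ρ ^ 2) ∧
      T.μ {y | T.d y.1 < 4 * ρ ∧ ¬ T.RL ρ L y ∧ ¬ T.RS ρ L y} ≤ ENNReal.ofReal (η * ρ ^ 2) := by
  obtain ⟨C₁, h₁⟩ := T.g2a
  obtain ⟨C₂, h₂⟩ := T.g2b
  have hpi := Real.pi_pos
  set C : ℝ := 10 * (|C₁| + |C₂|) + 96 * Real.pi with hC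
  have hC0 : 0 < C := by positivity
  set η' : ℝ := η / C with hη'
  have hη'0 : 0 < η' := by positivity
  have hCη : C * η' = η := by rw [hη']; field_simp
  obtain ⟨s₁, hs₁, hexc⟩ := T.exc_small hη'0
  set a : ℝ := min 1 η' with ha
  have ha0 : 0 < a := lt_min one_pos hη'0
  have ha1 : a ≤ 1 := min_le_left _ _
  have haη : a ≤ η' := min_le_right _ _
  obtain ⟨A, hA, hJ⟩ := jump (volume : Measure Ang) T.r0_pos
    (fun s j θ => if 0 < s then T.tt s j θ else 0)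
    (fun s j => by
      by_cases hs : 0 < s
      · simpa only [if_pos hs] using T.measurable_tt hs j
      · simpa only [if_neg hs] using measurable_const)
    (fun j θ s s' hs h _ => by
      simpa only [if_pos hs, if_pos (hs.trans_le h)] using T.tt_anti hs h j θ)
    (fun j θ s hs h => by simpa only [if_pos hs] using T.le_tt hs h j θ)
    (fun j θ s hs _ => by simpa only [if_pos hs] using T.tt_le hs j θ)
    hη'0 (a := a / 2) (by positivity) (by linarith)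
  have hA0 : 0 < A := by linarith
  obtain ⟨δ, hδ, hJ⟩ := hJ (41 + 10 * A) (min η (1 / A)) (by linarith)
    (lt_min hη (by positivity))
  obtain ⟨ρ₁, hρ₁, g1⟩ := T.g1 hs₁
  obtain ⟨ρ₂, hρ₂, g2⟩ := h₁ s₁ a A hs₁ ha0 ha1 (by linarith)
  obtain ⟨ρ₃, hρ₃, g3⟩ := h₂ s₁ a A hs₁ ha0 ha1 hA
  refine ⟨δ, hδ, fun ρ₀ hρ₀ => ?_⟩
  obtain ⟨ρ, L, hρ, hρlt, hL1, hL2, hJ⟩ := hJ (min (min ρ₀ (min ρ₁ (min ρ₂ ρ₃))) (min 1 (δ / 24)))
    (by positivity)
  simp only [lt_min_iff] at hρlt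
  obtain ⟨⟨hr0, hr1, hr2, hr3⟩, hr4, hr5⟩ := hρlt
  have hL3 : L ≤ η / ρ := hL2.trans (div_le_div_of_nonneg_right (min_le_left _ _) hρ.le)
  have hL4 : A * L ≤ 1 / ρ := by
    have := hL2.trans (div_le_div_of_nonneg_right (min_le_right _ _) hρ.le)
    calc A * L ≤ A * (1 / A / ρ) := by gcongr
      _ = 1 / ρ := by field_simp
  have hL5 : 24 * ρ ≤ L := by
    refine le_trans ?_ hL1
    rw [le_div_iff₀ hρ]; nlinarith
  have hL0 : 0 < L := by linarith
  have hL6 : L ≤ 1 / (2 * ρ) := by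
    rw [le_div_iff₀ (by positivity)]
    rw [le_div_iff₀ hρ] at hL4
    nlinarith [mul_pos hL0 hρ]
  have hL7 : L ≤ 1 / ρ := by
    refine hL6.trans (one_div_le_one_div_of_le hρ (by linarith))
  have hp1 : 0 < a / 2 * ρ := by positivity
  have hp2 : 0 < 30 * ρ := by positivity
  have hp3 : 0 < (41 + 10 * A) * ρ := by positivity
  simp only [if_pos hp1, if_pos hp2, if_pos hp3] at hJ
  have hB1 : ∀ j, volume {θ | T.tt (15 * ρ) j θ / 2 ≤ L ∧ L ≤ 3 * T.tt (5 * ρ) j θ} ≤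
      ENNReal.ofReal η' := fun j => by
    refine le_trans (measure_mono fun θ hθ => ?_) (hJ j).2
    have h1 := T.tt_anti (s := 15 * ρ) (s' := (41 + 10 * A) * ρ) (by positivity) (by nlinarith) j θ
    have h2 := T.tt_anti (s := a / 2 * ρ) (s' := 5 * ρ) hp1 (by nlinarith) j θ
    obtain ⟨h3, h4⟩ := hθ
    refine ⟨?_, by linarith⟩
    rw [div_le_iff₀ (by positivity)]
    nlinarith
  have hB2 : ∀ j, volume {θ | T.tt ((41 + 10 * A) * ρ) j θ / (2 * A) ≤ L ∧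
      L ≤ 3 * T.tt (a * ρ) j θ} ≤ ENNReal.ofReal η' := fun j => by
    refine le_trans (measure_mono fun θ hθ => ?_) (hJ j).2
    have h2 := T.tt_anti (s := a / 2 * ρ) (s' := a * ρ) hp1 (by nlinarith) j θ
    exact ⟨hθ.1, by linarith [hθ.2]⟩
  have hB3 : ∀ j, ∫⁻ θ, ENNReal.ofReal
      (Real.log (T.tt (a * ρ / 2) j θ / T.tt (30 * ρ) j θ) / Real.log A) ≤ ENNReal.ofReal η' :=
    fun j => by
      rw [show a * ρ / 2 = a / 2 * ρ by ring]; exact (hJ j).1
  have h5 : ∀ (x : Fin 3 → ℝ≥0∞), (∀ j, x j ≤ ENNReal.ofReal η') →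
      ENNReal.ofReal a + volume (T.Exc s₁) + ∑ j, x j ≤ ENNReal.ofReal (5 * η') := by
    intro x hx
    have h1 : ENNReal.ofReal (5 * η') = ENNReal.ofReal η' + ENNReal.ofReal η' +
        (ENNReal.ofReal η' + ENNReal.ofReal η' + ENNReal.ofReal η') := by
      rw [← ENNReal.ofReal_add hη'0.le hη'0.le, ← ENNReal.ofReal_add (by positivity) hη'0.le,
        ← ENNReal.ofReal_add (by positivity) (by positivity)]
      congr 1; ring
    rw [h1, Fin.sum_univ_three]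
    exact add_le_add (add_le_add (ENNReal.ofReal_le_ofReal haη) hexc)
      (add_le_add (add_le_add (hx 0) (hx 1)) (hx 2))
  have h6 : ∀ (c : ℝ) (x : ℝ≥0∞), x ≤ ENNReal.ofReal (5 * η') →
      ENNReal.ofReal (c * ρ ^ 2) * x ≤ ENNReal.ofReal (5 * |c| * η' * ρ ^ 2) := by
    intro c x hx
    calc ENNReal.ofReal (c * ρ ^ 2) * x
        ≤ ENNReal.ofReal (|c| * ρ ^ 2) * ENNReal.ofReal (5 * η') :=
          mul_le_mul' (ENNReal.ofReal_le_ofReal (by gcongr; exact le_abs_self c)) hx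
      _ = _ := by
          rw [← ENNReal.ofReal_mul (by positivity)]; congr 1; ring
  refine ⟨ρ, L, hρ, hr0, hL1, hL3, ?_, ?_⟩
  · have k1 := (g2 ρ L hρ hr2 hL5 hL7).trans (h6 _ _ (h5 _ hB2))
    have k2 := (g3 ρ L hρ hr3 hL4).trans (h6 _ _ (h5 _ hB3))
    have k3 : T.μ {y | T.d y.1 < 14 * ρ ∧ T.Wp (10 * ρ) L y} ≤
        T.μ {y | T.d y.1 < 14 * ρ ∧ T.Wp (10 * ρ) L y ∧ ¬ T.S3 ρ L a A y} +
          T.μ {y | T.S3 ρ L a A y} := by
      refine le_trans (measure_mono fun y hy => ?_) (measure_union_le _ _)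
      by_cases h : T.S3 ρ L a A y
      · exact Or.inr h
      · exact Or.inl ⟨hy.1, hy.2, h⟩
    refine (T.μ_W_le _ _ _).trans ((mul_le_mul' le_rfl (k3.trans (add_le_add k1 k2))).trans ?_)
    rw [← ENNReal.ofReal_add (by positivity) (by positivity), ← ENNReal.ofReal_ofNat,
      ← ENNReal.ofReal_mul (by positivity)]
    apply ENNReal.ofReal_le_ofReal
    rw [← hCη, hC]
    have : 0 ≤ 96 * Real.pi * η' * ρ ^ 2 := by positivity
    nlinarith
  · refine (g1 ρ L hρ hr1 hL5 hL6).trans ?_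
    have k1 : ∀ j, ENNReal.ofReal (16 * Real.pi * ρ ^ 2) * (volume (T.Exc s₁) +
        volume {θ | T.tt (15 * ρ) j θ / 2 ≤ L ∧ L ≤ 3 * T.tt (5 * ρ) j θ}) ≤
        ENNReal.ofReal (32 * Real.pi * η' * ρ ^ 2) := fun j => by
      refine (mul_le_mul' le_rfl (add_le_add hexc (hB1 j))).trans_eq ?_
      rw [← ENNReal.ofReal_add hη'0.le hη'0.le, ← ENNReal.ofReal_mul (by positivity)]
      congr 1; ring
    refine (Finset.sum_le_sum fun j _ => k1 j).trans ?_
    rw [Fin.sum_univ_three, ← ENNReal.ofReal_add (by positivity) (by positivity),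
      ← ENNReal.ofReal_add (by positivity) (by positivity)]
    apply ENNReal.ofReal_le_ofReal
    rw [← hCη, hC]
    have : 0 ≤ 10 * (|C₁| + |C₂|) * η' * ρ ^ 2 := by positivity
    nlinarith

variable {E : Type} [NormedAddCommGroup E] [InnerProductSpace ℂ E] [CompleteSpace E]

theorem sys_const [SecondCountableTopology E] (hT : T.Irr) (S : Sys T.μ T.flow E) :
    ∃ c, ∀ᵐ y ∂T.μ, S.f y = c := by
  suffices h : ∃ c : Ang → E, StronglyMeasurable c ∧ ∀ᵐ y ∂T.μ, S.f y = c y.2 by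
    obtain ⟨c, hc, h⟩ := h
    exact T.const_dir hT S hc h
  refine T.const_pos S.f_meas S.f_bdd fun m η hη => ?_
  have hpi := Real.pi_pos
  have hc0 := T.c0_pos
  have hc1 := T.c0_le
  have hr0 := T.r0_pos
  obtain ⟨K₁, hK₁⟩ := T.integral_fderiv_zeta
  obtain ⟨Cg, hCg⟩ := gsq_bound (E := E)
  obtain ⟨Cσ, hCσ⟩ := T.sigma_near S
  obtain ⟨Co, hCo⟩ := T.osc S
  obtain ⟨Cs, hCs⟩ := T.short_le
  set K₂ : ℝ := |Cg| * S.M ^ 2 * 16 / T.c0 ^ 2 * (6 * Real.pi ^ 2 * 13 ^ 2) with hK₂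
  obtain ⟨C, hC⟩ := T.energy (E := E) (max K₁ K₂) S.M
  obtain ⟨N, hN⟩ := exists_nat_gt (max (2 * |C| / η) 1)
  have hN1 : (1 : ℝ) < N := (le_max_right _ _).trans_lt hN
  have hN2 : 2 * |C| / η < N := (le_max_left _ _).trans_lt hN
  set β : ℝ := min 1 (η / (2 * (|C| + 1) * (N : ℝ) ^ 2)) with hβ
  have hβ0 : 0 < β := lt_min one_pos (by positivity)
  have hβ1 : β ≤ 1 := min_le_left _ _
  have hβ2 : β ≤ η / (2 * (|C| + 1) * (N : ℝ) ^ 2) := min_le_right _ _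
  set η' : ℝ := min (β ^ 2 / (|Co| + |Cσ| + 1)) (η / (2 * |Cs| + 1)) with hη'
  have hη'0 : 0 < η' := lt_min (by positivity) (by positivity)
  have hη'1 : (|Co| + |Cσ| + 1) * η' ≤ β ^ 2 := by
    rw [← le_div_iff₀' (by positivity)]; exact min_le_left _ _
  have hη'2 : (2 * |Cs| + 1) * η' ≤ η := by
    rw [← le_div_iff₀' (by positivity)]; exact min_le_right _ _
  obtain ⟨δ, hδ, hgeo⟩ := T.geo hη'0
  obtain ⟨ρ₁, hρ₁, hosc⟩ := hCo η' δ hη'0 hδ
  obtain ⟨ρ, L, hρ, hρlt, hL1, hL2, hW, hR⟩ := hgeo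
    (min (min ρ₁ (T.r0 / 20)) (min (min (η / 3) 1) (min η' (β ^ 2 / (27 * Real.pi)))))
    (by positivity)
  simp only [lt_min_iff] at hρlt
  obtain ⟨⟨hr1, hr2⟩, ⟨hr3, hr4⟩, hr5, hr6⟩ := hρlt
  have hL0 : 0 < L := (div_pos hδ hρ).trans_le hL1
  have hε : 0 < T.c0 * ρ / 4 := by positivity
  have hκ := isKer_ker hε
  have hFm := T.stronglyMeasurable_cut ρ L S.f_meas
  have hHm := T.stronglyMeasurable_cut ρ L S.h_meas
  have hFb := T.norm_cut_le ρ L S.f_bdd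
  have hHb := T.norm_cut_le ρ L S.h_bdd
  refine ⟨T.cut ρ L S.f, ker (T.c0 * ρ / 4), T.zeta ρ, T.c0 * ρ / 4, hFm, hFb, hκ, by nlinarith,
    ?_, (T.contDiff_zeta ρ).continuous, T.zeta_nonneg ρ, T.zeta_le_one ρ,
    fun x hx => T.zeta_eq_one hρ (by linarith), ?_⟩
  · refine le_trans (measure_mono_ae ?_) ((hCs ρ L hρ hL0).trans (ENNReal.ofReal_le_ofReal ?_))
    · filter_upwards [T.ae_int] with y hy h
      by_contra hs
      refine h ?_
      rw [cut, T.ext_of_mem _ hy, indicator_of_mem (by exact hs)]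
    · rw [le_div_iff₀ hρ] at hL2
      have h1 : ρ * L + ρ ^ 2 ≤ 2 * η' := by nlinarith
      have h2 : Cs * (ρ * L + ρ ^ 2) ≤ |Cs| * (ρ * L + ρ ^ 2) :=
        mul_le_mul_of_nonneg_right (le_abs_self _) (by positivity)
      have h3 : |Cs| * (ρ * L + ρ ^ 2) ≤ |Cs| * (2 * η') := by gcongr
      nlinarith
  have hmU : MeasurableSet {x | 2 * ρ ≤ T.d x ∧ T.d x ≤ 3 * ρ} :=
    (measurableSet_le measurable_const T.continuous_d.measurable).inter
      (measurableSet_le T.continuous_d.measurable measurable_const)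
  have hmU' : MeasurableSet {x | T.d x < 13 * ρ} :=
    measurableSet_lt T.continuous_d.measurable measurable_const
  have key := hC (T.cut ρ L S.f) (T.cut ρ L S.h) (ker (T.c0 * ρ / 4)) (T.zeta ρ) (T.c0 * ρ / 4)
    (β ^ 2) {x | 2 * ρ ≤ T.d x ∧ T.d x ≤ 3 * ρ} {x | T.d x < 13 * ρ} hFm hHm hFb hHb
    (T.cut_skew S ρ L) hκ (T.contDiff_zeta ρ) (T.zeta_nonneg ρ) (T.zeta_le_one ρ)
    (fun j x hx hj hζ z hz θ => by
      have hd : 2 * ρ < T.d x := by
        by_contra h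
        exact hζ (T.zeta_eq_zero hρ (not_lt.1 h))
      have hx' : x ∈ T.D0 := ⟨hx, by linarith⟩
      have hz' : ‖z - x‖ < T.c0 * T.d x := by nlinarith
      exact ⟨T.ext_σ _ hx' hj hz' θ, T.ext_σ _ hx' hj hz' θ⟩)
    hmU hmU' (by nlinarith) (fun x hx => T.fderiv_zeta_eq_zero hρ hx)
    ((hK₁ ρ hρ).trans (le_max_left _ _))
    (by
      refine (measure_mono fun x hx => hx.2).trans
        ((T.volume_d_le (s := 3 * ρ) (by positivity)).trans (ENNReal.ofReal_le_ofReal ?_))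
      rw [lt_div_iff₀ (by positivity)] at hr6
      nlinarith [mul_pos hρ hpi])
    ((hosc ρ L hρ hr1 hL1 hW hR).trans (by
      have := mul_le_mul_of_nonneg_right (le_abs_self Co) hη'0.le
      nlinarith [abs_nonneg Cσ]))
    (by
      filter_upwards [T.sigma_far S L hρ (by linarith)] with y hy h
      exact hy (not_lt.1 h))
    (by
      refine le_trans ?_ (le_max_right _ _)
      have h1 : ∀ y ∈ {y : Phase | y.1 ∈ {x | T.d x < 13 * ρ}},
          ‖gsq (ker (T.c0 * ρ / 4)) (T.cut ρ L S.f) y‖ ≤ |Cg| * S.M ^ 2 / (T.c0 * ρ / 4) ^ 2 := by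
        intro y _
        rw [Real.norm_eq_abs, abs_of_nonneg (by unfold gsq; positivity)]
        refine (hCg _ _ _ hε hFb y).trans ?_
        gcongr; exact le_abs_self _
      have h2 := norm_setIntegral_le_of_norm_le_const (μ := T.μ) (measure_lt_top _ _) h1
      have h3 : T.μ.real {y : Phase | y.1 ∈ {x | T.d x < 13 * ρ}} ≤
          6 * Real.pi ^ 2 * (13 * ρ) ^ 2 :=
        ENNReal.toReal_le_of_le_ofReal (by positivity) (T.μ_d_lt (by positivity))
      refine (le_abs_self _).trans (h2.trans ((mul_le_mul_of_nonneg_left h3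
        (by positivity)).trans_eq ?_))
      rw [hK₂]; field_simp; ring)
    ((hCσ ρ L hρ (by linarith)).trans (by
      have h1 := ENNReal.toReal_le_of_le_ofReal (by positivity) hW
      have h2 : Cσ / ρ ^ 2 * (T.μ {y | T.d y.1 < 14 * ρ ∧ T.W (10 * ρ) L y}).toReal ≤
          |Cσ| / ρ ^ 2 * (η' * ρ ^ 2) := by
        refine le_trans (mul_le_mul_of_nonneg_right ?_ ENNReal.toReal_nonneg)
          (mul_le_mul_of_nonneg_left h1 (by positivity))
        gcongr; exact le_abs_self _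
      have h3 : |Cσ| / ρ ^ 2 * (η' * ρ ^ 2) = |Cσ| * η' := by field_simp
      nlinarith [abs_nonneg Co]))
    m N (by exact_mod_cast hN1.le)
  refine key.trans ?_
  rw [Real.sqrt_sq hβ0.le]
  have hN0 : (0 : ℝ) < N := by linarith
  have h1 : C / N ≤ η / 2 := by
    rw [div_lt_iff₀ hη] at hN2
    rw [div_le_iff₀ hN0]
    nlinarith [le_abs_self C]
  have h2 : C * (N : ℝ) ^ 2 * β ≤ η / 2 := by
    rw [le_div_iff₀ (by positivity)] at hβ2
    have h3 : C * (N : ℝ) ^ 2 * β ≤ (|C| + 1) * (N : ℝ) ^ 2 * β := by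
      gcongr; linarith [le_abs_self C]
    nlinarith
  linarith

open scoped symmDiff in
theorem prod_ergodic (hT : T.Irr) (s : Set (Phase × Phase)) (hs : MeasurableSet s)
    (hinv : ∀ τ, (T.μ.prod T.μ)
      (((fun z : Phase × Phase => (T.flow τ z.1, T.flow τ z.2)) ⁻¹' s) ∆ s) = 0) :
    (T.μ.prod T.μ) s = 0 ∨ (T.μ.prod T.μ) sᶜ = 0 :=
  have : Fact ((2 : ℝ≥0∞) ≠ ⊤) := ⟨by simp⟩
  prod_ergodic_of_sys T.μ T.flow T.measurable_flow T.measurePreserving_flow T.flow_add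
    (fun S => T.sys_const hT S) s hs hinv

end Tri

end Crest.Agent.R103
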