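import Crest.Agent.R103.Kernel
import Crest.Agent.R103.Meas

/-! Row 103: analytic preliminaries for `Osc.lean`. -/

set_option autoImplicit false

namespace Crest.Agent.R103.OscAux

open MeasureTheory Set Filter Topology Metric
open scoped ENNReal ComplexConjugate InnerProductSpace ContDiff

theorem lin_mp (A : Iso) : MeasurePreserving A.lin volume volume := by
  let l : ℂ →ₗᵢ[ℝ] ℂ :=
    { toFun := A.lin
      map_add' := A.lin_add
      map_smul' := A.lin_smul
      norm_map' := A.norm_lin }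
  exact (l.toLinearIsometryEquiv rfl).measurePreserving

theorem lin_mp_ball (A : Iso) (ε : ℝ) :
    MeasurePreserving A.lin (volume.restrict (ball 0 ε)) (volume.restrict (ball 0 ε)) := by
  have h := (lin_mp A).restrict_preimage (s := ball (0 : ℂ) ε) measurableSet_ball
  have e : A.lin ⁻¹' ball (0 : ℂ) ε = ball 0 ε := by
    ext w; simp
  rwa [e] at h

theorem ae_tr {Q : Phase → Prop} (h : ∀ᵐ y ∂(volume : Measure Phase), Q y) :
    ∀ᵐ y ∂(volume : Measure Phase), ∀ᵐ w ∂(volume : Measure ℂ), Q (tr w y) := by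
  have h1 : ∀ᵐ q ∂((volume : Measure Ang).prod (volume : Measure ℂ)), Q q.swap :=
    Measure.measurePreserving_swap.quasiMeasurePreserving.ae h
  have h2 := Measure.ae_ae_of_ae_prod h1
  have h3 : ∀ᵐ y ∂(volume : Measure Phase), ∀ᵐ z ∂(volume : Measure ℂ), Q (z, y.2) :=
    (Measure.quasiMeasurePreserving_snd (μ := (volume : Measure ℂ))
      (ν := (volume : Measure Ang))).ae h2
  filter_upwards [h3] with y hy
  exact (measurePreserving_add_left volume y.1).quasiMeasurePreserving.ae hy

theorem μ_le (T : Tri) : T.μ ≤ volume := by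
  rw [T.μ_eq]; exact Measure.restrict_le_self

theorem continuous_tr : Continuous fun q : Phase × ℂ => tr q.2 q.1 := by
  unfold tr; fun_prop

theorem sq_lintegral_le {α : Type} [MeasurableSpace α] (μ : Measure α) {h : α → ℝ≥0∞}
    (hh : AEMeasurable h μ) : (∫⁻ a, h a ∂μ) ^ 2 ≤ (∫⁻ a, h a ^ 2 ∂μ) * μ univ := by
  have h1 := ENNReal.lintegral_mul_le_Lp_mul_Lq μ Real.HolderConjugate.two_two hh
    (aemeasurable_const (b := (1 : ℝ≥0∞)))
  simp only [Pi.mul_apply, mul_one, ENNReal.one_rpow, lintegral_const, one_mul,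
    ENNReal.rpow_ofNat] at h1
  refine (pow_le_pow_left' h1 2).trans (le_of_eq ?_)
  have e : ∀ a : ℝ≥0∞, (a ^ (1 / 2 : ℝ)) ^ 2 = a := fun a => by
    rw [← ENNReal.rpow_ofNat, ← ENNReal.rpow_mul]
    norm_num
  rw [mul_pow, e, e, one_pow, one_mul]

variable {E : Type} [NormedAddCommGroup E]

/-- squared oscillation under the translation by `w` -/
noncomputable def dif (G : Phase → E) (y : Phase) (w : ℂ) : ℝ≥0∞ :=
  ENNReal.ofReal (‖G (tr w y) - G y‖ ^ 2)

/-- integrated oscillation -/
noncomputable def O (ε : ℝ) (G : Phase → E) (y : Phase) : ℝ≥0∞ := ∫⁻ w in ball 0 ε, dif G y w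

theorem measurable_dif {G : Phase → E} (hG : StronglyMeasurable G) :
    Measurable (Function.uncurry (dif G)) := by
  have h1 : StronglyMeasurable fun q : Phase × ℂ => G (tr q.2 q.1) - G q.1 :=
    (hG.comp_measurable continuous_tr.measurable).sub (hG.comp_measurable measurable_fst)
  exact (h1.norm.measurable.pow_const 2).ennreal_ofReal

theorem measurable_dif' {G : Phase → E} (hG : StronglyMeasurable G) (y : Phase) :
    Measurable (dif G y) := (measurable_dif hG).of_uncurry_left

theorem measurable_O (ε : ℝ) {G : Phase → E} (hG : StronglyMeasurable G) : Measurable (O ε G) :=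
  (measurable_dif hG).lintegral_prod_right

theorem dif_le {G : Phase → E} {M : ℝ} (hM : ∀ y, ‖G y‖ ≤ M) (y : Phase) (w : ℂ) :
    dif G y w ≤ ENNReal.ofReal (4 * M ^ 2) := by
  refine ENNReal.ofReal_le_ofReal ?_
  have h1 : ‖G (tr w y) - G y‖ ≤ 2 * M := (norm_sub_le _ _).trans (by linarith [hM y, hM (tr w y)])
  have := pow_le_pow_left₀ (norm_nonneg _) h1 2
  linarith

theorem vol_ball {ε : ℝ} (hε : 0 ≤ ε) :
    volume (ball (0 : ℂ) ε) = ENNReal.ofReal (Real.pi * ε ^ 2) := by
  rw [Complex.volume_ball, ENNReal.ofReal_mul Real.pi_pos.le, ENNReal.ofReal_pow hε, mul_comm]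
  congr 1
  rw [← NNReal.coe_real_pi, ENNReal.ofReal_coe_nnreal]

theorem lintegral_O_le (ε : ℝ) {G : Phase → E} (hG : StronglyMeasurable G) {b : ℝ≥0∞}
    (hb : ∀ w : ℂ, ‖w‖ < ε → ∫⁻ y, dif G y w ≤ b) :
    ∫⁻ y, O ε G y ≤ b * volume (ball (0 : ℂ) ε) := by
  unfold O
  rw [lintegral_lintegral_swap (measurable_dif hG).aemeasurable, ← setLIntegral_const]
  refine setLIntegral_mono' measurableSet_ball fun w hw => hb w (by simpa using hw)

variable [InnerProductSpace ℂ E] [CompleteSpace E]

theorem smD_sq_le {C ε M : ℝ} (hε : 0 < ε) (hC : 0 < C)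
    (hb : ∀ z, ‖fderiv ℝ (ker ε) z‖ ≤ C / ε ^ 3) {F : Phase → E} (hF : StronglyMeasurable F)
    (hM : ∀ y, ‖F y‖ ≤ M) {u : ℂ} (hu : ‖u‖ = 1) (y : Phase) :
    ENNReal.ofReal (‖smD (ker ε) F u y‖ ^ 2) ≤
      ENNReal.ofReal (C ^ 2 * Real.pi / ε ^ 4) * O ε F y := by
  have hk := isKer_ker hε
  set c : ℂ → ℝ := fun w => fderiv ℝ (ker ε) (-w) u with hc
  have hcc : Continuous c :=
    ((hk.smooth.continuous_fderiv (by simp)).comp continuous_neg).clm_apply continuous_const
  have hc0 : ∀ w, ε ≤ ‖w‖ → c w = 0 := fun w hw => by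
    simp only [hc]
    rw [hk.fderiv_eq_zero (by simpa using hw)]
    rfl
  have hcs : HasCompactSupport c := HasCompactSupport.intro (isCompact_closedBall (0 : ℂ) ε)
    fun w hw => hc0 w (by simp at hw; exact hw.le)
  have hci : Integrable c := hcc.integrable_of_hasCompactSupport hcs
  have hcb : ∀ w, ‖c w‖ ≤ C / ε ^ 3 := fun w => by
    refine ((fderiv ℝ (ker ε) (-w)).le_opNorm u).trans ?_
    rw [hu, mul_one]; exact hb _
  have hFm : StronglyMeasurable fun w : ℂ => F (tr w y) :=
    hF.comp_measurable (continuous_tr.comp (continuous_const.prodMk continuous_id)).measurable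
  have hint : ∀ G : ℂ → E, StronglyMeasurable G → (∀ w, ‖G w‖ ≤ M) →
      Integrable fun w => ((c w : ℝ) : ℂ) • G w := fun G hG hGM => by
    refine Integrable.mono' (hci.norm.mul_const M)
      ((Complex.continuous_ofReal.comp hcc).stronglyMeasurable.smul hG).aestronglyMeasurable
      (Eventually.of_forall fun w => ?_)
    rw [norm_smul, Complex.norm_real]
    exact mul_le_mul_of_nonneg_left (hGM w) (norm_nonneg _)
  have h1 : smD (ker ε) F u y = ∫ w, ((c w : ℝ) : ℂ) • F (tr w y) := by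
    unfold smD
    rw [← integral_add_left_eq_self _ y.1]
    simp only [hc, tr, sub_add_cancel_left]
  have h2 : ∫ w, ((c w : ℝ) : ℂ) • F y = 0 := by
    rw [integral_smul_const, integral_complex_ofReal]
    have : ∫ w, c w = 0 := by
      rw [hc, integral_neg_eq_self (fun w => fderiv ℝ (ker ε) w u)]
      exact hk.integral_fderiv u
    rw [this]; simp
  have h3 : smD (ker ε) F u y = ∫ w, ((c w : ℝ) : ℂ) • (F (tr w y) - F y) := by
    simp only [smul_sub]
    rw [integral_sub (hint _ hFm fun w => hM _) (hint _ stronglyMeasurable_const fun w => hM _),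
      h2, sub_zero, h1]
  set h : ℂ → ℝ≥0∞ := fun w => ENNReal.ofReal ‖F (tr w y) - F y‖ with hh
  have hhm : Measurable h := (hFm.sub stronglyMeasurable_const).norm.measurable.ennreal_ofReal
  have h4 : ENNReal.ofReal ‖smD (ker ε) F u y‖ ≤
      ENNReal.ofReal (C / ε ^ 3) * ∫⁻ w in ball 0 ε, h w := by
    rw [h3, ofReal_norm]
    refine (enorm_integral_le_lintegral_enorm _).trans ?_
    rw [← lintegral_const_mul _ hhm, ← lintegral_indicator measurableSet_ball]
    refine lintegral_mono fun w => ?_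
    by_cases hw : w ∈ ball (0 : ℂ) ε
    · rw [indicator_of_mem hw, ← ofReal_norm, norm_smul, Complex.norm_real, hh,
        ← ENNReal.ofReal_mul (by positivity)]
      exact ENNReal.ofReal_le_ofReal (mul_le_mul_of_nonneg_right (hcb w) (norm_nonneg _))
    · rw [hc0 w (by simpa using hw)]; simp
  have h5 := sq_lintegral_le (volume.restrict (ball (0 : ℂ) ε)) hhm.aemeasurable
  rw [Measure.restrict_apply_univ, vol_ball hε.le] at h5
  have h6 : ∫⁻ w in ball 0 ε, h w ^ 2 = O ε F y := by
    unfold O dif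
    simp only [hh, ← ENNReal.ofReal_pow (norm_nonneg _)]
  rw [h6] at h5
  rw [ENNReal.ofReal_pow (norm_nonneg _)]
  refine (pow_le_pow_left' h4 2).trans ?_
  rw [mul_pow]
  refine (mul_le_mul_right h5 _).trans (le_of_eq ?_)
  rw [mul_comm (O ε F y), ← mul_assoc, ← ENNReal.ofReal_pow (by positivity),
    ← ENNReal.ofReal_mul (by positivity)]
  congr 2
  field_simp

theorem gsq_le : ∃ C : ℝ, 0 < C ∧ ∀ (ε M : ℝ) (F : Phase → E), 0 < ε → StronglyMeasurable F →
    (∀ y, ‖F y‖ ≤ M) → ∀ y,
      ENNReal.ofReal (gsq (ker ε) F y) ≤ ENNReal.ofReal (C / ε ^ 4) * O ε F y := by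
  obtain ⟨C, hC, hb⟩ := ker_bound
  refine ⟨2 * (C ^ 2 * Real.pi), by have := Real.pi_pos; positivity, fun ε M F hε hF hM y => ?_⟩
  have h1 := smD_sq_le hε hC (fun z => (hb ε hε z).2) hF hM (u := 1) (by simp) y
  have h2 := smD_sq_le hε hC (fun z => (hb ε hε z).2) hF hM (u := Complex.I) (by simp) y
  unfold gsq
  rw [ENNReal.ofReal_add (by positivity) (by positivity)]
  refine (add_le_add h1 h2).trans (le_of_eq ?_)
  have := Real.pi_pos
  rw [← add_mul, ← ENNReal.ofReal_add (by positivity) (by positivity)]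
  congr 2
  ring

end Crest.Agent.R103.OscAux
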