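import Crest.Agent.R103.OscA

/-! Row 103: geometric preliminaries for `Osc.lean`. -/

set_option autoImplicit false

namespace Crest.Agent.R103.OscAux

open MeasureTheory Set Filter Topology Metric
open scoped ENNReal ComplexConjugate InnerProductSpace ContDiff

/-- the orbit leaves the close vertex in the time direction `κ` -/
def Out (T : Tri) (κ : ℝ) (y : Phase) : Prop :=
  ∃ j, T.d y.1 = ‖y.1 - T.v j‖ ∧ 0 ≤ κ * (crd (T.v j) y).re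
/-- robustly long in the time direction `κ` -/
def RLk (T : Tri) (κ ρ L : ℝ) (y : Phase) : Prop :=
  ∀ τ ∈ Icc (2 * T.r0) (L + 4 * ρ), 11 * ρ < T.dst y (κ * τ)
/-- robustly short in the time direction `κ` -/
def RSk (T : Tri) (κ ρ L : ℝ) (y : Phase) : Prop :=
  ∃ τ ∈ Icc (2 * T.r0) (L / 2), T.dst y (κ * τ) < 9 * ρ ∧
    ∀ τ' ∈ Icc (2 * T.r0) τ, ρ < T.dst y (κ * τ')

variable {T : Tri} {κ ρ L : ℝ} {y : Phase}

theorem out_or (T : Tri) (y : Phase) : Out T 1 y ∨ Out T (-1) y := by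
  obtain ⟨j, hj⟩ := T.exists_d y.1
  rcases le_total 0 (crd (T.v j) y).re with h | h
  · exact Or.inl ⟨j, hj, by linarith⟩
  · exact Or.inr ⟨j, hj, by linarith⟩

theorem measurableSet_Out (T : Tri) (κ : ℝ) : MeasurableSet {y | Out T κ y} := by
  have : {y | Out T κ y} = ⋃ j, {y : Phase | T.d y.1 = ‖y.1 - T.v j‖} ∩
      {y | 0 ≤ κ * (crd (T.v j) y).re} := by
    ext y; simp [Out]
  rw [this]
  refine MeasurableSet.iUnion fun j => (IsClosed.inter ?_ ?_).measurableSet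
  · exact isClosed_eq (T.continuous_d.comp continuous_fst) (by fun_prop)
  · exact isClosed_le continuous_const
      (continuous_const.mul (Complex.continuous_re.comp (continuous_crd _)))

theorem RLk_one : RLk T 1 ρ L y ↔ T.RL ρ L y := by simp [RLk, Tri.RL]
theorem RSk_one : RSk T 1 ρ L y ↔ T.RS ρ L y := by simp [RSk, Tri.RS]
theorem RLk_neg : RLk T (-1) ρ L y ↔ T.RL ρ L (rev y) := by simp [RLk, Tri.RL, Tri.dst_rev]
theorem RSk_neg : RSk T (-1) ρ L y ↔ T.RS ρ L (rev y) := by simp [RSk, Tri.RS, Tri.dst_rev]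

theorem measurableSet_RLk (hκ : κ = 1 ∨ κ = -1) (hρ : 0 ≤ ρ) :
    MeasurableSet {y | RLk T κ ρ L y} := by
  rcases hκ with rfl | rfl
  · simp only [RLk_one]; exact T.measurableSet_RL ρ L hρ
  · simp only [RLk_neg]; exact continuous_rev.measurable (T.measurableSet_RL ρ L hρ)

theorem μ_bad (hκ : κ = 1 ∨ κ = -1) {b : ℝ≥0∞}
    (h : T.μ {y | T.d y.1 < 4 * ρ ∧ ¬ T.RL ρ L y ∧ ¬ T.RS ρ L y} ≤ b) :
    T.μ {y | T.d y.1 < 4 * ρ ∧ ¬ RLk T κ ρ L y ∧ ¬ RSk T κ ρ L y} ≤ b := by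
  rcases hκ with rfl | rfl
  · simpa only [RLk_one, RSk_one] using h
  · simp only [RLk_neg, RSk_neg]
    refine le_trans ?_ h
    have := Measure.le_map_apply (μ := T.μ) continuous_rev.measurable.aemeasurable
      {y | T.d y.1 < 4 * ρ ∧ ¬ T.RL ρ L y ∧ ¬ T.RS ρ L y}
    rw [T.measurePreserving_rev.map_eq] at this
    exact this

theorem dst_out (hκ : κ = 1 ∨ κ = -1) (hρ : 0 < ρ) (hr : 14 * ρ ≤ T.r0) (hy : y.1 ∈ T.Int)
    (hg : T.Good y) (h2 : 2 * ρ ≤ T.d y.1) (h3 : T.d y.1 ≤ 3 * ρ) (ho : Out T κ y) {τ : ℝ}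
    (h0 : 0 ≤ τ) (hτ : τ ≤ 2 * T.r0) : 2 * ρ ≤ T.dst y (κ * τ) ∧ τ ≤ T.dst y (κ * τ) := by
  obtain ⟨j, hj, hs⟩ := ho
  have hκ2 : κ ^ 2 = 1 := by rcases hκ with rfl | rfl <;> norm_num
  have habs : |κ * τ| = τ := by
    rcases hκ with rfl | rfl
    · rw [one_mul, abs_of_nonneg h0]
    · rw [neg_one_mul, abs_neg, abs_of_nonneg h0]
  have hc : ‖crd (T.v j) y‖ = T.d y.1 := by rw [norm_crd, hj]
  have ha : T.Att y (κ * τ) (T.v j) := by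
    refine (Tri.att_zero hy (by linarith)).prop (hg _) ?_
    rw [norm_line_sub]
    refine (norm_add_le _ _).trans_lt ?_
    rw [hc, Complex.norm_real, Real.norm_eq_abs, habs]
    linarith
  rw [ha.dst_eq, norm_line_sub]
  have e : ‖crd (T.v j) y + ((κ * τ : ℝ) : ℂ)‖ ^ 2 =
      T.d y.1 ^ 2 + 2 * (κ * (crd (T.v j) y).re) * τ + τ ^ 2 := by
    rw [← hc, Complex.sq_norm, Complex.sq_norm, Complex.normSq_apply, Complex.normSq_apply]
    simp only [Complex.add_re, Complex.add_im, Complex.ofReal_re, Complex.ofReal_im, add_zero]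
    linear_combination τ ^ 2 * hκ2
  have h4 : 0 ≤ 2 * (κ * (crd (T.v j) y).re) * τ := by positivity
  constructor
  · refine h2.trans ((sq_le_sq₀ (T.d_nonneg _) (norm_nonneg _)).1 ?_)
    rw [e]; nlinarith
  · refine (sq_le_sq₀ h0 (norm_nonneg _)).1 ?_
    rw [e]; nlinarith

theorem tube_hyp (hκ : κ = 1 ∨ κ = -1) (hρ : 0 < ρ) {t : ℝ} (ht : 0 ≤ t)
    (h : ∀ τ ∈ Icc 0 t, ρ < T.dst y (κ * τ)) {w : ℂ} (hw : ‖w‖ < T.c0 * ρ / 4) :
    ∀ τ ∈ uIcc 0 (κ * t), ‖w‖ < T.c0 * T.dst y τ := by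
  intro τ hτ
  have hc := T.c0_pos
  have h1 : ρ < T.dst y τ := by
    rcases hκ with rfl | rfl
    · rw [one_mul, uIcc_of_le ht] at hτ
      simpa using h τ hτ
    · rw [neg_one_mul, uIcc_of_ge (by linarith)] at hτ
      simpa using h (-τ) ⟨by linarith [hτ.2], by linarith [hτ.1]⟩
  nlinarith

theorem mem_uIcc_mul (hκ : κ = 1 ∨ κ = -1) {t τ : ℝ} (hτ : τ ∈ Icc 0 t) :
    κ * τ ∈ uIcc 0 (κ * t) := by
  rcases hκ with rfl | rfl
  · rw [one_mul, one_mul]; exact Icc_subset_uIcc hτ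
  · exact mem_uIcc_of_ge (by linarith [hτ.2]) (by linarith [hτ.1])

theorem short_of_both {R τ₀ : ℝ} (hR : R ≤ T.r0) (h0 : |τ₀| < T.r0) (he : T.Ev R y τ₀)
    (hp : T.Prev R L y τ₀) (hn : T.Next R L y τ₀) : T.Short R L y := by
  obtain ⟨s, hs, hs1, hs2⟩ := hp
  obtain ⟨t, ht, ht1, ht2⟩ := hn
  have h1 := he.sep hR hs hs2.ne'
  have h2 := he.sep hR ht ht1.ne
  rw [abs_of_neg (by linarith)] at h1
  rw [abs_of_pos (by linarith)] at h2
  rw [abs_lt] at h0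
  have := T.r0_pos
  rcases le_or_gt τ₀ 0 with h | h
  · exact ⟨τ₀, t, he, ht, h, by linarith, by linarith⟩
  · exact ⟨s, τ₀, hs, he, by linarith, h, by linarith⟩

theorem prev_or_next {R τ₀ : ℝ} (hR : R ≤ T.r0) (h0 : |τ₀| < T.r0) (he : T.Ev R y τ₀)
    (h : T.Short R L y) : T.Prev R L y τ₀ ∨ T.Next R L y τ₀ := by
  obtain ⟨s, t, hs, ht, hs0, ht0, hL⟩ := h
  rw [abs_lt] at h0
  have := T.r0_pos
  have h1 : s ≤ τ₀ := by
    by_contra hc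
    have := he.sep hR hs (by intro h; rw [h] at hc; exact hc le_rfl)
    rw [abs_of_pos (by linarith)] at this
    linarith
  have h2 : τ₀ ≤ t := by
    by_contra hc
    have := he.sep hR ht (by intro h; rw [h] at hc; exact hc le_rfl)
    rw [abs_of_neg (by linarith)] at this
    linarith
  rcases lt_or_eq_of_le h2 with h3 | h3
  · exact Or.inr ⟨t, ht, h3, by linarith⟩
  · exact Or.inl ⟨s, hs, by linarith, by linarith⟩

theorem own_event (hρ : 0 < ρ) (hr : 14 * ρ ≤ T.r0) (hg : T.Good y) (h0 : T.dst y 0 < 4 * ρ) :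
    ∃ τ₀, |τ₀| < 4 * ρ ∧ T.Ev (10 * ρ) y τ₀ := by
  obtain ⟨s, hs, he⟩ := Tri.ev_of_dst_lt (R := 10 * ρ) (τ := 0) hg (by linarith) (by linarith)
  exact ⟨s, by rw [sub_zero] at hs; linarith, he⟩

theorem short_of (hκ : κ = 1 ∨ κ = -1) (hρ : 0 < ρ) (hr : 14 * ρ ≤ T.r0) (hg : T.Good y)
    (h0 : T.dst y 0 < 4 * ρ) (hW : ¬ T.W (10 * ρ) L y) {τ : ℝ} (hτ : τ ∈ Icc (2 * T.r0) (L / 2))
    (hd : T.dst y (κ * τ) < 10 * ρ) : T.Short (10 * ρ) L y := by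
  obtain ⟨τ₀, h1, he⟩ := own_event hρ hr hg h0
  have h1' : |τ₀| < T.r0 := by linarith
  have hiff : T.Prev (10 * ρ) L y τ₀ ↔ T.Next (10 * ρ) L y τ₀ := by
    by_contra hc
    exact hW ⟨τ₀, h1', he, hc⟩
  obtain ⟨s, hs, hes⟩ := Tri.ev_of_dst_lt hg (by linarith) hd
  have hs' := hs.trans_lt hd
  rw [abs_lt] at hs' h1
  obtain ⟨t1, t2⟩ := hτ
  rcases hκ with rfl | rfl
  · have hn : T.Next (10 * ρ) L y τ₀ := ⟨s, hes, by linarith, by linarith⟩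
    exact short_of_both (by linarith) h1' he (hiff.2 hn) hn
  · have hp : T.Prev (10 * ρ) L y τ₀ := ⟨s, hes, by linarith, by linarith⟩
    exact short_of_both (by linarith) h1' he hp (hiff.1 hp)

theorem not_short_of (hκ : κ = 1 ∨ κ = -1) (hρ : 0 < ρ) (hr : 14 * ρ ≤ T.r0) (hg : T.Good y)
    (h0 : T.dst y 0 < 4 * ρ) (hW : ¬ T.W (10 * ρ) L y)
    (hd : ∀ τ ∈ Icc (2 * T.r0) (L + 4 * ρ), 10 * ρ ≤ T.dst y (κ * τ)) :
    ¬ T.Short (10 * ρ) L y := by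
  obtain ⟨τ₀, h1, he⟩ := own_event hρ hr hg h0
  have h1' : |τ₀| < T.r0 := by linarith
  have hR : 10 * ρ ≤ T.r0 := by linarith
  have hiff : T.Prev (10 * ρ) L y τ₀ ↔ T.Next (10 * ρ) L y τ₀ := by
    by_contra hc
    exact hW ⟨τ₀, h1', he, hc⟩
  intro hS
  have hboth : T.Prev (10 * ρ) L y τ₀ ∧ T.Next (10 * ρ) L y τ₀ := by
    rcases prev_or_next hR h1' he hS with h | h
    exacts [⟨h, hiff.1 h⟩, ⟨hiff.2 h, h⟩]
  rw [abs_lt] at h1
  rcases hκ with rfl | rfl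
  · obtain ⟨t, ht, ht1, ht2⟩ := hboth.2
    have h2 := he.sep hR ht ht1.ne
    rw [abs_of_pos (by linarith)] at h2
    have h3 := hd t ⟨by linarith, by linarith⟩
    rw [one_mul] at h3
    linarith [ht.dst_lt]
  · obtain ⟨t, ht, ht1, ht2⟩ := hboth.1
    have h2 := he.sep hR ht ht2.ne'
    rw [abs_of_neg (by linarith)] at h2
    have h3 := hd (-t) ⟨by linarith, by linarith⟩
    rw [neg_mul_neg, one_mul] at h3
    linarith [ht.dst_lt]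

theorem lt_dst_of_RLk (hκ : κ = 1 ∨ κ = -1) (hρ : 0 < ρ) (hr : 14 * ρ ≤ T.r0) (hy : y.1 ∈ T.Int)
    (hg : T.Good y) (h2 : 2 * ρ ≤ T.d y.1) (h3 : T.d y.1 ≤ 3 * ρ) (ho : Out T κ y)
    (hL : RLk T κ ρ L y) {τ : ℝ} (hτ : τ ∈ Icc 0 (L + 4 * ρ)) :
    ρ < T.dst y (κ * τ) ∧ (8 * ρ ≤ τ → 3 * ρ < T.dst y (κ * τ)) := by
  rcases le_total τ (2 * T.r0) with h | h
  · obtain ⟨a, b⟩ := dst_out hκ hρ hr hy hg h2 h3 ho hτ.1 h
    exact ⟨by linarith, fun _ => by linarith⟩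
  · have := hL τ ⟨h, hτ.2⟩
    exact ⟨by linarith, fun _ => by linarith⟩

/-- both points of a good pair are short or both are long -/
theorem pair (hκ : κ = 1 ∨ κ = -1) (hρ : 0 < ρ) (hr : 14 * ρ ≤ T.r0) (hL0 : 0 ≤ L)
    (hy : y.1 ∈ T.Int) (hg : T.Good y) (h2 : 2 * ρ ≤ T.d y.1) (h3 : T.d y.1 ≤ 3 * ρ)
    (ho : Out T κ y) {w : ℂ} (hw : ‖w‖ < T.c0 * ρ / 4) (hi : (T.fold (tr w y)).1 ∈ T.Int)
    (hg₂ : T.Good (T.fold (tr w y))) (hW : ¬ (T.d y.1 < 14 * ρ ∧ T.W (10 * ρ) L y))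
    (hW₂ : ¬ (T.d (T.fold (tr w y)).1 < 14 * ρ ∧ T.W (10 * ρ) L (T.fold (tr w y)))) :
    (RSk T κ ρ L y → T.Short (10 * ρ) L y ∧ T.Short (10 * ρ) L (T.fold (tr w y))) ∧
    (RLk T κ ρ L y → ¬ T.Short (10 * ρ) L y ∧ ¬ T.Short (10 * ρ) L (T.fold (tr w y))) := by
  have hc := T.c0_le
  have hc0 := T.c0_pos
  have hwρ : ‖w‖ < ρ := by nlinarith
  have hd0 : T.dst y 0 = T.d y.1 := Tri.dst_zero hy
  have hclose : ∀ t, 0 ≤ t → (∀ τ ∈ Icc 0 t, ρ < T.dst y (κ * τ)) → ∀ τ ∈ Icc 0 t,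
      |T.dst (T.fold (tr w y)) (κ * τ) - T.dst y (κ * τ)| < ρ := fun t ht h τ hτ =>
    (Tri.tube_fold hi (tube_hyp hκ hρ ht h hw) (mem_uIcc_mul hκ hτ)).1.trans_lt hwρ
  have h00 := hclose 0 le_rfl (fun τ hτ => by
    obtain rfl : τ = 0 := le_antisymm hτ.2 hτ.1
    rw [mul_zero, hd0]; linarith) 0 ⟨le_rfl, le_rfl⟩
  rw [mul_zero, abs_lt, hd0] at h00
  have h0 : T.dst y 0 < 4 * ρ := by linarith
  have h0₂ : T.dst (T.fold (tr w y)) 0 < 4 * ρ := by linarith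
  have hW' : ¬ T.W (10 * ρ) L y := fun h => hW ⟨by linarith, h⟩
  have hW₂' : ¬ T.W (10 * ρ) L (T.fold (tr w y)) := fun h =>
    hW₂ ⟨by rw [← Tri.dst_zero hi]; linarith, h⟩
  have hr0 := T.r0_pos
  constructor
  · rintro ⟨τ, hτ, hd, hlow⟩
    have h4 := hclose τ (by linarith [hτ.1]) (fun s hs => by
      rcases le_total s (2 * T.r0) with h | h
      · linarith [(dst_out hκ hρ hr hy hg h2 h3 ho hs.1 h).1]
      · exact hlow s ⟨h, hs.2⟩) τ ⟨by linarith [hτ.1], le_rfl⟩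
    rw [abs_lt] at h4
    exact ⟨short_of hκ hρ hr hg h0 hW' hτ (by linarith),
      short_of hκ hρ hr hg₂ h0₂ hW₂' hτ (by linarith)⟩
  · intro hL
    refine ⟨not_short_of hκ hρ hr hg h0 hW' fun τ hτ => by linarith [hL τ hτ],
      not_short_of hκ hρ hr hg₂ h0₂ hW₂' fun τ hτ => ?_⟩
    have h4 := hclose (L + 4 * ρ) (by linarith)
      (fun s hs => (lt_dst_of_RLk hκ hρ hr hy hg h2 h3 ho hL hs).1) τ ⟨by linarith [hτ.1], hτ.2⟩
    rw [abs_lt] at h4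
    linarith [hL τ hτ]

end Crest.Agent.R103.OscAux
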