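import Crest.Agent.R103.Meas

/-! Row 103: separatrices, entry times and outgoing directions. -/

set_option autoImplicit false
set_option linter.unusedVariables false

namespace Crest.Agent.R103

open MeasureTheory Set Filter Topology
open scoped ENNReal ComplexConjugate InnerProductSpace ContDiff

namespace Tri

variable (T : Tri)

theorem tt_bdd (s : ℝ) (j : Fin 3) (θ : Ang) :
    BddBelow ({τ | T.r0 ≤ τ ∧ T.dst (T.sep j θ) (τ - T.r0) < s} ∪ {1 / s}) := by
  refine ⟨min T.r0 (1 / s), ?_⟩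
  rintro τ (h | h)
  · exact (min_le_left _ _).trans h.1
  · exact (min_le_right _ _).trans (le_of_eq (mem_singleton_iff.1 h).symm)
theorem tt_ne (s : ℝ) (j : Fin 3) (θ : Ang) :
    ({τ | T.r0 ≤ τ ∧ T.dst (T.sep j θ) (τ - T.r0) < s} ∪ {1 / s}).Nonempty :=
  ⟨1 / s, Or.inr rfl⟩
theorem tt_le {s : ℝ} (hs : 0 < s) (j : Fin 3) (θ : Ang) : T.tt s j θ ≤ 1 / s := by
  exact csInf_le (T.tt_bdd s j θ) (Or.inr rfl)
theorem le_tt {s : ℝ} (hs : 0 < s) (hs' : s ≤ 1 / T.r0) (j : Fin 3) (θ : Ang) :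
    T.r0 ≤ T.tt s j θ := by
  refine le_csInf (T.tt_ne s j θ) ?_
  rintro τ (h | h)
  · exact h.1
  · rw [mem_singleton_iff.1 h, le_div_iff₀ hs]
    have h0 := T.r0_pos
    rw [le_div_iff₀ h0] at hs'
    linarith
theorem tt_anti {s s' : ℝ} (hs : 0 < s) (h : s ≤ s') (j : Fin 3) (θ : Ang) :
    T.tt s' j θ ≤ T.tt s j θ := by
  refine le_csInf (T.tt_ne s j θ) ?_
  rintro τ (h1 | h1)
  · exact csInf_le (T.tt_bdd s' j θ) (Or.inl ⟨h1.1, h1.2.trans_le h⟩)
  · rw [mem_singleton_iff.1 h1]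
    exact (T.tt_le (hs.trans_le h) j θ).trans (one_div_le_one_div_of_le hs h)
theorem tt_le_of_dst_lt {s τ : ℝ} (hs : 0 < s) {j : Fin 3} {θ : Ang} (hτ : T.r0 ≤ τ)
    (h : T.dst (T.sep j θ) (τ - T.r0) < s) : T.tt s j θ ≤ τ := by
  exact csInf_le (T.tt_bdd s j θ) (Or.inl ⟨hτ, h⟩)
theorem le_dst_of_lt_tt {s τ : ℝ} (hs : 0 < s) {j : Fin 3} {θ : Ang} (hτ : T.r0 ≤ τ)
    (h : τ < T.tt s j θ) : s ≤ T.dst (T.sep j θ) (τ - T.r0) := by
  by_contra hlt
  exact absurd (T.tt_le_of_dst_lt hs hτ (not_le.1 hlt)) (not_le.2 h)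
theorem le_tt_of_dst {s c : ℝ} (hs : 0 < s) {j : Fin 3} {θ : Ang} (hc : c ≤ 1 / s)
    (h : ∀ τ, T.r0 ≤ τ → τ < c → s ≤ T.dst (T.sep j θ) (τ - T.r0)) : c ≤ T.tt s j θ := by
  refine le_csInf (T.tt_ne s j θ) ?_
  rintro τ (h1 | h1)
  · by_contra hlt
    exact absurd (h τ h1.1 (not_le.1 hlt)) (not_le.2 h1.2)
  · rw [mem_singleton_iff.1 h1]; exact hc
theorem dst_tt_le {s : ℝ} (hs : 0 < s) {j : Fin 3} {θ : Ang} (h : T.tt s j θ < 1 / s) :
    T.r0 ≤ T.tt s j θ ∧ T.dst (T.sep j θ) (T.tt s j θ - T.r0) ≤ s := by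
  have h1 : T.r0 ≤ T.tt s j θ := by
    by_contra hlt
    have : min T.r0 (1 / s) ≤ T.tt s j θ := by
      refine T.le_tt_of_dst hs (min_le_right _ _) fun τ h1 h2 => ?_
      exact absurd (h2.trans_le (min_le_left _ _)) (not_lt.2 h1)
    rcases min_le_iff.1 this with h2 | h2
    · exact hlt h2
    · exact absurd h (not_lt.2 h2)
  refine ⟨h1, le_of_forall_pos_lt_add fun ε hε => ?_⟩
  have hlt : T.tt s j θ < min (1 / s) (T.tt s j θ + ε) := lt_min h (by linarith)
  obtain ⟨τ, hτ, hτ2⟩ := exists_lt_of_csInf_lt (T.tt_ne s j θ) hlt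
  have hle : T.tt s j θ ≤ τ := csInf_le (T.tt_bdd s j θ) hτ
  rcases hτ with hτ | hτ
  · have h3 := T.abs_dst_sub_le (T.sep j θ) (T.tt s j θ - T.r0) (τ - T.r0)
    have h4 : τ < T.tt s j θ + ε := hτ2.trans_le (min_le_right _ _)
    have h5 : |T.tt s j θ - T.r0 - (τ - T.r0)| < ε := by
      rw [abs_lt]; constructor <;> linarith
    have h6 := (abs_le.1 h3).2
    have h7 := hτ.2
    linarith
  · rw [mem_singleton_iff.1 hτ] at hτ2
    exact absurd (hτ2.trans_le (min_le_left _ _)) (lt_irrefl _)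
theorem measurable_tt {s : ℝ} (hs : 0 < s) (j : Fin 3) : Measurable (T.tt s j) := by
  have hsep : Measurable (T.sep j) := by
    have := continuous_e
    refine Continuous.measurable ?_
    unfold sep; fun_prop
  refine measurable_of_Iio fun c => ?_
  have key : T.tt s j ⁻¹' Iio c = {θ | 1 / s < c} ∪
      ⋃ q : ℚ, {θ | (0 ≤ (q : ℝ) ∧ (q : ℝ) + T.r0 < c) ∧ T.dst (T.sep j θ) q < s} := by
    ext θ
    simp only [mem_preimage, mem_Iio, mem_union, mem_ofPred_eq, mem_iUnion]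
    constructor
    · intro h
      obtain ⟨τ, hτ, hτ2⟩ := exists_lt_of_csInf_lt (T.tt_ne s j θ) h
      rcases hτ with hτ | hτ
      · right
        obtain ⟨q, hq1, hq2⟩ := exists_rat_btwn (show τ - T.r0 <
          min (c - T.r0) (τ - T.r0 + (s - T.dst (T.sep j θ) (τ - T.r0))) from
          lt_min (by linarith) (by linarith [hτ.2]))
        have h1 := hq2.trans_le (min_le_left _ _)
        have h2 := hq2.trans_le (min_le_right _ _)
        have h3 := (abs_le.1 (T.abs_dst_sub_le (T.sep j θ) q (τ - T.r0))).2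
        rw [abs_of_pos (by linarith)] at h3
        exact ⟨q, ⟨by linarith [hτ.1], by linarith⟩, by linarith⟩
      · left; rwa [mem_singleton_iff.1 hτ] at hτ2
    · rintro (h | ⟨q, ⟨h1, h2⟩, h3⟩)
      · exact (T.tt_le hs j θ).trans_lt h
      · refine (T.tt_le_of_dst_lt hs (τ := q + T.r0) (by linarith) ?_).trans_lt h2
        rwa [add_sub_cancel_right]
  rw [key]
  refine (MeasurableSet.const _).union (MeasurableSet.iUnion fun q => ?_)
  refine (MeasurableSet.const _).inter ?_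
  exact measurableSet_lt (T.measurable_dst.comp (measurable_const.prodMk hsep)) measurable_const
theorem line_sep (j : Fin 3) (θ : Ang) (τ : ℝ) :
    line (T.sep j θ) (τ - T.r0) = T.v j + τ • e θ := by
  simp only [line, sep, sub_smul]; ring
/-- while it is close to its vertex, the separatrix is at distance `τ` from the vertices -/
theorem dst_sep {j : Fin 3} {θ : Ang} (h : (T.sep j θ).1 ∈ T.Int) {τ : ℝ} (h0 : 0 < τ)
    (h4 : τ < 4 * T.r0) : T.dst (T.sep j θ) (τ - T.r0) = τ := by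
  have hr := T.r0_pos
  have hn : ∀ t : ℝ, ‖line (T.sep j θ) t - T.v j‖ = |t + T.r0| := fun t => by
    have := T.line_sep j θ (t + T.r0)
    rw [add_sub_cancel_right] at this
    rw [this, add_sub_cancel_left, norm_smul, norm_e, mul_one, Real.norm_eq_abs]
  have h1 : T.Att (T.sep j θ) 0 (T.v j) := by
    refine att_zero h ?_
    have := hn 0
    rw [line_zero, zero_add, abs_of_pos hr] at this
    rw [this]; linarith
  have h2 : T.Att (T.sep j θ) (τ - T.r0) (T.v j) := by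
    refine h1.extend ?_ fun t ht hv => ?_
    · rw [hn, sub_add_cancel, abs_of_pos h0]; exact h4
    · have h3 := hn t
      rw [hv, sub_self, norm_zero] at h3
      have h5 : 0 < t + T.r0 := by
        rcases mem_uIcc.1 ht with h6 | h6
        · linarith [h6.1]
        · linarith [h6.1]
      rw [abs_of_pos h5] at h3
      linarith
  rw [h2.dst_eq, hn, sub_add_cancel, abs_of_pos h0]
theorem measurableSet_Exc (s : ℝ) : MeasurableSet (T.Exc s) := by
  have : T.Exc s = ⋃ i, {θ | |⟪T.ν i, e θ⟫_ℝ| ≤ s} := by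
    ext θ; simp [Exc]
  rw [this]
  refine MeasurableSet.iUnion fun i => IsClosed.measurableSet ?_
  have := continuous_e
  exact isClosed_le (by fun_prop) continuous_const
theorem exc_small {η : ℝ} (hη : 0 < η) : ∃ s : ℝ, 0 < s ∧ volume (T.Exc s) ≤ ENNReal.ofReal η := by
  have h0 : volume (T.Exc 0) = 0 := by
    have hfin : (T.Exc 0).Finite := by
      refine Finite.of_finite_image (f := e) ?_ e_injective.injOn
      refine ((finite_range fun i => Complex.I * T.ν i).union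
        (finite_range fun i => -(Complex.I * T.ν i))).subset ?_
      rintro _ ⟨θ, ⟨i, hi⟩, rfl⟩
      have h1 : ⟪T.ν i, e θ⟫_ℝ = 0 := abs_nonpos_iff.1 hi
      have h2 : (e (θ - T.n i)).re = 0 := by
        rw [e_sub, ← h1, Complex.inner]; rfl
      have h3 : ‖e (θ - T.n i)‖ = 1 := norm_e _
      have h4 : e θ = e (θ - T.n i) * T.ν i := by rw [ν, ← e_add, sub_add_cancel]
      have h5 : (e (θ - T.n i)).im ^ 2 = 1 := by
        have := Complex.sq_norm (e (θ - T.n i))
        rw [h3, Complex.normSq_apply, h2] at this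
        linarith
      rcases sq_eq_one_iff.1 h5 with h6 | h6
      · left; refine ⟨i, ?_⟩
        have h7 : e (θ - T.n i) = Complex.I := Complex.ext (by simp [h2]) (by simp [h6])
        rw [h4, h7]
      · right; refine ⟨i, ?_⟩
        have h7 : e (θ - T.n i) = -Complex.I := Complex.ext (by simp [h2]) (by simp [h6])
        rw [h4, h7, neg_mul]
    refine le_antisymm ?_ bot_le
    rw [← biUnion_of_singleton (T.Exc 0), (measure_biUnion_null_iff hfin.countable).2]
    intro θ _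
    rw [← Metric.closedBall_zero, AddCircle.volume_closedBall]
    simp [Real.pi_pos.le]
  have hanti : Antitone fun n : ℕ => T.Exc (1 / ((n : ℝ) + 1)) := by
    intro m n hmn θ ⟨i, hi⟩
    refine ⟨i, hi.trans (one_div_le_one_div_of_le (by positivity) ?_)⟩
    have : (m : ℝ) ≤ n := by exact_mod_cast hmn
    linarith
  have hint : ⋂ n : ℕ, T.Exc (1 / ((n : ℝ) + 1)) = T.Exc 0 := by
    refine Subset.antisymm (fun θ hθ => ?_) fun θ ⟨i, hi⟩ => mem_iInter.2 fun n =>
      ⟨i, hi.trans (by positivity)⟩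
    by_contra hn
    have hp : ∀ i, 0 < |⟪T.ν i, e θ⟫_ℝ| := fun i => not_le.1 fun h => hn ⟨i, h⟩
    have hev : ∀ᶠ n : ℕ in atTop, ∀ i, 1 / ((n : ℝ) + 1) < |⟪T.ν i, e θ⟫_ℝ| :=
      eventually_all.2 fun i =>
        (tendsto_one_div_add_atTop_nhds_zero_nat (𝕜 := ℝ)).eventually (gt_mem_nhds (hp i))
    obtain ⟨n, hn'⟩ := hev.exists
    obtain ⟨i, hi⟩ := mem_iInter.1 hθ n
    exact absurd (hn' i) (not_lt.2 hi)
  have hlim := tendsto_measure_iInter_atTop (μ := (volume : Measure Ang))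
    (fun n : ℕ => (T.measurableSet_Exc (1 / ((n : ℝ) + 1))).nullMeasurableSet) hanti
    ⟨0, measure_ne_top _ _⟩
  rw [hint, h0] at hlim
  obtain ⟨n, hn⟩ := (hlim.eventually (ge_mem_nhds (ENNReal.ofReal_pos.2 hη))).exists
  exact ⟨1 / ((n : ℝ) + 1), by positivity, hn⟩
/-- a non-exceptional outgoing direction points into the triangle -/
theorem sep_int {s : ℝ} {j : Fin 3} {y : Phase} (hy : y.1 ∈ T.Int) (hθ : y.2 ∉ T.Exc s)
    (hre : T.r0 ≤ (crd (T.v j) y).re) (him : |(crd (T.v j) y).im| ≤ s * T.r0) {ζ : ℂ}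
    (h0 : 0 < ζ.re) (h1 : |ζ.im| ≤ s * ζ.re) (h2 : ‖ζ‖ < 10 * T.r0) :
    T.v j + ζ * e y.2 ∈ T.Int := by
  intro i
  by_cases hij : i = j
  · subst hij
    refine T.ell_pos_of_near ?_
    rwa [add_sub_cancel_left, norm_mul, norm_e, mul_one]
  have hr := T.r0_pos
  have hs : 0 ≤ s := by
    by_contra hs
    have : s * T.r0 < 0 := mul_neg_of_neg_of_pos (not_le.1 hs) hr
    linarith [abs_nonneg (crd (T.v j) y).im]
  set a := ⟪T.ν i, e y.2⟫_ℝ with ha
  set b := ⟪T.ν i, Complex.I * e y.2⟫_ℝ with hb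
  have key : ∀ ξ : ℂ, T.ell i (T.v j + ξ * e y.2) = ξ.re * a + ξ.im * b := fun ξ => by
    rw [T.ell_add, T.ell_v, if_neg hij, zero_add, ha, hb, ← real_inner_smul_right,
      ← real_inner_smul_right, ← inner_add_right]
    congr 1
    conv_lhs => rw [← Complex.re_add_im ξ]
    simp only [Complex.real_smul]; ring
  have hb1 : |b| ≤ 1 := by
    have := abs_real_inner_le_norm (T.ν i) (Complex.I * e y.2)
    rwa [norm_ν, norm_mul, Complex.norm_I, norm_e, one_mul, one_mul] at this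
  have has : s < |a| := not_le.1 fun h => hθ ⟨i, h⟩
  have hy' := hy i
  have hyv : y.1 = T.v j + crd (T.v j) y * e y.2 := by rw [crd_mul]; ring
  rw [hyv, key] at hy'
  have hpb : ∀ ξ : ℂ, |ξ.im * b| ≤ |ξ.im| := fun ξ => by
    rw [abs_mul]; exact mul_le_of_le_one_right (abs_nonneg _) hb1
  have hapos : s < a := by
    rcases lt_abs.1 has with h | h
    · exact h
    · exfalso
      have h3 := (abs_le.1 (hpb (crd (T.v j) y))).2
      have h4 : (crd (T.v j) y).re * a ≤ T.r0 * a :=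
        mul_le_mul_of_nonpos_right hre (by linarith)
      have h5 : T.r0 * a < T.r0 * (-s) := mul_lt_mul_of_pos_left (by linarith) hr
      linarith
  rw [key]
  have h3 := (abs_le.1 (hpb ζ)).1
  have h4 : ζ.re * s < ζ.re * a := mul_lt_mul_of_pos_left hapos h0
  linarith
/-- flowing a point close to `v j` for the time `2 r0` -/
theorem prong {j : Fin 3} {y : Phase} {A : Iso} (hj : ‖y.1 - T.v j‖ < T.r0)
    (h : T.Rch (2 * T.r0) y A) :
    (crd (T.v j) (T.flow (2 * T.r0) y)).re = (crd (T.v j) y).re + 2 * T.r0 ∧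
      |(crd (T.v j) (T.flow (2 * T.r0) y)).im| = |(crd (T.v j) y).im| := by
  have hr := T.r0_pos
  have hA : A • T.v j = T.v j := by
    refine h.1.smul_v (by linarith) ?_
    have h1 := norm_line_sub_line y (2 * T.r0) 0
    rw [line_zero, sub_zero, abs_of_pos (by linarith)] at h1
    have h2 := norm_sub_le_norm_sub_add_norm_sub (line y (2 * T.r0)) y.1 (T.v j)
    linarith
  rw [h.flow_eq]
  constructor
  · conv_lhs => rw [← hA]
    rw [crd_smul_re, crd_sh]; simp
  · conv_lhs => rw [← hA]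
    rw [crd_smul_im, crd_sh]; simp
theorem prong_le {B : Fin 3 → Set Ang} (hB : ∀ j, MeasurableSet (B j)) {s : ℝ} (hs : 0 < s)
    (hs' : s ≤ T.r0) :
    T.μ {y | ∃ j, ‖y.1 - T.v j‖ < s ∧ (T.flow (2 * T.r0) y).2 ∈ B j} ≤
      ∑ j, ENNReal.ofReal (Real.pi * s ^ 2) * volume (B j) := by
  let C : Fin 3 → Set Phase := fun j =>
    {y | crd (T.v j) y ∈ Metric.ball ((2 * T.r0 : ℝ) : ℂ) s ∧
      y.2 + (fun _ : ℂ => (0 : Ang)) (crd (T.v j) y) ∈ B j}
  have hC : ∀ j, MeasurableSet (C j) := fun j => by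
    refine ((continuous_crd _).measurable measurableSet_ball).inter ?_
    exact (measurable_snd.add_const _) (hB j)
  have hsub : ∀ᵐ y ∂T.μ, y ∈ {y : Phase | ∃ j, ‖y.1 - T.v j‖ < s ∧ (T.flow (2 * T.r0) y).2 ∈ B j} →
      y ∈ ⋃ j, T.flow (2 * T.r0) ⁻¹' C j := by
    filter_upwards [T.ae_rch (2 * T.r0)] with y ⟨A, hA⟩ ⟨j, h1, h2⟩
    obtain ⟨h3, h4⟩ := T.prong (h1.trans_le hs') hA
    refine mem_iUnion.2 ⟨j, ?_, by simpa using h2⟩
    rw [← norm_crd] at h1
    rw [mem_ball_iff_norm]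
    refine lt_of_eq_of_lt ?_ h1
    rw [Complex.norm_eq_sqrt_sq_add_sq, Complex.norm_eq_sqrt_sq_add_sq]
    simp only [Complex.sub_re, Complex.sub_im, Complex.ofReal_re, Complex.ofReal_im, sub_zero, h3,
      add_sub_cancel_right]
    rw [← sq_abs (crd (T.v j) (T.flow (2 * T.r0) y)).im, h4, sq_abs]
  refine (measure_mono_ae hsub).trans ((measure_iUnion_fintype_le _ _).trans ?_)
  refine Finset.sum_le_sum fun j _ => ?_
  rw [(T.measurePreserving_flow _).measure_preimage (hC j).nullMeasurableSet]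
  have h1 : T.μ (C j) ≤ volume (C j) := by
    rw [T.μ_eq]; exact Measure.restrict_apply_le _ _
  refine h1.trans (le_of_eq ?_)
  rw [crd_measure _ measurableSet_ball measurable_const (hB j), Complex.volume_ball,
    ENNReal.ofReal_mul Real.pi_pos.le, ENNReal.ofReal_pow hs.le, mul_comm (ENNReal.ofReal Real.pi)]
  congr 2
  rw [← NNReal.coe_real_pi, ENNReal.ofReal_coe_nnreal]

end Tri

end Crest.Agent.R103
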